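import Vale.Agent.P321.Super.Bridge

/-!
# P321: from a family of close pairs indexed by a scale to every length
-/

namespace Vale.Agent.P321.Super

open Finset Filter

/-- If at every large scale `l` two different words of equal length at most `l ^ E` have trace laws
within `l ^ -P` in total variation, and `E (A + 1) < P`, then every large length has a pair within
`n ^ -(A + 1)`. -/
theorem pairs_eventually {p : ℝ} {A E P l₀ : ℕ} (hE : 1 ≤ E) (hP : E * (A + 1) < P)
    (h : ∀ l : ℕ, l₀ ≤ l → ∃ w w' : List Bool, w.length = w'.length ∧ w ≠ w' ∧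
      w.length ≤ l ^ E ∧ l1 (tr p w - tr p w') * (l : ℝ) ^ P ≤ 1) :
    ∀ᶠ n : ℕ in atTop, ∃ N ≤ n, ∃ w w' : List Bool, w.length = N ∧ w'.length = N ∧ w ≠ w' ∧
      tvSum p N w w' * (n : ℝ) ^ (A + 1) ≤ 1 := by
  classical
  set M := max (max l₀ 1) (2 ^ (E * (A + 1))) with hM
  filter_upwards [eventually_ge_atTop (M ^ E)] with n hn
  set l := Nat.findGreatest (fun l => l ^ E ≤ n) n with hl
  have hMn : M ≤ n := (Nat.le_self_pow (by omega) M).trans hn
  have hlM : M ≤ l := Nat.le_findGreatest hMn hn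
  have hln : l ^ E ≤ n := Nat.findGreatest_spec (P := fun l => l ^ E ≤ n) hMn hn
  have hl1 : 1 ≤ l := le_trans (le_max_right _ _) ((le_max_left _ _).trans hlM)
  have hnl : n ≤ (2 * l) ^ E := by
    rcases le_or_gt (l + 1) n with h' | h'
    · have := Nat.findGreatest_is_greatest (P := fun l => l ^ E ≤ n) (Nat.lt_succ_self l) h'
      exact (Nat.le_of_lt (not_le.1 this)).trans (Nat.pow_le_pow_left (by omega) E)
    · exact le_trans (by omega : n ≤ 2 * l) (Nat.le_self_pow (by omega) _)
  obtain ⟨w, w', hlen, hne, hwl, htv⟩ := h l (((le_max_left _ _).trans (le_max_left _ _)).trans hlM)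
  refine ⟨w.length, hwl.trans hln, w, w', rfl, hlen.symm, hne, ?_⟩
  rw [tvSum_eq_l1 p le_rfl hlen.symm.le]
  have hlR : (1 : ℝ) ≤ l := by exact_mod_cast hl1
  calc l1 (tr p w - tr p w') * (n : ℝ) ^ (A + 1)
      ≤ l1 (tr p w - tr p w') * ((2 * l : ℕ) ^ E : ℝ) ^ (A + 1) := by
        refine mul_le_mul_of_nonneg_left ?_ (l1_nonneg _)
        gcongr
        exact_mod_cast hnl
    _ = l1 (tr p w - tr p w') * ((2 : ℝ) ^ (E * (A + 1)) * (l : ℝ) ^ (E * (A + 1))) := by
        push_cast
        rw [← pow_mul, mul_pow]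
    _ ≤ l1 (tr p w - tr p w') * ((l : ℝ) * (l : ℝ) ^ (E * (A + 1))) := by
        refine mul_le_mul_of_nonneg_left ?_ (l1_nonneg _)
        gcongr
        exact_mod_cast (le_max_right _ _).trans hlM
    _ ≤ l1 (tr p w - tr p w') * (l : ℝ) ^ P := by
        refine mul_le_mul_of_nonneg_left ?_ (l1_nonneg _)
        rw [← pow_succ']
        exact pow_le_pow_right₀ hlR hP
    _ ≤ 1 := htv

end Vale.Agent.P321.Super
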