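import Vale.Agent.P321.Super.Pure

/-!
# P321: the first level

The bounds at the level of units: the slot law and the two centre laws compare with constants, the
difference of the two centres is a small smooth combination of defects, and a block differs little
from a pure run, relative to either block.
-/

namespace Vale.Agent.P321.Super

open Finset
open MonoidAlgebra (single)

variable {p : ℝ}

/-! ### Numeric helpers -/

theorem ev_le (C : ℝ) : ∃ l₀ : ℕ, 1 ≤ l₀ ∧ ∀ l ≥ l₀, C ≤ (l : ℝ) := by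
  obtain ⟨n, hn⟩ := exists_nat_ge C
  exact ⟨n + 1, by omega, fun l hl => hn.trans (by exact_mod_cast (by omega : n ≤ l))⟩

theorem ev_live_small (h0 : 0 < p) (h1 : p < 1) (C : ℝ) (hC : 0 ≤ C) (Γ : ℕ) :
    ∃ l₀ : ℕ, ∀ l ≥ l₀, ∀ k ≥ l, C * live p ^ k ≤ 1 / (l : ℝ) ^ Γ := by
  have hw0 := (live_pos h0 h1).le
  have hw1 := live_lt_one h1
  have h := (tendsto_pow_const_mul_const_pow_of_abs_lt_one Γ
    (r := live p) (by rwa [abs_of_nonneg hw0])).const_mul C
  rw [mul_zero] at h
  obtain ⟨n, hn⟩ := Filter.eventually_atTop.1 (h.eventually (eventually_le_nhds zero_lt_one))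
  refine ⟨max n 1, fun l hl k hk => ?_⟩
  have hl0 : (0 : ℝ) < l := by exact_mod_cast (show 0 < l by omega)
  rw [le_div_iff₀ (pow_pos hl0 _)]
  calc C * live p ^ k * (l : ℝ) ^ Γ ≤ C * live p ^ l * (l : ℝ) ^ Γ := by
        gcongr C * ?_ * _
        exact pow_le_pow_of_le_one hw0 hw1.le hk
    _ = C * ((l : ℝ) ^ Γ * live p ^ l) := by ring
    _ ≤ 1 := hn l (by omega)

theorem mul_sqrt_le {C K : ℝ} {l e E : ℕ} (hl : 1 ≤ l) (hC : 0 ≤ C) (hK : C ^ 2 * K ≤ l)
    (he : 2 * e + 1 ≤ E) : C * Real.sqrt (K / (l : ℝ) ^ E) ≤ 1 / (l : ℝ) ^ e := by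
  have hl0 : (0 : ℝ) < l := by exact_mod_cast hl
  have hl1 : (1 : ℝ) ≤ l := by exact_mod_cast hl
  rw [← Real.sqrt_sq hC, ← Real.sqrt_mul (sq_nonneg C), Real.sqrt_le_iff]
  refine ⟨by positivity, ?_⟩
  rw [← mul_div_assoc, div_pow, one_pow, ← pow_mul,
    div_le_div_iff₀ (pow_pos hl0 _) (pow_pos hl0 _), one_mul]
  calc C ^ 2 * K * (l : ℝ) ^ (e * 2) ≤ l * (l : ℝ) ^ (e * 2) := by gcongr
    _ = (l : ℝ) ^ (1 + e * 2) := by rw [pow_add, pow_one]
    _ ≤ (l : ℝ) ^ E := pow_le_pow_right₀ hl1 (by omega)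

theorem Ap.comb {R : Msr} (hR : IsProb R) {ι : Type*} [Fintype ι] (w : ι → ℝ) (F : ι → Msr)
    {a ε B : ℝ} (ha : 0 ≤ a) (hε : 0 ≤ ε) (hw : ∑ j, |w j| ≤ B) (h : ∀ j, Ap R (F j) a ε) :
    Ap R (∑ j, w j • F j) (B * a) (B * ε) := by
  refine (Ap.sum hR univ _ _ _ fun j _ => (h j).smul (w j)).mono ?_ ?_ <;>
    (rw [← sum_mul]; gcongr)

/-- Averaged differences in pure margins are below any power. -/
theorem exists_small (h0 : 0 < p) (h1 : p < 1) (Γ : ℕ) :
    ∃ r : ℕ, 1 ≤ r ∧ ∃ l₀ : ℕ, ∀ l ≥ l₀, ∀ I a m : ℕ, 1 ≤ I → 1 ≤ a → (I * a) ^ 2 * l ≤ m →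
      ∀ (X : Msr) (B : ℝ), l1 X ≤ B → ∀ M M' x : ℕ, r * m ≤ M →
        r * m + a * (x + 3 * I * r) ≤ M' →
        l1 (dif I r (fun y => s0 p ^ (M + a * y) * X * s0 p ^ (M' - a * y)) x) ≤
          B / 2 * (1 / (l : ℝ) ^ Γ) := by
  obtain ⟨C, hC, hstep⟩ := exists_pure_step h0 h1
  refine ⟨2 * Γ + 2, by omega, ?_⟩
  obtain ⟨l₀, -, hl₀⟩ := ev_le ((2 * (5 * C + 1)) ^ (2 * (Γ + 1)) * 2)
  refine ⟨max l₀ 6, fun l hl I a m hI ha hm X B hX M M' x hM hM' => ?_⟩
  have hl6 : 6 ≤ l := by omega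
  have hl0 : (0 : ℝ) < l := by exact_mod_cast (show 0 < l by omega)
  have h6 : 6 * (I * a) ≤ m := by
    have : 1 ≤ I * a := Nat.one_le_iff_ne_zero.2 (by positivity)
    nlinarith
  set δ := (5 * C + 1) / Real.sqrt l with hδ
  have hδ0 : 0 ≤ δ := by positivity
  have hsq : Real.sqrt l ^ 2 = l := Real.sq_sqrt hl0.le
  have hstep' : ∀ N t, m ≤ N + t → t ≤ 3 * I * a →
      l1 (s0 p ^ (N + t) - s0 p ^ N) ≤ δ := by
    intro N t hN ht
    have hN2 : m ≤ 2 * N := by rw [mul_assoc] at ht; omega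
    have hN0 : (0 : ℝ) < N := by
      have : 0 < N := by
        have : 1 ≤ I * a := Nat.one_le_iff_ne_zero.2 (by positivity)
        omega
      exact_mod_cast this
    refine (hstep N t (by exact_mod_cast hN0)).trans ?_
    rw [hδ, le_div_iff₀ (Real.sqrt_pos.2 hl0), mul_assoc, ← Real.sqrt_mul (by positivity)]
    refine le_trans (le_of_eq (by rw [← Real.sqrt_sq (show 0 ≤ C * t by positivity),
      ← Real.sqrt_mul (sq_nonneg _)])) ?_
    rw [Real.sqrt_le_iff]
    refine ⟨by positivity, ?_⟩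
    rw [one_div_mul_eq_div, mul_div_assoc', div_le_iff₀ hN0, mul_pow]
    have ht' : (t : ℝ) ≤ 3 * (I * a : ℕ) := by
      exact_mod_cast (show t ≤ 3 * (I * a) by rwa [← mul_assoc])
    have hm' : ((I * a : ℕ) : ℝ) ^ 2 * l ≤ 2 * N := by exact_mod_cast hm.trans hN2
    calc C ^ 2 * (t : ℝ) ^ 2 * l ≤ C ^ 2 * (3 * (I * a : ℕ)) ^ 2 * l := by gcongr
      _ = 9 * C ^ 2 * (((I * a : ℕ) : ℝ) ^ 2 * l) := by ring
      _ ≤ 9 * C ^ 2 * (2 * N) := by gcongr
      _ ≤ _ := by nlinarith
  refine (l1_dif_margins (isProb_s0 h0 h1) hI (by linarith [h6]) hδ0 hstep' X _ M M' x hM hM').trans ?_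
  refine (mul_le_mul_of_nonneg_left hX (by positivity)).trans ?_
  rw [show (2 * δ) ^ (2 * Γ + 2) * B = B / 2 * ((2 * δ) ^ (2 * Γ + 2) * 2) by ring]
  refine mul_le_mul_of_nonneg_left ?_ (by linarith [l1_nonneg X])
  rw [hδ, mul_div_assoc', div_pow, show (2 * Γ + 2 : ℕ) = 2 * (Γ + 1) by ring,
    pow_mul (Real.sqrt l), hsq, div_mul_eq_mul_div, div_le_div_iff₀ (by positivity) (by positivity),
    one_mul, pow_succ (l : ℝ), mul_comm ((l : ℝ) ^ Γ)]
  refine mul_le_mul_of_nonneg_right ?_ (by positivity)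
  exact hl₀ l (by omega)

/-! ### The geometry of a block -/

/-- The number of units in a block. -/
def per (S : ℕ) : ℕ := S * (2 * S + 1)

/-- The unit of the defect in the unperturbed block. -/
def ctr (S : ℕ) : ℕ := S * S + S / 2

theorem base_s (p : ℝ) (S : ℕ) : (base p S S).s = s0 p ^ S := rfl

theorem base_e (p : ℝ) (S : ℕ) : (base p S S).e = pos p S (S / 2) := rfl

theorem base_o (p : ℝ) (S : ℕ) : (base p S S).o = pos p S (S / 2 + 1) := rfl

theorem base_A (p : ℝ) (S : ℕ) : (base p S S).A = S := rfl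

theorem blk_pos (p : ℝ) {S i k : ℕ} (hi : i < S) (hk : k ≤ S) :
    (base p S S).blk (pos p S i) k = pos p (per S) (S * (S + k) + i) := by
  rw [Lev.blk, base_A, base_s, ← pow_mul, ← pow_mul, pos_pad p hi, per]
  congr 1
  have : S * (S + k) + S * (S - k) = S * (2 * S) := by
    rw [← mul_add, show S + k + (S - k) = 2 * S by omega]
  rw [mul_add S (2 * S), mul_one]
  omega

theorem base_Z (p : ℝ) {S : ℕ} (hS : 1 ≤ S) : (base p S S).Z = pos p (per S) (ctr S) := by
  have h := blk_pos p (i := S / 2) (k := 0) (S := S) (by omega) (by omega)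
  simpa [Lev.blk, Lev.Z, base, defect, pos, ctr] using h

theorem base_U (p : ℝ) {S : ℕ} (hS : 3 ≤ S) : (base p S S).U = pos p (per S) (ctr S + 1) := by
  have h := blk_pos p (i := S / 2 + 1) (k := 0) (S := S) (by omega) (by omega)
  simpa [Lev.blk, Lev.U, base, defect, pos, ctr, add_assoc] using h

theorem base_pure (p : ℝ) (S : ℕ) :
    (base p S S).s ^ (2 * (base p S S).A + 1) = s0 p ^ per S := by
  rw [base_s, base_A, ← pow_mul, per]

/-! ### Averages of defects -/

theorem smear_grad (p : ℝ) (I N b t : ℕ) :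
    smear I (fun z => pos p N (b + z + 1) - pos p N (b + z)) t =
      ∑ k ∈ range I ×ˢ (univ : Finset Bool),
        ((if k.2 then 1 else -1) / (I : ℝ) ^ 2) •
          (pos p N (b + t + I + k.1 + if k.2 then I else 0) - s0 p ^ N) := by
  rw [smear, Finset.sum_product, Finset.smul_sum]
  refine Finset.sum_congr rfl fun u _ => ?_
  simp only [add_assoc _ _ 1]
  rw [Fintype.sum_bool, Finset.sum_range_sub (fun v => pos p N (b + (t + I + u + v)))]
  simp only [if_true, Bool.false_eq_true, if_false, neg_div, neg_smul, one_div, add_zero,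
    ← sub_eq_add_neg, ← smul_sub, sub_sub_sub_cancel_right, add_assoc]

theorem grad_weights {I : ℕ} (hI : 1 ≤ I) (c : ℕ) :
    ∑ k ∈ range I ×ˢ (univ : Finset Bool), |(if k.2 then (1 : ℝ) else -1) / (I : ℝ) ^ 2| = 2 / I ∧
    ∀ k ∈ range I ×ˢ (univ : Finset Bool),
      ∑ k' ∈ range I ×ˢ (univ : Finset Bool) with
        (c + k.1 + if k.2 then I else 0) = (c + k'.1 + if k'.2 then I else 0),
        |(if k'.2 then (1 : ℝ) else -1) / (I : ℝ) ^ 2| ≤ 1 / (I : ℝ) ^ 2 := by
  have hI0 : (0 : ℝ) < I := by exact_mod_cast hI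
  have e : ∀ b : Bool, |(if b then (1 : ℝ) else -1) / (I : ℝ) ^ 2| = 1 / (I : ℝ) ^ 2 := fun b => by
    cases b <;> simp [abs_div]
  simp only [e]
  refine ⟨?_, fun k hk => ?_⟩
  · simp; field_simp
  · rw [sum_const, nsmul_eq_mul]
    refine mul_le_of_le_one_left (by positivity) ?_
    norm_cast
    refine Finset.card_le_one.2 fun a ha b hb => ?_
    simp only [mem_filter, mem_product, mem_range, mem_univ, and_true] at ha hb
    obtain ⟨a1, a2⟩ := a
    obtain ⟨b1, b2⟩ := b
    have := ha.2.symm.trans hb.2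
    cases a2 <;> cases b2 <;> simp at this ha hb ⊢ <;> omega

/-- The averaged gradient relative to a pure run. -/
theorem ap_grad_pure (h0 : 0 < p) (h1 : p < 1) {I N b t : ℕ} (hI : 1 ≤ I)
    (hN : b + t + 2 * I + I ≤ N) :
    Ap (s0 p ^ N) (smear I (fun z => pos p N (b + z + 1) - pos p N (b + z)) t)
      (Real.sqrt (p / (1 - p) * 2 / (I : ℝ) ^ 3)) 0 := by
  have hw := grad_weights hI (b + t + I)
  have h := ap_tri h0 h1 isProb_one isProb_one N (range I ×ˢ (univ : Finset Bool))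
    (fun k => (if k.2 then 1 else -1) / (I : ℝ) ^ 2)
    (fun k => b + t + I + k.1 + if k.2 then I else 0)
    (fun k hk => by
      simp only [mem_product, mem_range] at hk
      split_ifs <;> omega)
    (fun _ => 1) (fun _ => 1) zero_le_one le_rfl
    (fun _ _ => Ap.self isProb_one) (fun _ _ => Ap.self isProb_one) hw.2
  simp only [one_mul, mul_one, hw.1, mul_zero, zero_mul, add_zero, ← smear_grad] at h
  refine h.mono (le_of_eq (congrArg _ ?_)) le_rfl
  ring

/-- The averaged gradient relative to a run with a defect further left. -/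
theorem ap_grad_pos (h0 : 0 < p) (h1 : p < 1) {I N b t y m : ℕ} (hI : 1 ≤ I)
    (hy : y + m + 1 ≤ b + t + I) (hN : b + t + 2 * I + I ≤ N) :
    Ap (pos p N y) (smear I (fun z => pos p N (b + z + 1) - pos p N (b + z)) t)
      (Real.sqrt (2 / (1 - p)) * Real.sqrt (p / (1 - p) * 2 / (I : ℝ) ^ 3))
      (4 * live p ^ (m + 1)) := by
  have hw := grad_weights hI (b + t + I)
  have h := ap_tri_pos h0 h1 isProb_one isProb_one N y m (range I ×ˢ (univ : Finset Bool))
    (fun k => (if k.2 then 1 else -1) / (I : ℝ) ^ 2)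
    (fun k => b + t + I + k.1 + if k.2 then I else 0) (by omega)
    (fun k hk => by
      simp only [mem_product, mem_range] at hk
      split_ifs <;> omega)
    (fun _ => 1) (fun _ => 1) zero_le_one le_rfl
    (fun _ _ => Ap.self isProb_one) (fun _ _ => Ap.self isProb_one) hw.2
  simp only [one_mul, mul_one, hw.1, mul_zero, zero_mul, add_zero, ← smear_grad] at h
  refine h.mono (le_of_eq ?_) ?_
  · congr 2; ring
  · have hl : 0 ≤ live p ^ (m + 1) := pow_nonneg (live_pos h0 h1).le _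
    have : 2 / (I : ℝ) ≤ 2 := div_le_self zero_le_two (by exact_mod_cast hI)
    calc _ ≤ 2 * (2 * live p ^ (m + 1)) := mul_le_mul_of_nonneg_right this (by positivity)
      _ = _ := by ring

/-! ### The three bounds -/

/-- (a1) The slot law and the centre laws compare with constants. -/
theorem base_compare (h0 : 0 < p) (h1 : p < 1) : ∃ K₀ : ℝ, 0 ≤ K₀ ∧ ∀ d : ℕ, 1 ≤ d → ∀ Γ : ℕ,
    ∃ l₀ : ℕ, ∀ l ≥ l₀, let v := base p (l ^ (60 * d)) (l ^ (60 * d))
      Ap v.e v.s K₀ (1 / (l : ℝ) ^ Γ) ∧ Ap v.o v.s K₀ (1 / (l : ℝ) ^ Γ) ∧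
      Ap v.s v.e K₀ (1 / (l : ℝ) ^ Γ) ∧ Ap v.s v.o K₀ (1 / (l : ℝ) ^ Γ) := by
  refine ⟨Real.sqrt (2 / (1 - p)), Real.sqrt_nonneg _, fun d hd Γ => ?_⟩
  obtain ⟨l₀, hl₀⟩ := ev_live_small h0 h1 1 zero_le_one Γ
  refine ⟨max l₀ 4, fun l hl => ?_⟩
  have hs := isProb_s0 h0 h1
  set S := l ^ (60 * d) with hS
  intro v
  have hlS : 4 * l ≤ S := by
    have : l ^ 2 ≤ S := Nat.pow_le_pow_right (by omega) (by omega)
    nlinarith [this, show 4 ≤ l by omega]
  have hsp : ∀ u, u + 1 ≤ S → Ap (s0 p ^ S) (pos p S u) (Real.sqrt (2 / (1 - p))) (1 / (l : ℝ) ^ Γ) ∧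
      (2 * u ≤ S + 2 → Ap (pos p S u) (s0 p ^ S) (Real.sqrt (2 / (1 - p))) (1 / (l : ℝ) ^ Γ)) := by
    intro u hu
    constructor
    · have hd' : Ap (s0 p) (dd p) (Real.sqrt (2 / (1 - p))) 0 :=
        ⟨ddens p, Real.sqrt_le_sqrt (by
          rw [ip_ddens h0 h1, inv_eq_one_div]
          gcongr
          · linarith
          ), by simp [dens_ddens h1]⟩
      have h := ((Ap.self (hs.pow u)).mul (hs.pow u) hs hd').mul ((hs.pow u).mul hs)
        (hs.pow (S - 1 - u)) (Ap.self (hs.pow (S - 1 - u)))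
      rw [← pow_succ, ← pow_add, show u + 1 + (S - 1 - u) = S by omega] at h
      exact h.mono (by simp) (by simp)
    · intro hu2
      have h := (Ap.self (hs.pow u)).mul (hs.pow u) ((isProb_dd h0 h1).mul (hs.pow (S - 1 - u)))
        (ap_dd_pow h0 h1 (S - 1 - u))
      rw [← mul_assoc, ← pow_add, show u + (S - 1 - u + 1) = S by omega] at h
      refine h.mono (by simp) ?_
      simpa using hl₀ l (by omega) (S - 1 - u + 1) (by omega)
  exact ⟨(hsp _ (by omega)).2 (by omega), (hsp _ (by omega)).2 (by omega),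
    (hsp _ (by omega)).1, (hsp _ (by omega)).1⟩

/-- (a2) The difference of the centres is a small smooth combination of defects. -/
theorem base_rep (h0 : 0 < p) (h1 : p < 1) (d : ℕ) (hd : 1 ≤ d) (Γ : ℕ) :
    ∃ l₀ : ℕ, ∀ l ≥ l₀, let v := base p (l ^ (60 * d)) (l ^ (60 * d))
      ∃ g : Msr, mass g = 0 ∧
        Ap v.s g (1 / (l : ℝ) ^ (90 * d - 3)) (1 / (l : ℝ) ^ Γ) ∧
        Ap v.e g (1 / (l : ℝ) ^ (90 * d - 3)) (1 / (l : ℝ) ^ Γ) ∧
        Ap v.o g (1 / (l : ℝ) ^ (90 * d - 3)) (1 / (l : ℝ) ^ Γ) ∧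
        ∀ k : ℕ, 2 * k ≤ v.A → l1 (v.blk (v.o - v.e - g) k) ≤ 1 / (l : ℝ) ^ Γ := by
  obtain ⟨r, hr, l₁, hsmall⟩ := exists_small h0 h1 Γ
  set K := Real.sqrt (2 / (1 - p)) with hK
  have hK0 : 0 ≤ K := Real.sqrt_nonneg _
  have hK1 : 1 ≤ K := by
    rw [hK, Real.one_le_sqrt, le_div_iff₀ (by linarith)]
    linarith
  have hq : 0 ≤ p / (1 - p) * 2 := by
    have : 0 < 1 - p := by linarith
    positivity
  obtain ⟨l₂, -, hl₂⟩ := ev_le ((2 ^ r * K) ^ 2 * (p / (1 - p) * 2))
  obtain ⟨l₃, hl₃⟩ := ev_live_small h0 h1 (2 ^ r * 4) (by positivity) Γ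
  refine ⟨max (max l₁ l₂) (max l₃ (8 * r + 8)), fun l hl => ?_⟩
  have hl8 : 8 * r + 8 ≤ l := by omega
  set S := l ^ (60 * d) with hS
  intro v
  set I := l ^ (60 * d - 1) with hI
  have hIS : S = l * I := by rw [hS, hI, ← pow_succ']; congr 1; omega
  have hlI : l ^ 2 ≤ I := Nat.pow_le_pow_right (by omega) (by omega)
  have hI1 : 1 ≤ I := Nat.one_le_iff_ne_zero.2 (pow_ne_zero _ (by omega))
  have hIr : 8 * r * I + 8 * I ≤ S := by
    rw [hIS, ← add_mul]; gcongr
  have hIr' : 3 * I * r + 4 * I + 4 ≤ S / 2 := by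
    have : 4 ≤ I := by nlinarith
    rw [show 3 * I * r = 3 * (r * I) by ring]
    rw [show 8 * r * I = 8 * (r * I) by ring] at hIr
    have : I ≤ r * I := Nat.le_mul_of_pos_left _ hr
    omega
  obtain ⟨ι, _, w, τ, hτ, hw, hmain⟩ := exists_main hI1 r
  refine ⟨∑ j, w j • smear I (fun z => pos p S (S / 2 + z + 1) - pos p S (S / 2 + z)) (τ j),
    ?_, ?_, ?_, ?_, ?_⟩
  · simp only [map_sum, map_smul, smear_grad, map_sub, (isProb_pos h0 h1 _ _).mass_one,
      ((isProb_s0 h0 h1).pow S).mass_one, sub_self, smul_zero, sum_const_zero]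
  pick_goal 4
  · intro k hk
    change 2 * k ≤ S at hk
    have hlin : ∀ G : Msr, v.blk G k = s0 p ^ (S * (S + k)) * G * s0 p ^ (S * (S - k)) :=
      fun G => by simp only [v, Lev.blk, base_s, base_A, ← pow_mul]
    set b := S * (S + k) + S / 2 with hb
    set L := per S with hL
    have hblk : ∀ z, z ≤ 3 * I * (r + 1) → v.blk (pos p S (S / 2 + z + 1) - pos p S (S / 2 + z)) k =
        pos p L (b + z + 1) - pos p L (b + z) := by
      intro z hz
      rw [mul_add (3 * I), mul_one] at hz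
      simp only [hlin, mul_sub, sub_mul]
      rw [← hlin, ← hlin]
      simp only [v]
      rw [blk_pos p (show S / 2 + z + 1 < S by omega) (show k ≤ S by omega),
        blk_pos p (show S / 2 + z < S by omega) (show k ≤ S by omega)]
      simp only [hb, hL, add_assoc]
    have hsum : v.blk (∑ j, w j • smear I (fun z => pos p S (S / 2 + z + 1) - pos p S (S / 2 + z))
        (τ j)) k = ∑ j, w j • smear I (fun z => pos p L (b + z + 1) - pos p L (b + z)) (τ j) := by
      simp only [hlin, Finset.mul_sum, Finset.sum_mul, mul_smul_comm, smul_mul_assoc, smear]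
      refine Finset.sum_congr rfl fun j _ => ?_
      congr 2
      refine Finset.sum_congr rfl fun u hu => Finset.sum_congr rfl fun x hx => ?_
      simp only [mem_range] at hu hx
      rw [← hlin, hblk]
      have := hτ j
      rw [mul_add (3 * I), mul_one]
      omega
    have h0' : v.blk (v.o - v.e) k = pos p L (b + 0 + 1) - pos p L (b + 0) := by
      rw [← hblk 0 (Nat.zero_le _)]
      rfl
    have hsub : ∀ G : Msr, v.blk (v.o - v.e - G) k = v.blk (v.o - v.e) k - v.blk G k := by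
      intro G
      simp only [hlin, mul_sub, sub_mul]
    have hb2 : 2 * b ≤ 3 * (S * S) + S := by
      have : S * (S + k) * 2 ≤ 3 * (S * S) := by nlinarith
      omega
    have hLval : L = 2 * (S * S) + S := by rw [hL, per]; ring
    have hbS : S * S ≤ b := le_trans (Nat.mul_le_mul_left S (Nat.le_add_right S k))
      (Nat.le_add_right _ _)
    have hS4 : 4 * S ≤ S * S := by gcongr; omega
    rw [hsub, h0', hsum, hmain (fun z => pos p L (b + z + 1) - pos p L (b + z)) 0]
    simp only [zero_add, add_sub_cancel_right]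
    -- the family in margin form
    have hF : ∀ z, z ≤ 3 * I * r → pos p L (b + z + 1) - pos p L (b + z) =
        s0 p ^ (b + 1 * z) * (s0 p * dd p - dd p * s0 p) * s0 p ^ (L - 2 - b - 1 * z) := by
      intro z hz
      simp only [pos, one_mul, mul_sub, sub_mul, mul_assoc]
      rw [← mul_assoc (s0 p ^ (b + z)) (s0 p), ← pow_succ, ← pow_succ']
      congr 4 <;> omega
    obtain ⟨κ, _, u, σ, hσ, -, hrep⟩ := exists_dif_rep hI1 r
    rw [hrep, Finset.sum_congr rfl fun j _ => by rw [zero_add, hF _ (hσ j)]]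
    have hm' : (I * 1) ^ 2 * l ≤ S * S / (4 * r) := by
      rw [Nat.le_div_iff_mul_le (by omega), mul_one]
      calc I ^ 2 * l * (4 * r) ≤ I ^ 2 * l * l := by gcongr; omega
        _ = S * S := by rw [hIS]; ring
    have hrm : r * (S * S / (4 * r)) * 4 ≤ S * S := by
      rw [mul_comm r, mul_assoc]
      exact (le_of_eq (by ring)).trans (Nat.div_mul_le_self (S * S) (4 * r))
    have h := hsmall l (by omega) I 1 (S * S / (4 * r)) hI1 le_rfl hm'
      (s0 p * dd p - dd p * s0 p) 2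
      (l1_sub_prob_le ((isProb_s0 h0 h1).mul (isProb_dd h0 h1))
        ((isProb_dd h0 h1).mul (isProb_s0 h0 h1))) b (L - 2 - b) 0 (by omega) (by omega)
    rw [div_self (two_ne_zero' ℝ), one_mul] at h
    simpa only [hrep, zero_add] using h
  all_goals
    have hnum : 2 ^ r * (K * Real.sqrt (p / (1 - p) * 2 / (I : ℝ) ^ 3)) ≤
        1 / (l : ℝ) ^ (90 * d - 3) := by
      rw [← mul_assoc, hI, Nat.cast_pow, ← pow_mul]
      exact mul_sqrt_le (by omega) (by positivity) (hl₂ l (by omega)) (by omega)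
    have heps : 2 ^ r * (4 * live p ^ (I / 2)) ≤ 1 / (l : ℝ) ^ Γ := by
      rw [← mul_assoc]
      exact hl₃ l (by omega) _ (by
        have : 2 * l ≤ I := by nlinarith
        omega)
    have hI2 : 2 ≤ I := by nlinarith
  · refine (Ap.comb ((isProb_s0 h0 h1).pow S) w _ (Real.sqrt_nonneg _) le_rfl hw
      fun j => ap_grad_pure h0 h1 hI1 (by have := hτ j; omega)).mono ?_ (by simp)
    refine le_trans (mul_le_mul_of_nonneg_left ?_ (by positivity)) hnum
    exact le_mul_of_one_le_left (Real.sqrt_nonneg _) hK1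
  · refine (Ap.comb (isProb_pos h0 h1 _ _) w _ (by positivity)
      (by have := (live_pos h0 h1).le; positivity) hw
      fun j => ap_grad_pos h0 h1 (m := I / 2 - 1) hI1 (by omega)
        (by have := hτ j; omega)).mono hnum ?_
    rwa [show I / 2 - 1 + 1 = I / 2 by omega]
  · refine (Ap.comb (isProb_pos h0 h1 _ _) w _ (by positivity)
      (by have := (live_pos h0 h1).le; positivity) hw
      fun j => ap_grad_pos h0 h1 (m := I / 2 - 1) hI1 (by omega)
        (by have := hτ j; omega)).mono hnum ?_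
    rwa [show I / 2 - 1 + 1 = I / 2 by omega]

/-- (a3), general form: a single defect against a pure run, relative to a run whose defect is not
further right. -/
theorem ap_block_pure (h0 : 0 < p) (h1 : p < 1) (d : ℕ) (hd : 1 ≤ d) (Γ : ℕ) :
    ∃ l₀ : ℕ, ∀ l ≥ l₀, ∀ N x y : ℕ, y ≤ x + 1 → y < N →
      l ^ (60 * d) * l ^ (60 * d) ≤ 4 * x →
      8 * x + l ^ (60 * d) * l ^ (60 * d) ≤ 8 * N →
      Ap (pos p N y) (pos p N x - s0 p ^ N)
        (1 / (l : ℝ) ^ (30 * d - 2)) (1 / (l : ℝ) ^ Γ) := by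
  obtain ⟨r, hr, l₁, hsmall⟩ := exists_small h0 h1 (Γ + 1)
  set K := Real.sqrt (2 / (1 - p)) with hK
  have hK0 : 0 ≤ K := Real.sqrt_nonneg _
  have hq : 0 ≤ p / (1 - p) := div_nonneg h0.le (by linarith)
  obtain ⟨l₂, -, hl₂⟩ := ev_le ((2 ^ r * K) ^ 2 * (p / (1 - p)))
  obtain ⟨l₃, hl₃⟩ := ev_live_small h0 h1 (2 ^ r * 4) (by positivity) (Γ + 1)
  refine ⟨max (max l₁ l₂) (max l₃ (16 * r + 16)), fun l hl L x y hy hy' hx hx' => ?_⟩
  set S := l ^ (60 * d) with hS
  set I := l ^ (60 * d - 1) with hI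
  have hIS : S = l * I := by rw [hS, hI, ← pow_succ']; congr 1; omega
  have hlI : l ^ 2 ≤ I := Nat.pow_le_pow_right (by omega) (by omega)
  have hI1 : 1 ≤ I := Nat.one_le_iff_ne_zero.2 (pow_ne_zero _ (by omega))
  have hI4 : 4 ≤ I := by nlinarith [show 2 ≤ l by omega]
  have hIr : 3 * I * (r + 1) + 4 ≤ S := by
    rw [hIS]
    calc 3 * I * (r + 1) + 4 ≤ I * (3 * r + 4) := by nlinarith
      _ ≤ l * I := by rw [mul_comm]; gcongr; omega
  rw [mul_add (3 * I), mul_one] at hIr
  have hS4 : 32 * S ≤ S * S := by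
    gcongr
    calc 32 ≤ l * l := by nlinarith [show 8 ≤ l by omega]
      _ ≤ l * I := by gcongr; nlinarith [show 1 ≤ l by omega]
      _ = S := hIS.symm
  obtain ⟨ι, _, w, τ, hτ, hw, hmain⟩ := exists_main hI1 r
  set F : ℕ → Msr :=
    fun z => s0 p ^ (x + 1 * z) * (dd p - s0 p) * s0 p ^ (L - 1 - x - 1 * z) with hFdef
  have hF : ∀ z, x + z < L → F z = pos p L (x + z) - s0 p ^ L := fun z hz => by
    simp only [pos_sub_pure p hz, hFdef, one_mul]
    congr 2; omega
  rw [show pos p L x - s0 p ^ L = F 0 by rw [hF 0 (by omega), add_zero], hmain F 0]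
  have hP := isProb_pos h0 h1 L y
  have hmargin : (I * 1) ^ 2 * l ≤ S * S / (16 * r) := by
    rw [Nat.le_div_iff_mul_le (by omega), mul_one]
    calc I ^ 2 * l * (16 * r) ≤ I ^ 2 * l * l := by gcongr; omega
      _ = S * S := by rw [hIS]; ring
  have hrm : r * (S * S / (16 * r)) * 16 ≤ S * S := by
    rw [mul_comm r, mul_assoc]
    exact (le_of_eq (by ring)).trans (Nat.div_mul_le_self (S * S) (16 * r))
  have herr := hsmall l (by omega) I 1 (S * S / (16 * r)) hI1 le_rfl hmargin (dd p - s0 p) 2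
    (l1_sub_prob_le (isProb_dd h0 h1) (isProb_s0 h0 h1)) x (L - 1 - x) 0 (by omega) (by omega)
  have hmainAp : ∀ j, Ap (pos p L y) (smear I F (0 + τ j))
      (K * Real.sqrt (p / (1 - p) / (I : ℝ))) (4 * live p ^ (I / 2)) := by
    intro j
    have hj := hτ j
    have hI0 : (0 : ℝ) < I := by exact_mod_cast hI1
    have hwsum : ∑ k ∈ range I ×ˢ range I, |((I : ℝ) ^ 2)⁻¹| = 1 := by
      rw [sum_const, card_product, card_range, nsmul_eq_mul, abs_of_pos (by positivity),
        Nat.cast_mul]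
      field_simp
    have h := ap_tri_pos h0 h1 isProb_one isProb_one L y (I / 2 - 1) (range I ×ˢ range I)
      (fun _ => ((I : ℝ) ^ 2)⁻¹) (fun k => x + τ j + I + k.1 + k.2) (by omega)
      (fun k hk => by simp only [mem_product, mem_range] at hk; omega)
      (fun _ => 1) (fun _ => 1) zero_le_one le_rfl
      (fun _ _ => Ap.self isProb_one) (fun _ _ => Ap.self isProb_one) (μ := 1 / (I : ℝ))
      (fun k hk => by
        rw [sum_const, nsmul_eq_mul, abs_of_pos (by positivity)]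
        calc (_ : ℝ) ≤ (I : ℝ) * ((I : ℝ) ^ 2)⁻¹ := by
              refine mul_le_mul_of_nonneg_right ?_ (by positivity)
              refine Nat.cast_le.2 (le_trans (Finset.card_le_card_of_injOn Prod.fst ?_ ?_)
                (card_range I).le)
              · intro a ha
                simp only [Finset.mem_coe, mem_filter, mem_product] at ha ⊢
                exact ha.1.1
              · intro a ha b hb hab
                simp only [Finset.coe_filter, Set.mem_setOf_eq] at ha hb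
                refine Prod.ext hab ?_
                have := ha.2.symm.trans hb.2
                omega
          _ = _ := by field_simp)
    simp only [one_mul, mul_one, hwsum, mul_zero, zero_mul, add_zero,
      show I / 2 - 1 + 1 = I / 2 by omega] at h
    have e : smear I F (0 + τ j) = ∑ k ∈ range I ×ˢ range I,
        ((I : ℝ) ^ 2)⁻¹ • (pos p L (x + τ j + I + k.1 + k.2) - s0 p ^ L) := by
      rw [smear, Finset.smul_sum, Finset.sum_product]
      refine Finset.sum_congr rfl fun u hu => ?_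
      rw [Finset.smul_sum]
      refine Finset.sum_congr rfl fun z hz => ?_
      simp only [mem_range] at hu hz
      rw [hF _ (by omega), show x + (0 + τ j + I + u + z) = x + τ j + I + u + z by omega]
    rw [e]
    refine h.mono (le_of_eq ?_) ?_
    · rw [← mul_div_assoc, mul_one]
    · have : 0 ≤ live p ^ (I / 2) := pow_nonneg (live_pos h0 h1).le _
      linarith
  have hl1 : 1 ≤ l := by omega
  have hl0 : (0 : ℝ) < l := by exact_mod_cast hl1
  have hhalf : 2 * (1 / (l : ℝ) ^ (Γ + 1)) ≤ 1 / (l : ℝ) ^ Γ := by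
    rw [← mul_div_assoc, mul_one, div_le_div_iff₀ (by positivity) (by positivity), one_mul,
      pow_succ']
    gcongr
    exact_mod_cast (show 2 ≤ l by omega)
  rw [div_self (two_ne_zero' ℝ), one_mul] at herr
  refine ((Ap.of_l1 _ herr).add hP (Ap.comb hP w _ (by positivity)
    (by have := (live_pos h0 h1).le; positivity) hw hmainAp)).mono ?_ ?_
  · rw [zero_add, ← mul_assoc, hI, Nat.cast_pow]
    exact mul_sqrt_le hl1 (by positivity) (hl₂ l (by omega)) (by omega)
  · refine le_trans (add_le_add le_rfl ?_) (le_trans (le_of_eq (two_mul _).symm) hhalf)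
    rw [← mul_assoc]
    exact hl₃ l (by omega) _ (by
      have : 2 * l ≤ I := by nlinarith
      omega)

/-- (a3) A shifted block against a pure run, relative to the ground block. -/
theorem base_centred (h0 : 0 < p) (h1 : p < 1) (d : ℕ) (hd : 1 ≤ d) (Γ : ℕ) :
    ∃ l₀ : ℕ, ∀ l ≥ l₀, let v := base p (l ^ (60 * d)) (l ^ (60 * d))
      ∀ k : ℕ, 2 * k ≤ v.A →
        Ap v.Z (v.blk v.e k - v.s ^ (2 * v.A + 1)) (1 / (l : ℝ) ^ (30 * d - 3))
          (1 / (l : ℝ) ^ Γ) := by
  obtain ⟨l₀, hl₀⟩ := ap_block_pure h0 h1 d hd Γ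
  refine ⟨max l₀ 2, fun l hl => ?_⟩
  set S := l ^ (60 * d) with hS
  intro v k hk
  change 2 * k ≤ S at hk
  have hS1 : 1 ≤ S := Nat.one_le_iff_ne_zero.2 (pow_ne_zero _ (by omega))
  simp only [v, base_Z p hS1, base_pure, base_e,
    blk_pos p (show S / 2 < S by omega) (show k ≤ S by omega)]
  have hk' : S * (2 * k) ≤ S * S := Nat.mul_le_mul_left S hk
  rw [mul_left_comm] at hk'
  have H := hl₀ l (by omega)
  rw [← hS] at H
  have hper : per S = 2 * (S * S) + S := by rw [per]; ring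
  have hS2 : S ≤ S * S := Nat.le_mul_self S
  refine (H _ _ _ ?_ ?_ ?_ ?_).mono ?_ le_rfl
  · simp only [ctr, mul_add]; omega
  · simp only [ctr, hper]; omega
  · simp only [mul_add]; omega
  · simp only [mul_add, hper]; omega
  · exact one_div_le_one_div_of_le (pow_pos (by exact_mod_cast (show 0 < l by omega)) _)
      (pow_le_pow_right₀ (by exact_mod_cast (show 1 ≤ l by omega)) (by omega))

end Vale.Agent.P321.Super
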