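import Vale.Agent.P321.Super.Slots

/-!
# P321: products of factors near their reference laws
-/

namespace Vale.Agent.P321.Super

open Finset

theorem Ap.congr {R μ ν : Msr} {a ε : ℝ} (h : Ap R μ a ε) (e : μ = ν) : Ap R ν a ε := e ▸ h

/-- Changing the measure by a little in total variation. -/
theorem Ap.of_near {R μ ν : Msr} {a ε δ : ℝ} (h : Ap R μ a ε) (h' : l1 (ν - μ) ≤ δ) :
    Ap R ν a (ε + δ) := by
  obtain ⟨f, h1, h2⟩ := h
  refine ⟨f, h1, ?_⟩
  rw [show ν - dens R f = (μ - dens R f) + (ν - μ) by abel]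
  exact (l1_add_le _ _).trans (add_le_add h2 h')

/-- Two slots: the first order parts and the second order part of a product are orthogonal. -/
theorem exists_dens_two {R S : Msr} (hR : IsProb R) (hS : IsProb S) (f g : W → ℝ)
    (hf : ip R f (fun _ => 1) = 0) (hg : ip S g (fun _ => 1) = 0) :
    ∃ h : W → ℝ, dens R f * S + R * dens S g + dens R f * dens S g = dens (R * S) h ∧
      ip (R * S) h h ≤ (1 + ip R f f) * (1 + ip S g g) - 1 := by
  classical
  let fam : List (Msr × (Fin 3 → W → ℝ)) :=
    [(R, ![f, fun _ => 1, f]), (S, ![fun _ => 1, g, g])]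
  have hl : ∀ s ∈ fam, IsProb s.1 := by simp [fam, hR, hS]
  obtain ⟨h, e, hh⟩ := exists_dens_orth fam hl (univ : Finset (Fin 3)) (fun _ => 1) (by
    intro k _ k' _ hne
    fin_cases k <;> fin_cases k' <;>
      simp_all [fam, ipProd, ip_comm R (fun _ => 1), ip_comm S (fun _ => 1)])
  refine ⟨h, ?_, ?_⟩
  · simpa [fam, famProd, refProd, Fin.sum_univ_three, dens_one] using e
  · refine le_trans (by simpa [fam, refProd] using hh) (le_of_eq ?_)
    simp [ipProd, Fin.sum_univ_three, ip_one hR, ip_one hS]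
    ring

/-- A product of `n` factors, each within `c` of its reference, is within
`√((1 + c²)ⁿ - 1)` of the product of the references. -/
theorem prod_near (l : List (Msr × Msr)) {c η : ℝ}
    (h : ∀ x ∈ l, IsProb x.1 ∧ IsProb x.2 ∧ Ap x.1 (x.2 - x.1) c η) :
    Ap (l.map Prod.fst).prod ((l.map Prod.snd).prod - (l.map Prod.fst).prod)
      (Real.sqrt ((1 + c ^ 2) ^ l.length - 1))
      (l.length * (2 * η) * (1 + Real.sqrt ((1 + c ^ 2) ^ l.length - 1))) := by
  suffices H : ∃ T : W → ℝ, ip (l.map Prod.fst).prod T (fun _ => 1) = 0 ∧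
      ip (l.map Prod.fst).prod T T ≤ (1 + c ^ 2) ^ l.length - 1 ∧
      l1 ((l.map Prod.snd).prod - (l.map Prod.fst).prod - dens (l.map Prod.fst).prod T) ≤
        l.length * (2 * η) * (1 + Real.sqrt ((1 + c ^ 2) ^ l.length - 1)) by
    obtain ⟨T, -, h2, h3⟩ := H
    exact ⟨T, Real.sqrt_le_sqrt h2, h3⟩
  induction l with
  | nil => exact ⟨0, by simp [ip], by simp [ip], by simp [dens_zero]⟩
  | cons x l ih =>
    obtain ⟨T, hT0, hT1, hT2⟩ := ih fun y hy => h y (List.mem_cons_of_mem _ hy)
    obtain ⟨hR, hX, hA⟩ := h x (by simp)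
    obtain ⟨g, hg0, hg1, hg2⟩ := hA.center hR (by rw [map_sub, hX.mass_one, hR.mass_one, sub_self])
    have hP : IsProb (l.map Prod.fst).prod := IsProb.list_prod fun R hR' => by
      obtain ⟨y, hy, rfl⟩ := List.mem_map.1 hR'
      exact (h y (List.mem_cons_of_mem _ hy)).1
    obtain ⟨T', eT, hT'⟩ := exists_dens_two hR hP g T hg0 hT0
    set R' := (l.map Prod.fst).prod with hR'
    set X' := (l.map Prod.snd).prod with hX'
    have hη : 0 ≤ η := hA.nonneg.2
    have hq1 : (1 : ℝ) ≤ 1 + c ^ 2 := by linarith [sq_nonneg c]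
    have hq : 1 ≤ (1 + c ^ 2) ^ l.length := one_le_pow₀ hq1
    refine ⟨T', ?_, ?_, ?_⟩
    · simp only [List.map_cons, List.prod_cons, ← hR']
      rw [← mass_dens, ← eT]
      simp [mass_dens, hg0, hT0]
    · simp only [List.map_cons, List.prod_cons, List.length_cons, ← hR', pow_succ' (1 + c ^ 2)]
      refine hT'.trans (sub_le_sub_right ?_ 1)
      have h4 := pow_le_pow_left₀ (Real.sqrt_nonneg (ip x.1 g g)) hg1 2
      rw [Real.sq_sqrt (ip_self_nonneg hR g)] at h4
      exact mul_le_mul (by linarith) (by linarith) (by linarith [ip_self_nonneg hP T])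
        (by linarith)
    · simp only [List.map_cons, List.prod_cons, List.length_cons, ← hR', ← hX', ← eT]
      set sq' := Real.sqrt ((1 + c ^ 2) ^ (l.length + 1) - 1)
      set sq := Real.sqrt ((1 + c ^ 2) ^ l.length - 1)
      have hmono : sq ≤ sq' := Real.sqrt_le_sqrt
        (by linarith [pow_le_pow_right₀ hq1 (Nat.le_add_right l.length 1)])
      rw [show x.2 * X' - x.1 * R' - (dens x.1 g * R' + x.1 * dens R' T + dens x.1 g * dens R' T) =
          x.2 * (X' - R' - dens R' T) + (x.2 - x.1 - dens x.1 g) * (R' + dens R' T) by noncomm_ring]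
      refine (l1_add_le _ _).trans ?_
      have h1 := (l1_mul_prob_left hX (X' - R' - dens R' T)).trans hT2
      have h2 : l1 ((x.2 - x.1 - dens x.1 g) * (R' + dens R' T)) ≤ 2 * η * (1 + sq') := by
        refine (l1_mul_le _ _).trans (mul_le_mul hg2 ?_ (l1_nonneg _) (by linarith))
        refine (l1_add_le _ _).trans (add_le_add hP.l1_eq.le ?_)
        exact ((l1_dens_le hP T).trans (Real.sqrt_le_sqrt hT1)).trans hmono
      have h3 : (l.length : ℝ) * (2 * η) * (1 + sq) ≤ l.length * (2 * η) * (1 + sq') :=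
        mul_le_mul_of_nonneg_left (by linarith) (by positivity)
      push_cast
      linarith

/-- The norm of a product of factors. -/
theorem Ap.list_prod {ι : Type*} (l : List ι) (R X : ι → Msr) (a ε : ι → ℝ)
    (h : ∀ i ∈ l, IsProb (R i) ∧ Ap (R i) (X i) (a i) (ε i)) :
    Ap (l.map R).prod (l.map X).prod (l.map a).prod
      ((l.map fun i => a i + ε i).prod - (l.map a).prod) := by
  induction l with
  | nil => simpa using Ap.self isProb_one
  | cons i l ih =>
    have hl := ih fun j hj => h j (List.mem_cons_of_mem _ hj)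
    obtain ⟨hR, hX⟩ := h i (by simp)
    have hP : IsProb (l.map R).prod := IsProb.list_prod fun S hS => by
      obtain ⟨y, hy, rfl⟩ := List.mem_map.1 hS
      exact (h y (List.mem_cons_of_mem _ hy)).1
    simp only [List.map_cons, List.prod_cons]
    exact (hX.mul hR hP hl).mono le_rfl (le_of_eq (by ring))

end Vale.Agent.P321.Super
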