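import Vale.Agent.P321.Super.Weighted

/-!
# P321: high order differences with random steps

For steps `t : Fin r → ℕ`, a value at `0` is a signed combination of the values at the sums of the
nonempty sets of steps, up to an alternating sum. Nested pieces turn the alternating sum into a
product of first differences.
-/

namespace Vale.Agent.P321.Super

open Finset

/-- The sum of the steps selected by a mask. -/
def ksum {r : ℕ} (t : Fin r → ℕ) (m : Fin r → Bool) : ℕ := ∑ i, if m i then t i else 0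

/-- The sign of a mask. -/
def sgn {r : ℕ} (m : Fin r → Bool) : ℝ := ∏ i, if m i then -1 else 1

/-- The empty mask. -/
abbrev mask0 (r : ℕ) : Fin r → Bool := fun _ => false

theorem ksum_mask0 {r : ℕ} (t : Fin r → ℕ) : ksum t (mask0 r) = 0 := by simp [ksum]

theorem sgn_mask0 (r : ℕ) : sgn (mask0 r) = 1 := by simp [sgn]

theorem abs_sgn {r : ℕ} (m : Fin r → Bool) : |sgn m| = 1 := by
  rw [sgn, Finset.abs_prod]
  exact Finset.prod_eq_one fun i _ => by split_ifs <;> simp

theorem exists_true_of_ne {r : ℕ} {m : Fin r → Bool} (h : m ≠ mask0 r) : ∃ i, m i = true := by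
  by_contra h'
  simp only [not_exists, Bool.not_eq_true] at h'
  exact h (funext h')

theorem ksum_le {r : ℕ} {t : Fin r → ℕ} {b : ℕ} (ht : ∀ i, t i ≤ b) (m : Fin r → Bool) :
    ksum t m ≤ r * b := by
  refine (Finset.sum_le_sum fun i _ => ?_).trans_eq (by simp [mul_comm] : ∑ _i : Fin r, b = r * b)
  split_ifs
  exacts [ht i, Nat.zero_le _]

theorem le_ksum {r : ℕ} {t : Fin r → ℕ} {b : ℕ} (ht : ∀ i, b ≤ t i) {m : Fin r → Bool}
    (hm : m ≠ mask0 r) : b ≤ ksum t m := by
  obtain ⟨i, hi⟩ := exists_true_of_ne hm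
  refine le_trans ?_ (Finset.single_le_sum (fun j _ => Nat.zero_le _) (mem_univ i))
  simpa [hi] using ht i

/-- Tuples of steps in `[I₀, I₀ + I)`. -/
def steps (r I₀ I : ℕ) : Finset (Fin r → ℕ) := Fintype.piFinset fun _ => Finset.Ico I₀ (I₀ + I)

theorem card_steps (r I₀ I : ℕ) : #(steps r I₀ I) = I ^ r := by simp [steps]

theorem mem_steps {r I₀ I : ℕ} {t : Fin r → ℕ} :
    t ∈ steps r I₀ I ↔ ∀ i, I₀ ≤ t i ∧ t i < I₀ + I := by simp [steps]

/-- The average over tuples of steps. -/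
noncomputable def avg (r I₀ I : ℕ) (X : (Fin r → ℕ) → Msr) : Msr :=
  ((I : ℝ) ^ r)⁻¹ • ∑ t ∈ steps r I₀ I, X t

theorem avg_const {r I₀ I : ℕ} (hI : 0 < I) (X : Msr) : avg r I₀ I (fun _ => X) = X := by
  rw [avg, Finset.sum_const, card_steps, ← Nat.cast_smul_eq_nsmul ℝ, Nat.cast_pow,
    inv_smul_smul₀ (by positivity)]

theorem avg_congr {r I₀ I : ℕ} {X Y : (Fin r → ℕ) → Msr} (h : ∀ t ∈ steps r I₀ I, X t = Y t) :
    avg r I₀ I X = avg r I₀ I Y := by rw [avg, avg, Finset.sum_congr rfl h]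

theorem avg_sum {r I₀ I : ℕ} {ι : Type*} (s : Finset ι) (X : ι → (Fin r → ℕ) → Msr) :
    avg r I₀ I (fun t => ∑ i ∈ s, X i t) = ∑ i ∈ s, avg r I₀ I (X i) := by
  simp only [avg]
  rw [Finset.sum_comm, Finset.smul_sum]

theorem avg_smul {r I₀ I : ℕ} (c : ℝ) (X : (Fin r → ℕ) → Msr) :
    avg r I₀ I (fun t => c • X t) = c • avg r I₀ I X := by
  simp only [avg, ← Finset.smul_sum, smul_comm c]

theorem mul_avg_mul {r I₀ I : ℕ} (L R : Msr) (X : (Fin r → ℕ) → Msr) :
    L * avg r I₀ I X * R = avg r I₀ I fun t => L * X t * R := by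
  simp [avg, Finset.mul_sum, Finset.sum_mul]

theorem Ap.avg {R : Msr} (hR : IsProb R) {r I₀ I : ℕ} (hI : 0 < I) {X : (Fin r → ℕ) → Msr}
    {a ε : ℝ} (h : ∀ t ∈ steps r I₀ I, Ap R (X t) a ε) :
    Ap R (Super.avg r I₀ I X) a ε := by
  have hs := Ap.sum hR (steps r I₀ I) X (fun _ => a) (fun _ => ε) h
  simp only [Finset.sum_const, card_steps, nsmul_eq_mul, Nat.cast_pow] at hs
  have hpos : (0 : ℝ) < (I : ℝ) ^ r := by positivity
  refine (hs.smul ((I : ℝ) ^ r)⁻¹).mono (le_of_eq ?_) (le_of_eq ?_) <;>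
    rw [abs_of_pos (inv_pos.2 hpos), inv_mul_cancel_left₀ hpos.ne']

theorem l1_avg_le {r I₀ I : ℕ} (hI : 0 < I) {X : (Fin r → ℕ) → Msr} {ε : ℝ}
    (h : ∀ t ∈ steps r I₀ I, l1 (X t) ≤ ε) : l1 (avg r I₀ I X) ≤ ε := by
  have hpos : (0 : ℝ) < (I : ℝ) ^ r := by positivity
  rw [avg, l1_smul, abs_of_pos (inv_pos.2 hpos), inv_mul_le_iff₀ hpos]
  refine (l1_sum_le _ _).trans ((Finset.sum_le_sum h).trans_eq ?_)
  simp [card_steps]

/-- The expansion at `0`. -/
theorem rich {r I₀ I : ℕ} (hI : 0 < I) (F : ℕ → Msr) (G : (Fin r → ℕ) → (Fin r → Bool) → Msr)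
    (hG : ∀ t ∈ steps r I₀ I, G t (mask0 r) = F 0) :
    F 0 = (∑ m ∈ univ.erase (mask0 r), (-sgn m) • avg r I₀ I fun t => F (ksum t m)) +
      (∑ m ∈ univ.erase (mask0 r), sgn m • avg r I₀ I fun t => F (ksum t m) - G t m) +
      avg r I₀ I fun t => ∑ m, sgn m • G t m := by
  have hsplit : (avg r I₀ I fun t => ∑ m, sgn m • G t m) =
      F 0 + ∑ m ∈ univ.erase (mask0 r), sgn m • avg r I₀ I fun t => G t m := by
    rw [avg_sum, ← Finset.add_sum_erase _ _ (mem_univ (mask0 r))]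
    simp only [avg_smul, sgn_mask0, one_smul]
    rw [avg_congr hG, avg_const hI]
  have hsub : ∀ m, (avg r I₀ I fun t => F (ksum t m) - G t m) =
      (avg r I₀ I fun t => F (ksum t m)) - avg r I₀ I fun t => G t m := fun m => by
    simp [avg, Finset.sum_sub_distrib, smul_sub]
  rw [hsplit]
  simp only [hsub, smul_sub, Finset.sum_sub_distrib, neg_smul, Finset.sum_neg_distrib]
  abel

/-- The law of the sum of the selected steps. -/
noncomputable def wt (r I₀ I : ℕ) (m : Fin r → Bool) (k : ℕ) : ℝ :=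
  #((steps r I₀ I).filter fun t => ksum t m = k) / (I : ℝ) ^ r

theorem avg_eq_sum_wt (r I₀ I : ℕ) (m : Fin r → Bool) (X : ℕ → Msr) :
    (avg r I₀ I fun t => X (ksum t m)) =
      ∑ k ∈ (steps r I₀ I).image (fun t => ksum t m), wt r I₀ I m k • X k := by
  rw [avg, ← Finset.sum_fiberwise_of_maps_to
    (fun t (ht : t ∈ steps r I₀ I) => mem_image_of_mem (fun t => ksum t m) ht),
    Finset.smul_sum]
  classical
  refine Finset.sum_congr rfl fun k _ => ?_
  rw [Finset.sum_congr rfl (g := fun _ => X k) fun t ht => by rw [(mem_filter.1 ht).2],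
    Finset.sum_const, ← Nat.cast_smul_eq_nsmul ℝ, smul_smul, wt, div_eq_inv_mul]

theorem wt_nonneg (r I₀ I : ℕ) (m : Fin r → Bool) (k : ℕ) : 0 ≤ wt r I₀ I m k := by
  rw [wt]; positivity

theorem sum_wt {r I₀ I : ℕ} (hI : 0 < I) (m : Fin r → Bool) :
    ∑ k ∈ (steps r I₀ I).image (fun t => ksum t m), wt r I₀ I m k = 1 := by
  simp only [wt, ← Finset.sum_div, ← Nat.cast_sum]
  rw [← Finset.card_eq_sum_card_image, card_steps, Nat.cast_pow, div_self (by positivity)]

theorem wt_le {r I₀ I : ℕ} (hI : 0 < I) {m : Fin r → Bool} (hm : m ≠ mask0 r) (k : ℕ) :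
    wt r I₀ I m k ≤ 1 / I := by
  obtain ⟨i, hi⟩ := exists_true_of_ne hm
  have hcard : #((steps r I₀ I).filter fun t => ksum t m = k) * I ≤ I ^ r := by
    have hI' : #(Finset.Ico I₀ (I₀ + I)) = I := by simp
    rw [← card_steps r I₀ I]
    nth_rewrite 2 [← hI']
    rw [← Finset.card_product]
    refine Finset.card_le_card_of_injOn (fun tv => Function.update tv.1 i tv.2) (fun tv h => ?_) ?_
    · simp only [coe_product, Set.mem_prod, mem_coe, mem_filter, mem_steps, Finset.mem_Ico] at h ⊢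
      intro j
      rcases eq_or_ne j i with rfl | hj
      · rw [Function.update_self]; exact h.2
      · rw [Function.update_of_ne hj]; exact h.1.1 j
    · intro tv h tw h' e
      simp only [coe_product, Set.mem_prod, mem_coe, mem_filter] at h h'
      simp only at e
      have h2 : tv.2 = tw.2 := by simpa using congrFun e i
      have hrest : ∀ j, j ≠ i → tv.1 j = tw.1 j := fun j hj => by
        simpa [hj] using congrFun e j
      have h1 := h.1.2.trans h'.1.2.symm
      simp only [ksum, ← Finset.add_sum_erase _ _ (mem_univ i), hi, if_true] at h1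
      rw [Finset.sum_congr rfl (g := fun j => if m j then tw.1 j else 0) fun j hj => by
        rw [hrest j (ne_of_mem_erase hj)]] at h1
      refine Prod.ext (funext fun j => ?_) h2
      rcases eq_or_ne j i with rfl | hj
      · exact Nat.add_right_cancel h1
      · exact hrest j hj
  rw [wt, div_le_div_iff₀ (by positivity) (by positivity), one_mul]
  exact_mod_cast hcard

theorem sum_wt_sq {r I₀ I : ℕ} (hI : 0 < I) {m : Fin r → Bool} (hm : m ≠ mask0 r) :
    ∑ k ∈ (steps r I₀ I).image (fun t => ksum t m), wt r I₀ I m k ^ 2 ≤ 1 / I := by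
  refine (Finset.sum_le_sum fun k _ => ?_).trans_eq
    (by rw [← Finset.sum_mul, sum_wt hI, one_mul] :
      ∑ k ∈ (steps r I₀ I).image (fun t => ksum t m), wt r I₀ I m k * (1 / (I : ℝ)) = 1 / I)
  rw [sq]
  exact mul_le_mul_of_nonneg_left (wt_le hI hm k) (wt_nonneg r I₀ I m k)

/-- Nested pieces around `X`, one pair per step. -/
noncomputable def pc (P Q : ℕ → Msr) (X : Msr) : (r : ℕ) → (Fin r → ℕ) → (Fin r → Bool) → Msr
  | 0, _, _ => X
  | r + 1, t, m => P (if m 0 then t 0 else 0) *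
      pc P Q X r (fun i => t i.succ) (fun i => m i.succ) * Q (if m 0 then t 0 else 0)

theorem l1_alt_pc_le (P Q : ℕ → Msr) (hP : IsProb (P 0)) (X : Msr) {δ : ℝ} :
    ∀ (r : ℕ) (t : Fin r → ℕ),
      (∀ i, IsProb (Q (t i)) ∧ l1 (P (t i) - P 0) ≤ δ ∧ l1 (Q (t i) - Q 0) ≤ δ) →
      l1 (∑ m, sgn m • pc P Q X r t m) ≤ (2 * δ) ^ r * l1 X := by
  intro r
  induction r with
  | zero =>
    intro t _
    simp [sgn, pc]
  | succ r ih =>
    intro t h
    have hδ : 0 ≤ δ := (l1_nonneg _).trans (h 0).2.1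
    set M := ∑ m, sgn m • pc P Q X r (fun i => t i.succ) m with hM
    have e : ∑ m, sgn m • pc P Q X (r + 1) t m =
        P 0 * M * Q 0 - P (t 0) * M * Q (t 0) := by
      rw [← (Fin.consEquiv fun _ => Bool).sum_comp, Fintype.sum_prod_type, Fintype.sum_bool]
      simp only [Fin.consEquiv_apply, sgn, Fin.prod_univ_succ, Fin.cons_zero, Fin.cons_succ, pc,
        if_true, Bool.false_eq_true, if_false, one_mul, neg_mul, neg_smul, Finset.sum_neg_distrib,
        hM, Finset.mul_sum, Finset.sum_mul, mul_smul_comm, smul_mul_assoc]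
      abel
    rw [e, show P 0 * M * Q 0 - P (t 0) * M * Q (t 0) =
      -(P 0 * M * (Q (t 0) - Q 0)) - (P (t 0) - P 0) * M * Q (t 0) by noncomm_ring]
    refine (l1_sub_le _ _).trans ?_
    rw [l1_neg, pow_succ']
    have hM' := ih (fun i => t i.succ) fun i => h i.succ
    have hMn := (l1_nonneg M).trans hM'
    have a1 : l1 (P 0 * M * (Q (t 0) - Q 0)) ≤ (2 * δ) ^ r * l1 X * δ :=
      (l1_mul_le _ _).trans (mul_le_mul ((l1_mul_prob_left hP _).trans hM') (h 0).2.2
        (l1_nonneg _) hMn)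
    have a2 : l1 ((P (t 0) - P 0) * M * Q (t 0)) ≤ δ * ((2 * δ) ^ r * l1 X) := by
      refine (l1_mul_prob_right (h 0).1 _).trans ((l1_mul_le _ _).trans ?_)
      exact mul_le_mul (h 0).2.1 hM' (l1_nonneg _) hδ
    nlinarith

end Vale.Agent.P321.Super
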