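import Vale.Agent.P321.Super.Words
import Vale.Agent.P321.Super.Near
import Vale.Agent.P321.Super.Rich

/-!
# P321: what each level provides

`ν` is the norm of the localised part of the block difference, `ν δ` that of its wider rest, `c`
that of a centre against pure slots, `κ` the crude norm between a centre and a slot; `η` is the
negligible part.
-/

namespace Vale.Agent.P321.Super

open Finset

namespace Lev

/-- The properties of one level used by the next. -/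
structure Inv (v : Lev) (a : ℕ) (ν δ c κ η : ℝ) : Prop where
  probS : IsProb v.s
  probE : IsProb v.e
  probO : IsProb v.o
  ha : 4 * a ≤ v.A
  nonneg : 0 ≤ ν ∧ 0 ≤ δ ∧ 0 ≤ c ∧ 1 ≤ κ ∧ 0 ≤ η ∧ η ≤ 1
  crossS : ∀ ρ ∈ [v.e, v.o], Ap ρ v.s κ η ∧ Ap v.s ρ κ η
  rep : ∃ g r : Msr, mass g = 0 ∧ mass r = 0 ∧ Ap v.s g ν η ∧ Ap (v.s ^ (2 * a + 1)) r (ν * δ) η ∧
    (∀ ρ ∈ [v.e, v.o], Ap ρ g ν η ∧ Ap (v.s ^ a * ρ * v.s ^ a) r (ν * δ) η) ∧
    ∀ k, 2 * k ≤ v.A →
      l1 (v.blk (v.o - v.e - g) k - v.s ^ (v.A - a + k) * r * v.s ^ (v.A - a - k)) ≤ η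
  centre : ∀ x y k, v.A ≤ 2 * x → x ≤ 2 * v.A → v.A ≤ 2 * y → y ≤ 2 * v.A → 4 * k ≤ v.A →
    Ap (v.s ^ x * v.e * v.s ^ y) (v.s ^ (x + k) * v.e * v.s ^ (y - k) - v.s ^ (x + y + 1)) c η

/-- A factor may be replaced inside exact reference factors at no cost. -/
theorem ap_inside {X R μ Y : Msr} (hX : IsProb X) (hR : IsProb R) (hY : IsProb Y) {a ε : ℝ}
    (h : Ap R μ a ε) : Ap (X * R * Y) (X * μ * Y) a ε :=
  (((Ap.self hX).mul hX hR h).mul (hX.mul hR) hY (Ap.self hY)).mono (by simp) (by simp)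

variable {v : Lev} {a : ℕ} {ν δ c κ η : ℝ}

theorem Inv.probZ (h : v.Inv a ν δ c κ η) : IsProb v.Z :=
  ((h.probS.pow _).mul h.probE).mul (h.probS.pow _)

theorem Inv.probU (h : v.Inv a ν δ c κ η) : IsProb v.U :=
  ((h.probS.pow _).mul h.probO).mul (h.probS.pow _)

theorem Inv.probBlk (h : v.Inv a ν δ c κ η) {x : Msr} (hx : IsProb x) (k : ℕ) :
    IsProb (v.blk x k) :=
  ((h.probS.pow _).mul hx).mul (h.probS.pow _)

theorem Inv.prob_ref (h : v.Inv a ν δ c κ η) {ρ : Msr} (hρ : ρ ∈ [v.e, v.o]) : IsProb ρ := by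
  simp only [List.mem_cons, List.not_mem_nil, or_false] at hρ
  rcases hρ with rfl | rfl
  exacts [h.probE, h.probO]

theorem Inv.probWd (h : v.Inv a ν δ c κ η) (b : List Bool) : IsProb (v.wd b) :=
  IsProb.list_prod fun R hR => by
    obtain ⟨x, -, rfl⟩ := List.mem_map.1 hR
    cases x
    exacts [h.probZ, h.probU]

theorem Inv.probWdK (h : v.Inv a ν δ c κ η) (k : ℕ) (b : List Bool) : IsProb (v.wdK k b) :=
  IsProb.list_prod fun R hR => by
    obtain ⟨x, -, rfl⟩ := List.mem_map.1 hR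
    cases x
    exacts [h.probBlk h.probE k, h.probBlk h.probO k]

/-- Pure slots against the ground block. -/
theorem Inv.pure_sub (h : v.Inv a ν δ c κ η) :
    Ap v.Z (v.s ^ (2 * v.A + 1) - v.Z) c η := by
  have := (h.centre v.A v.A 0 (by omega) (by omega) (by omega) (by omega) (by omega)).neg
  rw [neg_sub, ← two_mul] at this
  simpa [Z] using this

/-- A shifted ground block against the ground block. -/
theorem Inv.blk_sub (h : v.Inv a ν δ c κ η) {k : ℕ} (hk : 4 * k ≤ v.A) :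
    Ap v.Z (v.blk v.e k - v.Z) (2 * c) (2 * η) := by
  have := h.centre v.A v.A k (by omega) (by omega) (by omega) (by omega) hk
  rw [← two_mul, show v.s ^ (v.A + k) * v.e * v.s ^ (v.A - k) = v.blk v.e k from rfl] at this
  rw [show v.blk v.e k - v.Z =
    (v.blk v.e k - v.s ^ (2 * v.A + 1)) + (v.s ^ (2 * v.A + 1) - v.Z) by abel, two_mul c, two_mul η]
  exact this.add h.probZ h.pure_sub

/-- A content moved off the centre, against a block. -/
theorem Inv.ap_moved (h : v.Inv a ν δ c κ η) {ρ : Msr} (hρ : ρ ∈ [v.e, v.o]) {x : Msr} {b ε : ℝ}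
    {k w : ℕ} (hwk : w < k) (hk : k + w ≤ v.A) (hx : Ap (v.s ^ (2 * w + 1)) x b ε) :
    Ap (v.s ^ v.A * ρ * v.s ^ v.A) (v.s ^ (v.A - w + k) * x * v.s ^ (v.A - w - k))
      (κ * b) (κ * ε + η * b + η * ε) := by
  have hp := h.probS
  have hS : IsProb (v.s ^ (k - w - 1) * v.s ^ (2 * w + 1) * v.s ^ (v.A - w - k)) :=
    ((hp.pow _).mul (hp.pow _)).mul (hp.pow _)
  have h1 := ((h.crossS ρ hρ).1.mul (h.prob_ref hρ) hS
    (ap_inside (hp.pow (k - w - 1)) (hp.pow _) (hp.pow (v.A - w - k)) hx))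
  have h2 := (Ap.self (hp.pow v.A)).mul (hp.pow v.A) ((h.prob_ref hρ).mul hS) h1
  simp only [one_mul, zero_mul, add_zero] at h2
  have e1 : v.s ^ (k - w - 1) * v.s ^ (2 * w + 1) * v.s ^ (v.A - w - k) = v.s ^ v.A := by
    rw [← pow_add, ← pow_add]; congr 1; omega
  have e2 : v.s ^ v.A * (v.s * (v.s ^ (k - w - 1) * x * v.s ^ (v.A - w - k))) =
      v.s ^ (v.A - w + k) * x * v.s ^ (v.A - w - k) := by
    simp only [← mul_assoc, ← pow_succ, ← pow_add]
    congr 3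
    omega
  rw [e1, e2, ← mul_assoc] at h2
  exact h2

/-- A shifted centre against either block. -/
theorem Inv.ap_blk (h : v.Inv a ν δ c κ η) {ρ x : Msr} (hρ : ρ ∈ [v.e, v.o]) (hx : x ∈ [v.e, v.o])
    {k : ℕ} (h0 : 0 < k) (hk : k ≤ v.A) :
    Ap (v.s ^ v.A * ρ * v.s ^ v.A) (v.blk x k) (κ * κ) (3 * κ * η) := by
  have h1 := h.ap_moved hρ (x := x) (w := 0) h0 (by omega) (by simpa using (h.crossS x hx).2)
  obtain ⟨-, -, -, hκ, hη, hη1⟩ := h.nonneg
  exact h1.mono le_rfl (by nlinarith [mul_le_mul_of_nonneg_left hη1 hη, mul_le_mul_of_nonneg_right hκ hη])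

/-- The block difference moved off the centre. -/
theorem Inv.ap_blkD (h : v.Inv a ν δ c κ η) {ρ : Msr} (hρ : ρ ∈ [v.e, v.o]) {k : ℕ} (h0 : a < k)
    (hk : 2 * k ≤ v.A) :
    Ap (v.s ^ v.A * ρ * v.s ^ v.A) (v.blk (v.o - v.e) k) (κ * (ν * (1 + δ)))
      (5 * κ * (1 + ν * (1 + δ)) * η) := by
  obtain ⟨hν, hδ, -, hκ, hη, hη1⟩ := h.nonneg
  obtain ⟨g, r, -, -, hg, hr, -, hl⟩ := h.rep
  have hP : IsProb (v.s ^ v.A * ρ * v.s ^ v.A) :=
    ((h.probS.pow _).mul (h.prob_ref hρ)).mul (h.probS.pow _)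
  have h1 := h.ap_moved hρ (x := g) (w := 0) (k := k) (by omega) (by omega) (by simpa using hg)
  have h2 := h.ap_moved hρ (x := r) (w := a) h0 (by have := h.ha; omega) hr
  simp only [Nat.sub_zero] at h1
  have h3 := ((h1.add hP h2).of_near (ν := v.blk (v.o - v.e) k) (δ := η) (by
    refine le_trans (le_of_eq (congrArg l1 ?_)) (hl k hk)
    rw [show v.blk (v.o - v.e - g) k = v.blk (v.o - v.e) k - v.blk g k from v.blk_sub _ _ k,
      sub_add_eq_sub_sub]
    rfl))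
  refine h3.mono (le_of_eq (by ring)) ?_
  have : η * η ≤ η := mul_le_of_le_one_left hη hη1
  have : η ≤ κ * η := le_mul_of_one_le_left hη hκ
  have : ν * δ * η ≤ κ * (ν * δ) * η := by
    rw [mul_assoc κ]; exact le_mul_of_one_le_left (by positivity) hκ
  have : ν * η ≤ κ * ν * η := by
    rw [mul_assoc κ]; exact le_mul_of_one_le_left (by positivity) hκ
  nlinarith [mul_nonneg hν hη, mul_nonneg (mul_nonneg hν hδ) hη]

/-- The block difference against either block. -/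
theorem Inv.ap_D (h : v.Inv a ν δ c κ η) {ρ : Msr} (hρ : ρ ∈ [v.e, v.o]) :
    Ap (v.s ^ v.A * ρ * v.s ^ v.A) (v.U - v.Z) (ν * (1 + δ)) (3 * η) := by
  obtain ⟨g, r, -, -, -, -, hgr, hl⟩ := h.rep
  obtain ⟨hg, hr⟩ := hgr ρ hρ
  have hp := h.probS
  have hP : IsProb (v.s ^ v.A * ρ * v.s ^ v.A) := ((hp.pow _).mul (h.prob_ref hρ)).mul (hp.pow _)
  have h1 := ap_inside (hp.pow v.A) (h.prob_ref hρ) (hp.pow v.A) hg
  have h2 := ap_inside (hp.pow (v.A - a)) (((hp.pow a).mul (h.prob_ref hρ)).mul (hp.pow a))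
    (hp.pow (v.A - a)) hr
  have e : v.s ^ (v.A - a) * (v.s ^ a * ρ * v.s ^ a) * v.s ^ (v.A - a) =
      v.s ^ v.A * ρ * v.s ^ v.A := by
    have := h.ha
    simp only [← mul_assoc, ← pow_add]
    rw [mul_assoc _ (v.s ^ a), ← pow_add]
    congr 3 <;> omega
  rw [e] at h2
  refine ((h1.add hP h2).of_near (ν := v.U - v.Z) (δ := η) ?_).mono (le_of_eq (by ring))
    (le_of_eq (by ring))
  refine le_trans (le_of_eq (congrArg l1 ?_)) (hl 0 (by omega))
  rw [D_eq, show v.blk (v.o - v.e - g) 0 = v.blk (v.o - v.e) 0 - v.blk g 0 from v.blk_sub _ _ 0,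
    sub_add_eq_sub_sub]
  simp [blk]

end Lev

end Vale.Agent.P321.Super
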