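import Vale.Agent.P321.Super.Base
import Vale.Agent.P321.Super.Inv

/-!
# P321: the invariant at the first level
-/

namespace Vale.Agent.P321.Super

open Finset

variable {p : ℝ}

/-- The first level has all the properties used by the step. -/
theorem base_inv (h0 : 0 < p) (h1 : p < 1) : ∃ κ₀ : ℝ, 1 ≤ κ₀ ∧ ∀ d : ℕ, 1 ≤ d → ∀ Γ : ℕ,
    ∃ l₀ : ℕ, ∀ l ≥ l₀, (base p (l ^ (60 * d)) (l ^ (60 * d))).Inv 0
      (1 / (l : ℝ) ^ (90 * d - 3)) 0 (1 / (l : ℝ) ^ (30 * d - 3)) κ₀ (1 / (l : ℝ) ^ Γ) := by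
  obtain ⟨K, hK0, hK⟩ := base_compare h0 h1
  refine ⟨max K 1, le_max_right _ _, fun d hd Γ => ?_⟩
  obtain ⟨l₁, hl₁⟩ := hK d hd Γ
  obtain ⟨l₂, hl₂⟩ := base_rep h0 h1 d hd Γ
  obtain ⟨l₃, hl₃⟩ := ap_block_pure h0 h1 d hd Γ
  refine ⟨max (max l₁ l₂) (max l₃ 2), fun l hl => ?_⟩
  have hl2 : 2 ≤ l := by omega
  have hlR : (1 : ℝ) ≤ l := by exact_mod_cast (show 1 ≤ l by omega)
  obtain ⟨a1, a2, a3, a4⟩ := hl₁ l (by omega)
  obtain ⟨g, hg0, g1, g2, g3, g4⟩ := hl₂ l (by omega)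
  have H := hl₃ l (by omega)
  set S := l ^ (60 * d) with hS
  have hS1 : 1 ≤ S := Nat.one_le_iff_ne_zero.2 (pow_ne_zero _ (by omega))
  have hη : 0 ≤ 1 / (l : ℝ) ^ Γ := by positivity
  have hν : 0 ≤ 1 / (l : ℝ) ^ (90 * d - 3) := by positivity
  refine ⟨(isProb_s0 h0 h1).pow S, isProb_pos h0 h1 _ _, isProb_pos h0 h1 _ _, Nat.zero_le _,
    ⟨hν, le_rfl, by positivity, le_max_right _ _, hη, ?_⟩, ?_, ?_, ?_⟩
  · rw [div_le_one (by positivity)]; exact one_le_pow₀ hlR
  · intro ρ hρ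
    simp only [List.mem_cons, List.not_mem_nil, or_false] at hρ
    rcases hρ with rfl | rfl
    · exact ⟨a1.mono (le_max_left _ _) le_rfl, a3.mono (le_max_left _ _) le_rfl⟩
    · exact ⟨a2.mono (le_max_left _ _) le_rfl, a4.mono (le_max_left _ _) le_rfl⟩
  · refine ⟨g, 0, hg0, map_zero _, g1, (Ap.zero _).mono (by simp) hη, fun ρ hρ => ?_, fun k hk => ?_⟩
    · refine ⟨?_, (Ap.zero _).mono (by simp) hη⟩
      simp only [List.mem_cons, List.not_mem_nil, or_false] at hρ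
      rcases hρ with rfl | rfl
      exacts [g2, g3]
    · simpa using g4 k hk
  · intro x y k hx hx' hy hy' hk
    rw [base_A] at hx hx' hy hy' hk
    simp only [base_s, base_e, ← pow_mul, pos_pad p (show S / 2 < S by omega)]
    have e1 : S * (x + k) + S + S * (y - k) = S * (x + y + 1) := by
      have : S * (x + k) + S * (y - k) = S * (x + y) := by
        rw [← mul_add]; congr 1; omega
      rw [mul_add S (x + y), mul_one]; omega
    have e2 : S * x + S + S * y = S * (x + y + 1) := by ring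
    rw [e1, e2]
    have q1 : S * S ≤ S * (2 * x) := Nat.mul_le_mul_left S hx
    have q2 : S * S ≤ S * (2 * y) := Nat.mul_le_mul_left S hy
    have q3 : S * (4 * k) ≤ S * S := Nat.mul_le_mul_left S hk
    have e3 : S * (x + y + 1) = S * x + S * y + S := by ring
    rw [mul_left_comm] at q1 q2 q3
    refine (H _ _ _ ?_ ?_ ?_ ?_).mono ?_ le_rfl
    · simp only [mul_add]; omega
    · omega
    · simp only [mul_add]; omega
    · simp only [mul_add] at e3 ⊢; omega
    · exact one_div_le_one_div_of_le (pow_pos (by exact_mod_cast (show 0 < l by omega)) _)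
        (pow_le_pow_right₀ hlR (by omega))

end Vale.Agent.P321.Super
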