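import Mathlib

/-!
# P321: measures on words

Signed measures on words form the monoid algebra of the free monoid, so that concatenation of
independent random words is multiplication.
-/

namespace Vale.Agent.P321.Super

open Finset

/-- Words. -/
abbrev W := FreeMonoid Bool

/-- Finitely supported signed measures on words. -/
abbrev Msr := MonoidAlgebra ℝ W

open MonoidAlgebra (single)

/-- The total variation norm. -/
noncomputable def l1 (μ : Msr) : ℝ := ∑ t ∈ μ.coeff.support, |μ.coeff t|

/-- The total mass. -/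
noncomputable def mass : Msr →ₐ[ℝ] ℝ := MonoidAlgebra.lift ℝ ℝ W 1

theorem mass_single (t : W) (a : ℝ) : mass (single t a) = a := by simp [mass]

/-- Probability measures. -/
structure IsProb (R : Msr) : Prop where
  nonneg : ∀ t, 0 ≤ R.coeff t
  mass_one : mass R = 1

theorem expand (μ : Msr) : μ = ∑ t ∈ μ.coeff.support, single t (μ.coeff t) :=
  (MonoidAlgebra.sum_coeff_single μ).symm

theorem l1_eq_sum {μ : Msr} {s : Finset W} (h : μ.coeff.support ⊆ s) :
    l1 μ = ∑ t ∈ s, |μ.coeff t| :=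
  Finset.sum_subset h fun t _ ht => by simp [Finsupp.notMem_support_iff.1 ht]

theorem mass_eq_sum {μ : Msr} {s : Finset W} (h : μ.coeff.support ⊆ s) :
    mass μ = ∑ t ∈ s, μ.coeff t := by
  conv_lhs => rw [expand μ, map_sum]
  simp only [mass_single]
  exact Finset.sum_subset h fun t _ ht => Finsupp.notMem_support_iff.1 ht

theorem abs_mass_le (μ : Msr) : |mass μ| ≤ l1 μ := by
  rw [mass_eq_sum subset_rfl]
  exact Finset.abs_sum_le_sum_abs _ _

theorem l1_nonneg (μ : Msr) : 0 ≤ l1 μ := Finset.sum_nonneg fun _ _ => abs_nonneg _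

@[simp] theorem l1_zero : l1 0 = 0 := by simp [l1]

theorem l1_single (t : W) (a : ℝ) : l1 (single t a) = |a| := by
  classical
  rw [l1_eq_sum (s := {t}) (by simpa using Finsupp.support_single_subset)]
  simp

theorem l1_add_le (μ ν : Msr) : l1 (μ + ν) ≤ l1 μ + l1 ν := by
  classical
  set s := μ.coeff.support ∪ ν.coeff.support
  rw [l1_eq_sum (s := s) (μ := μ) subset_union_left, l1_eq_sum (s := s) (μ := ν) subset_union_right,
    l1_eq_sum (s := s) (μ := μ + ν) (by simpa using Finsupp.support_add), ← sum_add_distrib]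
  exact Finset.sum_le_sum fun t _ => by simpa using abs_add_le _ _

@[simp] theorem l1_neg (μ : Msr) : l1 (-μ) = l1 μ := by simp [l1]

theorem l1_sub_le (μ ν : Msr) : l1 (μ - ν) ≤ l1 μ + l1 ν := by
  simpa [sub_eq_add_neg] using l1_add_le μ (-ν)

theorem l1_smul (c : ℝ) (μ : Msr) : l1 (c • μ) = |c| * l1 μ := by
  classical
  rw [l1_eq_sum (s := μ.coeff.support) (by simpa using Finsupp.support_smul), l1, mul_sum]
  simp [abs_mul]

theorem l1_sum_le {ι : Type*} (s : Finset ι) (F : ι → Msr) :
    l1 (∑ i ∈ s, F i) ≤ ∑ i ∈ s, l1 (F i) := by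
  classical
  induction s using Finset.induction_on with
  | empty => simp
  | insert a s ha ih =>
    rw [sum_insert ha, sum_insert ha]
    linarith [l1_add_le (F a) (∑ i ∈ s, F i)]

theorem l1_mul_le (μ ν : Msr) : l1 (μ * ν) ≤ l1 μ * l1 ν := by
  calc l1 (μ * ν)
      = l1 (∑ s ∈ μ.coeff.support, ∑ t ∈ ν.coeff.support,
          single (s * t) (μ.coeff s * ν.coeff t)) := by
        conv_lhs => rw [expand μ, expand ν]
        rw [Finset.sum_mul_sum]
        simp
    _ ≤ ∑ s ∈ μ.coeff.support, ∑ t ∈ ν.coeff.support, |μ.coeff s| * |ν.coeff t| := by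
        refine (l1_sum_le _ _).trans (Finset.sum_le_sum fun s _ => ?_)
        refine (l1_sum_le _ _).trans (Finset.sum_le_sum fun t _ => ?_)
        rw [l1_single, abs_mul]
    _ = l1 μ * l1 ν := by rw [l1, l1, Finset.sum_mul_sum]

theorem IsProb.l1_eq {R : Msr} (h : IsProb R) : l1 R = 1 := by
  rw [← h.mass_one, mass_eq_sum subset_rfl, l1]
  exact Finset.sum_congr rfl fun t _ => abs_of_nonneg (h.nonneg t)

theorem coeff_mul_nonneg {μ ν : Msr} (hμ : ∀ t, 0 ≤ μ.coeff t) (hν : ∀ t, 0 ≤ ν.coeff t)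
    (t : W) : 0 ≤ (μ * ν).coeff t := by
  classical
  rw [MonoidAlgebra.coeff_mul]
  exact Finset.sum_nonneg fun a _ => Finset.sum_nonneg fun b _ => by
    dsimp only
    split_ifs
    exacts [mul_nonneg (hμ a) (hν b), le_rfl]

theorem IsProb.mul {R S : Msr} (hR : IsProb R) (hS : IsProb S) : IsProb (R * S) :=
  ⟨coeff_mul_nonneg hR.nonneg hS.nonneg, by rw [map_mul, hR.mass_one, hS.mass_one, one_mul]⟩

theorem isProb_one : IsProb 1 := by
  classical
  refine ⟨fun t => ?_, map_one _⟩
  rw [MonoidAlgebra.one_def, MonoidAlgebra.coeff_single, Finsupp.single_apply]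
  split_ifs <;> norm_num

theorem IsProb.pow {R : Msr} (hR : IsProb R) : ∀ n : ℕ, IsProb (R ^ n)
  | 0 => by simpa using isProb_one
  | n + 1 => by rw [pow_succ]; exact (hR.pow n).mul hR

theorem IsProb.list_prod {l : List Msr} (h : ∀ R ∈ l, IsProb R) : IsProb l.prod := by
  induction l with
  | nil => simpa using isProb_one
  | cons a l ih =>
    rw [List.prod_cons]
    exact (h a (by simp)).mul (ih fun R hR => h R (by simp [hR]))

theorem l1_sub_prob_le {R S : Msr} (hR : IsProb R) (hS : IsProb S) : l1 (R - S) ≤ 2 :=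
  (l1_sub_le R S).trans_eq (by rw [hR.l1_eq, hS.l1_eq]; norm_num)

theorem l1_mul_prob_left {R : Msr} (hR : IsProb R) (μ : Msr) : l1 (R * μ) ≤ l1 μ :=
  (l1_mul_le R μ).trans_eq (by rw [hR.l1_eq, one_mul])

theorem l1_mul_prob_right {R : Msr} (hR : IsProb R) (μ : Msr) : l1 (μ * R) ≤ l1 μ :=
  (l1_mul_le μ R).trans_eq (by rw [hR.l1_eq, mul_one])

/-- The law of a kept-or-deleted letter. -/
noncomputable def letter (p : ℝ) (b : Bool) : Msr :=
  single 1 (1 - p) + single (FreeMonoid.of b) p

/-- The law of a trace. -/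
noncomputable def tr (p : ℝ) (w : List Bool) : Msr := (w.map (letter p)).prod

theorem tr_append (p : ℝ) (v w : List Bool) : tr p (v ++ w) = tr p v * tr p w := by
  simp [tr]

theorem isProb_letter {p : ℝ} (h0 : 0 ≤ p) (h1 : p ≤ 1) (b : Bool) : IsProb (letter p b) := by
  classical
  refine ⟨fun t => ?_, by simp [letter, mass_single]⟩
  simp only [letter, MonoidAlgebra.coeff_add, MonoidAlgebra.coeff_single, Finsupp.add_apply,
    Finsupp.single_apply]
  split_ifs <;> linarith

theorem isProb_tr {p : ℝ} (h0 : 0 ≤ p) (h1 : p ≤ 1) (w : List Bool) : IsProb (tr p w) :=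
  IsProb.list_prod fun R hR => by
    obtain ⟨b, -, rfl⟩ := List.mem_map.1 hR
    exact isProb_letter h0 h1 b

end Vale.Agent.P321.Super
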