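import Mathlib

/-!
# P321: binomial weights are spread out

Every binomial weight with `n` trials is at most `1 / √(2 min(p, 1-p) (n+1))`: for `p ≤ 1/2`
thin a fair binomial and use Cauchy–Schwarz with the mean of `1/(m+1)`.
-/

namespace Vale.Agent.P321

open Finset

/-- The weight of `k` successes among `n` trials. -/
noncomputable def binW (p : ℝ) (n k : ℕ) : ℝ := n.choose k * p ^ k * (1 - p) ^ (n - k)

theorem binW_nonneg {p : ℝ} (h0 : 0 ≤ p) (h1 : p ≤ 1) (n k : ℕ) : 0 ≤ binW p n k := by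
  have : 0 ≤ 1 - p := by linarith
  unfold binW
  positivity

theorem binW_of_lt {p : ℝ} {n k : ℕ} (h : n < k) : binW p n k = 0 := by
  simp [binW, Nat.choose_eq_zero_of_lt h]

theorem sum_binW (p : ℝ) (n : ℕ) : ∑ k ∈ range (n + 1), binW p n k = 1 := by
  have h := add_pow p (1 - p) n
  rw [add_sub_cancel, one_pow] at h
  exact (Finset.sum_congr rfl fun k _ => by unfold binW; ring).trans h.symm

theorem binW_symm (p : ℝ) {n k : ℕ} (h : k ≤ n) : binW (1 - p) n (n - k) = binW p n k := by
  rw [binW, binW, Nat.choose_symm h, Nat.sub_sub_self h, sub_sub_cancel]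
  ring

theorem centralBinom_sq_le (j : ℕ) : Nat.centralBinom j ^ 2 * (2 * j + 1) ≤ 16 ^ j := by
  induction j with
  | zero => simp
  | succ j ih =>
    refine Nat.le_of_mul_le_mul_left ?_ (pow_pos (Nat.succ_pos j) 2)
    calc (j + 1) ^ 2 * (Nat.centralBinom (j + 1) ^ 2 * (2 * (j + 1) + 1))
        = ((j + 1) * Nat.centralBinom (j + 1)) ^ 2 * (2 * j + 3) := by ring
      _ = 4 * ((2 * j + 1) * (2 * j + 3)) * (Nat.centralBinom j ^ 2 * (2 * j + 1)) := by
          rw [Nat.succ_mul_centralBinom_succ]; ring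
      _ ≤ 4 * (4 * (j + 1) ^ 2) * 16 ^ j := by
          refine Nat.mul_le_mul (Nat.mul_le_mul_left 4 ?_) ih
          ring_nf
          omega
      _ = (j + 1) ^ 2 * 16 ^ (j + 1) := by ring

theorem choose_sq_le (m k : ℕ) : m.choose k ^ 2 * (m + 1) ≤ 4 ^ m := by
  refine (Nat.mul_le_mul_right _ (Nat.pow_le_pow_left (Nat.choose_le_middle k m) 2)).trans ?_
  obtain ⟨j, rfl | rfl⟩ : ∃ j, m = 2 * j ∨ m = 2 * j + 1 := ⟨m / 2, by omega⟩
  · rw [show 2 * j / 2 = j by omega, ← Nat.centralBinom_eq_two_mul_choose]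
    calc _ ≤ 16 ^ j := centralBinom_sq_le j
      _ = _ := by rw [pow_mul]; norm_num
  · have hc : Nat.centralBinom (j + 1) = 2 * (2 * j + 1).choose j := by
      rw [Nat.centralBinom_eq_two_mul_choose, show 2 * (j + 1) = 2 * j + 1 + 1 by ring,
        Nat.choose_succ_succ', Nat.choose_symm_half]
      ring
    have h := centralBinom_sq_le (j + 1)
    rw [hc] at h
    rw [show (2 * j + 1) / 2 = j by omega]
    have e : 4 * 4 ^ (2 * j + 1) = 16 ^ (j + 1) := by
      rw [show (16 : ℕ) = 4 ^ 2 by norm_num, ← pow_mul, ← pow_succ']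
      ring_nf
    nlinarith [h, e, Nat.zero_le ((2 * j + 1).choose j ^ 2)]

theorem fair_le (m k : ℕ) :
    (m.choose k : ℝ) * (1 / 2) ^ m ≤ Real.sqrt (1 / (m + 1)) := by
  refine Real.le_sqrt_of_sq_le ?_
  have h : (m.choose k : ℝ) ^ 2 * (m + 1) ≤ 4 ^ m := by exact_mod_cast choose_sq_le m k
  rw [le_div_iff₀ (by positivity)]
  calc ((m.choose k : ℝ) * (1 / 2) ^ m) ^ 2 * (m + 1)
      = (m.choose k : ℝ) ^ 2 * (m + 1) * (1 / 4) ^ m := by
        rw [mul_pow, ← pow_mul, mul_comm m 2, pow_mul]; norm_num; ring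
    _ ≤ 4 ^ m * (1 / 4) ^ m := mul_le_mul_of_nonneg_right h (by positivity)
    _ = 1 := by rw [← mul_pow]; norm_num

/-- The mean of `1/(m+1)`. -/
theorem sum_binW_inv_le {r : ℝ} (h0 : 0 < r) (h1 : r ≤ 1) (n : ℕ) :
    ∑ m ∈ range (n + 1), binW r n m * (1 / ((m : ℝ) + 1)) ≤ 1 / (r * (n + 1)) := by
  rw [le_div_iff₀ (by positivity), Finset.sum_mul]
  have e : ∀ m ∈ range (n + 1),
      binW r n m * (1 / ((m : ℝ) + 1)) * (r * (n + 1)) = binW r (n + 1) (m + 1) := by
    intro m _
    have h : ((n : ℝ) + 1) * n.choose m = (n + 1).choose (m + 1) * ((m : ℝ) + 1) := by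
      exact_mod_cast Nat.add_one_mul_choose_eq n m
    simp only [binW, Nat.succ_sub_succ_eq_sub]
    field_simp
    linear_combination r ^ (m + 1) * (1 - r) ^ (n - m) * h
  rw [Finset.sum_congr rfl e]
  have := sum_binW r (n + 1)
  rw [Finset.sum_range_succ'] at this
  linarith [binW_nonneg h0.le h1 (n + 1) 0]

/-- A binomial weight is a thinned fair one. -/
theorem binW_thin {p : ℝ} (n k : ℕ) :
    binW p n k = ∑ m ∈ range (n + 1), binW (2 * p) n m * ((m.choose k : ℝ) * (1 / 2) ^ m) := by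
  rcases lt_or_ge n k with hk | hk
  · rw [binW_of_lt hk, Finset.sum_eq_zero]
    intro m hm
    simp only [mem_range] at hm
    simp [Nat.choose_eq_zero_of_lt (show m < k by omega)]
  · have e : n + 1 = k + (n - k + 1) := by omega
    have hlow : ∑ m ∈ range k, binW (2 * p) n m * ((m.choose k : ℝ) * (1 / 2) ^ m) = 0 :=
      Finset.sum_eq_zero fun m hm => by
        simp [Nat.choose_eq_zero_of_lt (mem_range.1 hm)]
    rw [e, Finset.sum_range_add, hlow, zero_add]
    have t : ∀ j ∈ range (n - k + 1),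
        binW (2 * p) n (k + j) * (((k + j).choose k : ℝ) * (1 / 2) ^ (k + j)) =
          n.choose k * p ^ k * (p ^ j * (1 - 2 * p) ^ (n - k - j) * (n - k).choose j) := by
      intro j hj
      simp only [mem_range] at hj
      have h : (n.choose (k + j) : ℝ) * (k + j).choose k = n.choose k * (n - k).choose j := by
        have := Nat.choose_mul (n := n) (Nat.le_add_right k j)
        rw [Nat.add_sub_cancel_left] at this
        exact_mod_cast this
      have hp : (2 * p) ^ (k + j) * (1 / 2) ^ (k + j) = p ^ k * p ^ j := by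
        rw [← mul_pow, ← pow_add]; ring_nf
      rw [binW, show n - (k + j) = n - k - j by omega]
      linear_combination (1 - 2 * p) ^ (n - k - j) * ((2 * p) ^ (k + j) * (1 / 2) ^ (k + j)) * h +
        (1 - 2 * p) ^ (n - k - j) * ((n.choose k : ℝ) * (n - k).choose j) * hp
    rw [Finset.sum_congr rfl t, ← Finset.mul_sum, ← add_pow, binW]
    ring_nf

theorem binW_le_half {p : ℝ} (h0 : 0 < p) (h1 : p ≤ 1 / 2) (n k : ℕ) :
    binW p n k ≤ Real.sqrt (1 / (2 * p * (n + 1))) := by
  rw [binW_thin]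
  have hw : ∀ m, 0 ≤ binW (2 * p) n m := binW_nonneg (by linarith) (by linarith) n
  refine Real.le_sqrt_of_sq_le ?_
  refine le_trans ?_ (sum_binW_inv_le (r := 2 * p) (by linarith) (by linarith) n)
  have hle : ∑ m ∈ range (n + 1), binW (2 * p) n m * ((m.choose k : ℝ) * (1 / 2) ^ m) ≤
      ∑ m ∈ range (n + 1), binW (2 * p) n m * Real.sqrt (1 / (m + 1)) :=
    Finset.sum_le_sum fun m _ => mul_le_mul_of_nonneg_left (fair_le m k) (hw m)
  refine (pow_le_pow_left₀ (Finset.sum_nonneg fun m _ => mul_nonneg (hw m) (by positivity)) hle 2).trans ?_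
  refine (Finset.sum_sq_le_sum_mul_sum_of_sq_le_mul (r := fun m => binW (2 * p) n m * Real.sqrt (1 / (m + 1)))
    (f := binW (2 * p) n) (g := fun m => binW (2 * p) n m * (1 / ((m : ℝ) + 1))) (range (n + 1))
    (fun m _ => hw m) (fun m _ => mul_nonneg (hw m) (by positivity)) (fun m _ => ?_)).trans ?_
  · rw [mul_pow, Real.sq_sqrt (by positivity)]; exact le_of_eq (by ring)
  · rw [sum_binW, one_mul]

/-- Binomial weights are at most `1 / √(2 min(p, 1-p) (n+1))`. -/
theorem binW_le {p : ℝ} (h0 : 0 < p) (h1 : p < 1) (n k : ℕ) :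
    binW p n k ≤ Real.sqrt (1 / (2 * min p (1 - p) * (n + 1))) := by
  rcases le_total p (1 / 2) with h | h
  · rw [min_eq_left (by linarith)]
    exact binW_le_half h0 h n k
  · rw [min_eq_right (by linarith)]
    rcases lt_or_ge n k with hk | hk
    · rw [binW_of_lt hk]; positivity
    · rw [← binW_symm p hk]
      exact binW_le_half (by linarith) (by linarith) n _

/-- The same bound in the number of successes, uniformly in the number of trials. -/
theorem binW_le_successes {p : ℝ} (h0 : 0 < p) (h1 : p < 1) (n k : ℕ) :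
    binW p n k ≤ Real.sqrt (1 / (2 * min p (1 - p) * (k + 1))) := by
  rcases lt_or_ge n k with hk | hk
  · rw [binW_of_lt hk]; positivity
  · have hm : 0 < min p (1 - p) := lt_min h0 (by linarith)
    refine (binW_le h0 h1 n k).trans (Real.sqrt_le_sqrt ?_)
    gcongr

/-- The collision weight: squares sum to at most the largest weight. -/
theorem sum_binW_sq_le {p : ℝ} (h0 : 0 < p) (h1 : p < 1) (n : ℕ) :
    ∑ k ∈ range (n + 1), binW p n k ^ 2 ≤ Real.sqrt (1 / (2 * min p (1 - p) * (n + 1))) := by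
  calc ∑ k ∈ range (n + 1), binW p n k ^ 2
      ≤ ∑ k ∈ range (n + 1), Real.sqrt (1 / (2 * min p (1 - p) * (n + 1))) * binW p n k :=
        Finset.sum_le_sum fun k _ => by
          rw [sq]; exact mul_le_mul_of_nonneg_right (binW_le h0 h1 n k) (binW_nonneg h0.le h1.le n k)
    _ = _ := by rw [← Finset.mul_sum, sum_binW, mul_one]

end Vale.Agent.P321
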