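import Vale.Agent.P321.Super.Inv

/-!
# P321: words of blocks against words of blocks

A word may be compared with another one at the cost of a constant for each perturbed block, and a
power of the ground block is close to a power of the slot.
-/

namespace Vale.Agent.P321.Super

open Finset

namespace Lev

variable {v : Lev} {a : ℕ} {ν δ c κ η : ℝ}

/-- A block against a block. -/
theorem Inv.ap_letter (h : v.Inv a ν δ c κ η) (x y : Bool) :
    Ap (if x then v.U else v.Z) (if y then v.U else v.Z)
      (if x = y then 1 else 1 + ν * (1 + δ)) (if x = y then 0 else 3 * η) := by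
  have hd : ∀ ρ ∈ [v.e, v.o], Ap (v.s ^ v.A * ρ * v.s ^ v.A) (v.U - v.Z) (ν * (1 + δ)) (3 * η) :=
    fun ρ hρ => h.ap_D hρ
  cases x <;> cases y <;> simp only [Bool.false_eq_true, Bool.true_eq_false, if_true, if_false]
  · exact Ap.self h.probZ
  · refine (((Ap.self h.probZ).add h.probZ (hd v.e (by simp))).congr ?_).mono le_rfl (by simp)
    abel
  · refine (((Ap.self h.probU).sub h.probU (hd v.o (by simp))).congr ?_).mono le_rfl (by simp)
    abel
  · exact Ap.self h.probU

/-- Words against words: each perturbed block costs a constant. -/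
theorem Inv.ap_wd (h : v.Inv a ν δ c κ η) (hν : ν * (1 + δ) ≤ 1) :
    ∀ {b b' : List Bool}, b.length = b'.length →
      Ap (v.wd b) (v.wd b') (2 ^ (b.count true + b'.count true))
        (8 ^ (b.count true + b'.count true) * η)
  | [], [], _ => by simpa [wd] using (Ap.self isProb_one).mono le_rfl h.nonneg.2.2.2.2.1
  | [], _ :: _, hl => absurd hl (by simp)
  | _ :: _, [], hl => absurd hl (by simp)
  | x :: b, y :: b', hl => by
    obtain ⟨hν0, hδ, -, -, hη, hη1⟩ := h.nonneg
    have ih := Inv.ap_wd h hν (b := b) (b' := b') (by simpa using hl)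
    have hpow : ∀ n : ℕ, (2 : ℝ) ^ n ≤ 8 ^ n := fun n => pow_le_pow_left₀ (by norm_num) (by norm_num) n
    have hx : IsProb (if x then v.U else v.Z) := by cases x <;> simp [h.probU, h.probZ]
    have h1 := (h.ap_letter x y).mul hx (h.probWd b) ih
    rw [show (if x then v.U else v.Z) * v.wd b = v.wd (x :: b) by simp [wd],
      show (if y then v.U else v.Z) * v.wd b' = v.wd (y :: b') by simp [wd]] at h1
    set k := b.count true + b'.count true
    by_cases hxy : x = y
    · subst hxy
      simp only [if_true, one_mul, zero_mul, add_zero] at h1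
      cases x
      · simpa [List.count_cons, k] using h1
      · refine h1.mono ?_ ?_ <;> simp only [List.count_cons, beq_self_eq_true, if_true]
        · exact pow_le_pow_right₀ (by norm_num) (by omega)
        · exact mul_le_mul_of_nonneg_right (pow_le_pow_right₀ (by norm_num) (by omega)) hη
    · simp only [hxy, if_false] at h1
      have hk : (x :: b).count true + (y :: b').count true = k + 1 := by
        cases x <;> cases y <;> simp_all [k] <;> omega
      rw [hk, pow_succ' (2 : ℝ), pow_succ' (8 : ℝ)]
      refine h1.mono (mul_le_mul_of_nonneg_right (by linarith) (by positivity)) ?_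
      have h5 : 0 ≤ (8 : ℝ) ^ k := by positivity
      have := hpow k
      nlinarith [mul_le_mul_of_nonneg_left hν (mul_nonneg h5 hη),
        mul_le_mul_of_nonneg_left hη1 (mul_nonneg h5 hη), mul_le_mul_of_nonneg_right this hη]

/-- A power of the ground block against pure slots. -/
theorem Inv.ap_pow_pure (h : v.Inv a ν δ c κ η) (n : ℕ) :
    Ap (v.Z ^ n) (v.s ^ (n * (2 * v.A + 1)) - v.Z ^ n) (Real.sqrt ((1 + c ^ 2) ^ n - 1))
      (n * (2 * η) * (1 + Real.sqrt ((1 + c ^ 2) ^ n - 1))) := by
  have := prod_near (c := c) (η := η) (List.replicate n (v.Z, v.s ^ (2 * v.A + 1))) fun x hx => by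
    rw [List.eq_of_mem_replicate hx]
    exact ⟨h.probZ, h.probS.pow _, h.pure_sub⟩
  simpa [← pow_mul, mul_comm n] using this

theorem Inv.l1_pow_pure (h : v.Inv a ν δ c κ η) (n : ℕ) :
    l1 (v.s ^ (n * (2 * v.A + 1)) - v.Z ^ n) ≤ Real.sqrt ((1 + c ^ 2) ^ n - 1) +
      n * (2 * η) * (1 + Real.sqrt ((1 + c ^ 2) ^ n - 1)) :=
  (h.ap_pow_pure n).l1_le (h.probZ.pow n)

end Lev

end Vale.Agent.P321.Super
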