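import Vale.Agent.P321.Samples

/-!
# P321: from close pairs of words to superpolynomial sample complexity

If for every exponent there are, at suitable lengths, two different words with trace laws closer
in total variation than that power of the length, then the number of traces is above every power.
-/

namespace Vale.Agent.P321

open Finset Filter

/-- Twice the total variation distance between the trace laws of two words of length at most `n`. -/
noncomputable def tvSum (p : ℝ) (n : ℕ) (w w' : List Bool) : ℝ :=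
  ∑ t ∈ shortWords n, |prob p w t - prob p w' t|

theorem hell_le_abs {a b : ℝ} (ha : 0 ≤ a) (hb : 0 ≤ b) :
    (Real.sqrt a - Real.sqrt b) ^ 2 ≤ |a - b| := by
  have h : a - b = (Real.sqrt a - Real.sqrt b) * (Real.sqrt a + Real.sqrt b) := by
    nlinarith [Real.sq_sqrt ha, Real.sq_sqrt hb]
  rw [h, abs_mul, abs_of_nonneg (a := Real.sqrt a + Real.sqrt b) (by positivity), ← sq_abs, sq]
  refine mul_le_mul_of_nonneg_left ?_ (abs_nonneg _)
  have := Real.sqrt_nonneg a
  have := Real.sqrt_nonneg b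
  exact abs_sub_le_iff.2 ⟨by linarith, by linarith⟩

theorem hellSum_le_tvSum {p : ℝ} (h0 : 0 ≤ p) (h1 : p ≤ 1) (n : ℕ) (w w' : List Bool) :
    hellSum p n w w' ≤ tvSum p n w w' := by
  rw [hellSum, ← sum_shortWords, tvSum]
  exact Finset.sum_le_sum fun t _ =>
    hell_le_abs (prob_nonneg h0 h1 _ _) (prob_nonneg h0 h1 _ _)

/-- A common prefix does not increase the distance. -/
theorem hellSum_append {p : ℝ} (h0 : 0 ≤ p) (h1 : p ≤ 1) (r : List Bool) {n : ℕ} {w w' : List Bool}
    (hw : w.length = n) (hw' : w'.length = n) :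
    hellSum p (r.length + n) (r ++ w) (r ++ w') ≤ hellSum p n w w' := by
  induction r with
  | nil => simp
  | cons a r ih =>
    have := hellSum_cons h0 h1 a (n := r.length + n) (w := r ++ w) (w' := r ++ w')
      (by simp [hw]) (by simp [hw'])
    rw [List.length_cons, List.cons_append, List.cons_append, Nat.succ_add]
    exact this.trans ih

/-- One close pair of length at most `n` costs many traces at length `n`. -/
theorem traces_ge_tv {p : ℝ} (h0 : 0 ≤ p) (h1 : p ≤ 1) {N n : ℕ} (hN : N ≤ n) {w w' : List Bool}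
    (hw : w.length = N) (hw' : w'.length = N) (hne : w ≠ w') (m : ℕ)
    (est : (Fin m → List Bool) → (Fin n → Bool) → ℝ) (e0 : ∀ T x, 0 ≤ est T x)
    (e1 : ∀ T, ∑ x, est T x = 1)
    (hs : ∀ x : Fin n → Bool, 2 / 3 ≤ ∑ S : Fin m → Finset (Fin n),
      (∏ j, p ^ (S j).card * (1 - p) ^ (n - (S j).card)) *
        est (fun j => ((List.finRange n).filter (fun i => i ∈ S j)).map x) x) :
    1 ≤ 9 * (m : ℝ) * tvSum p N w w' := by
  have hof : ∀ v : List Bool, v.length = n → ∃ x : Fin n → Bool, List.ofFn x = v := by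
    rintro v rfl
    exact ⟨v.get, List.ofFn_get v⟩
  set r := List.replicate (n - N) false with hr
  have hl : r.length + N = n := by simp [hr]; omega
  obtain ⟨x, hx⟩ := hof (r ++ w) (by simp [hw]; omega)
  obtain ⟨y, hy⟩ := hof (r ++ w') (by simp [hw']; omega)
  have hxy : x ≠ y := fun e => hne (List.append_cancel_left (hx.symm.trans ((congrArg List.ofFn e).trans hy)))
  have h := traces_ge h0 h1 hxy m est e0 e1 hs
  rw [hx, hy] at h
  refine h.trans (mul_le_mul_of_nonneg_left ?_ (by positivity))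
  have hH := hellSum_append h0 h1 r hw hw'
  rw [hl] at hH
  exact hH.trans (hellSum_le_tvSum h0 h1 N w w')

/-- Close pairs at every exponent give a superpolynomial number of traces. -/
theorem superpolynomial {p : ℝ} (h0 : 0 ≤ p) (h1 : p ≤ 1)
    (hpair : ∀ A : ℕ, ∀ᶠ n : ℕ in atTop, ∃ N ≤ n, ∃ w w' : List Bool,
      w.length = N ∧ w'.length = N ∧ w ≠ w' ∧ tvSum p N w w' * (n : ℝ) ^ (A + 1) ≤ 1) (A : ℕ) :
    ∀ᶠ n : ℕ in atTop, ∀ (m : ℕ)
      (est : (Fin m → List Bool) → (Fin n → Bool) → ℝ),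
      (∀ T x, 0 ≤ est T x) → (∀ T, ∑ x, est T x = 1) →
      (∀ x : Fin n → Bool, 2 / 3 ≤ ∑ S : Fin m → Finset (Fin n),
        (∏ j, p ^ (S j).card * (1 - p) ^ (n - (S j).card)) *
          est (fun j => ((List.finRange n).filter (fun i => i ∈ S j)).map x) x) →
      (n : ℝ) ^ A ≤ m := by
  filter_upwards [hpair A, eventually_ge_atTop 9] with n ⟨N, hN, w, w', hw, hw', hne, htv⟩ hn
    m est e0 e1 hs
  have h := traces_ge_tv h0 h1 hN hw hw' hne m est e0 e1 hs
  have hn9 : (9 : ℝ) ≤ n := by exact_mod_cast hn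
  have hnA : 0 ≤ (n : ℝ) ^ A := by positivity
  calc (n : ℝ) ^ A = (n : ℝ) ^ A * 1 := (mul_one _).symm
    _ ≤ (n : ℝ) ^ A * (9 * m * tvSum p N w w') := mul_le_mul_of_nonneg_left h hnA
    _ ≤ (n : ℝ) ^ A * ((n : ℝ) * m * tvSum p N w w') := by
        have h0tv : 0 ≤ tvSum p N w w' := Finset.sum_nonneg fun t _ => abs_nonneg _
        gcongr
    _ = (tvSum p N w w' * (n : ℝ) ^ (A + 1)) * m := by ring
    _ ≤ 1 * m := mul_le_mul_of_nonneg_right htv (Nat.cast_nonneg _)
    _ = m := one_mul _

end Vale.Agent.P321
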