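import Vale.Agent.P321.Super.Basic
import Vale.Agent.P321.Super.Endgame

/-!
# P321: the trace law in the algebra of words

The coefficient of `tr p w` at a word is the probability that the word is the trace of `w`, so the
norm of a difference of two trace laws is twice their total variation distance.
-/

namespace Vale.Agent.P321.Super

open Finset
open MonoidAlgebra (single)

theorem coeff_single_of_mul (a : Bool) (x : ℝ) (μ : Msr) (t : List Bool) :
    (single (FreeMonoid.of a) x * μ).coeff (FreeMonoid.ofList t) =
      match t with
      | [] => 0
      | b :: r => if a = b then x * μ.coeff (FreeMonoid.ofList r) else 0 := by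
  classical
  rcases t with _ | ⟨b, r⟩
  · refine MonoidAlgebra.coeff_single_mul_of_forall_mul_ne _ _ fun d h => ?_
    simpa using congrArg FreeMonoid.toList h
  · by_cases hab : a = b
    · subst hab
      simp only [if_true]
      rw [FreeMonoid.ofList_cons]
      exact MonoidAlgebra.coeff_single_mul_mul _ _ _ _
    · simp only [hab, if_false]
      refine MonoidAlgebra.coeff_single_mul_of_forall_mul_ne _ _ fun d h => hab ?_
      simpa using congrArg (fun z => (FreeMonoid.toList z).headI) h

/-- The coefficients of a trace law are the trace probabilities. -/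
theorem coeff_tr (p : ℝ) (w t : List Bool) :
    (tr p w).coeff (FreeMonoid.ofList t) = prob p w t := by
  classical
  induction w generalizing t with
  | nil =>
    rcases t with _ | ⟨b, r⟩
    · simp [tr, prob, emb, MonoidAlgebra.one_def]
    · simp [tr, prob, emb, MonoidAlgebra.one_def]
  | cons a w ih =>
    have e : tr p (a :: w) = single 1 (1 - p) * tr p w + single (FreeMonoid.of a) p * tr p w := by
      simp [tr, letter, add_mul]
    rw [e, MonoidAlgebra.coeff_add, Finsupp.add_apply, coeff_single_of_mul,
      MonoidAlgebra.coeff_single_one_mul, ih]
    rcases t with _ | ⟨b, r⟩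
    · simp [prob, emb_nil, pow_succ]; ring
    · simp only [ih, prob_cons]

/-- The norm of a difference of trace laws is `tvSum`. -/
theorem tvSum_eq_l1 (p : ℝ) {n : ℕ} {w w' : List Bool} (hw : w.length ≤ n) (hw' : w'.length ≤ n) :
    tvSum p n w w' = l1 (tr p w - tr p w') := by
  classical
  have hsupp : ∀ v : List Bool, v.length ≤ n →
      (tr p v).coeff.support ⊆ (shortWords n).map FreeMonoid.ofList.toEmbedding := by
    intro v hv t ht
    rw [mem_map_equiv, mem_shortWords]
    by_contra hlt
    have h := coeff_tr p v (FreeMonoid.toList t)
    rw [FreeMonoid.ofList_toList, prob, emb_eq_zero_of_lt (by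
      have : ¬ (FreeMonoid.toList t).length ≤ n := hlt
      omega)] at h
    exact Finsupp.mem_support_iff.1 ht (h.trans (by simp))
  rw [l1_eq_sum (s := (shortWords n).map FreeMonoid.ofList.toEmbedding), sum_map, tvSum]
  · exact Finset.sum_congr rfl fun t _ => by simp [coeff_tr]
  · rw [MonoidAlgebra.coeff_sub]
    exact Finsupp.support_sub.trans (union_subset (hsupp w hw) (hsupp w' hw'))

end Vale.Agent.P321.Super
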