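import Vale.Agent.P321.Super.Near

/-!
# P321: a localised difference moved to different slots

If the same mean-zero content sits in different pure slots, the translates are orthogonal, so an
average over many positions has the norm of a single one times the root of the sum of the squared
weights.
-/

namespace Vale.Agent.P321.Super

open Finset

theorem prod_range_map_single {M : Type*} [Monoid M] (s G : M) (A k : ℕ) :
    ((List.range A).map fun i => if i + 1 = k then G else s).prod =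
      if 1 ≤ k ∧ k ≤ A then s ^ (k - 1) * G * s ^ (A - k) else s ^ A := by
  induction A with
  | zero => simp; omega
  | succ A ih =>
    rw [List.range_succ, List.map_append, List.prod_append, ih]
    simp only [List.map_cons, List.map_nil, List.prod_singleton]
    rcases lt_trichotomy (A + 1) k with h | h | h
    · rw [if_neg (by omega), if_neg (by omega), if_neg (by omega), pow_succ]
    · subst h
      simp
    · rcases Nat.eq_zero_or_pos k with rfl | hk
      · simp [pow_succ]
      · rw [if_pos (by omega), if_neg (by omega), if_pos (by omega), mul_assoc _ (s ^ (A - k)),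
          ← pow_succ, show A + 1 - k = A - k + 1 by omega]

/-- The orthogonality of translates. -/
theorem ap_orth {s σ ρ RX RY : Msr} (hs : IsProb s) (hρ : IsProb ρ) (hRX : IsProb RX)
    (hRY : IsProb RY) {A : ℕ} {K : Finset ℕ} (hK : ∀ k ∈ K, 1 ≤ k ∧ k ≤ A) {w : ℕ → ℝ}
    (hw0 : ∀ k ∈ K, 0 ≤ w k) (hw1 : ∑ k ∈ K, w k ≤ 1) {W2 : ℝ} (hw2 : ∑ k ∈ K, w k ^ 2 ≤ W2)
    {X Y : ℕ → Msr} {g : Msr} (hg0 : mass g = 0) {ax ay κ ν εx εy η : ℝ}
    (hX : ∀ k ∈ K, Ap RX (X k) ax εx) (hY : ∀ k ∈ K, Ap RY (Y k) ay εy)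
    (hsρ : Ap ρ σ κ η) (hg : Ap s g ν η) (hax : 0 ≤ ax) (hay : 0 ≤ ay) (hεx : 0 ≤ εx)
    (hεy : 0 ≤ εy) :
    Ap (RX * (s ^ A * ρ * s ^ A) * RY)
      (∑ k ∈ K, w k • (X k * (s ^ A * σ * (s ^ (k - 1) * g * s ^ (A - k))) * Y k))
      (ax * ay * κ * ν * Real.sqrt W2)
      ((ax + εx) * (κ + η) * (ν + 2 * η) * (ay + εy) - ax * κ * ν * ay) := by
  classical
  obtain ⟨hκ, hη⟩ := hsρ.nonneg
  obtain ⟨hν, -⟩ := hg.nonneg
  obtain ⟨fg, hg1, hg2, hg3⟩ := hg.center hs hg0
  obtain ⟨fρ, hρ1, hρ2⟩ := hsρ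
  have hfx : ∀ k, ∃ f : W → ℝ, Real.sqrt (ip RX f f) ≤ ax ∧
      (k ∈ K → l1 (X k - dens RX f) ≤ εx) := fun k => by
    by_cases h : k ∈ K
    · obtain ⟨f, h1, h2⟩ := hX k h; exact ⟨f, h1, fun _ => h2⟩
    · exact ⟨0, by simpa [ip] using hax, fun h' => absurd h' h⟩
  have hfy : ∀ k, ∃ f : W → ℝ, Real.sqrt (ip RY f f) ≤ ay ∧
      (k ∈ K → l1 (Y k - dens RY f) ≤ εy) := fun k => by
    by_cases h : k ∈ K
    · obtain ⟨f, h1, h2⟩ := hY k h; exact ⟨f, h1, fun _ => h2⟩
    · exact ⟨0, by simpa [ip] using hay, fun h' => absurd h' h⟩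
  choose fx hx1 hx2 using hfx
  choose fy hy1 hy2 using hfy
  let slot : ℕ → Msr × (ℕ → W → ℝ) := fun i => (s, fun k => if i + 1 = k then fg else fun _ => 1)
  let L : List (Msr × (ℕ → W → ℝ)) := (RX, fx) :: (List.replicate A (s, fun _ _ => 1) ++
    ((ρ, fun _ => fρ) :: ((List.range A).map slot ++ [(RY, fy)])))
  have hL : ∀ x ∈ L, IsProb x.1 := by
    intro x hx
    simp only [L, List.mem_cons, List.mem_append, List.mem_replicate, List.mem_map,
      List.not_mem_nil, or_false] at hx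
    rcases hx with rfl | ⟨-, rfl⟩ | rfl | ⟨i, -, rfl⟩ | rfl <;> assumption
  have hRef : refProd L = RX * (s ^ A * ρ * s ^ A) * RY := by
    simp [L, refProd, slot, Function.comp_def, mul_assoc]
  have hFam : ∀ k ∈ K, famProd L k =
      dens RX (fx k) * (s ^ A * dens ρ fρ * (s ^ (k - 1) * dens s fg * s ^ (A - k))) *
        dens RY (fy k) := fun k hk => by
    have := prod_range_map_single s (dens s fg) A k
    rw [if_pos (hK k hk)] at this
    rw [← this]
    simp only [L, famProd, slot, List.map_cons, List.map_append, List.map_replicate, List.map_map,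
      List.prod_cons, List.prod_append, List.prod_replicate, List.map_nil, List.prod_nil, mul_one,
      dens_one, Function.comp_def, mul_assoc]
    congr 5
    refine List.map_congr_left fun i _ => ?_
    split_ifs <;> simp [dens_one]
  have hzero : ∀ k ∈ K, ∀ k' ∈ K, k ≠ k' → ipProd L k k' = 0 := fun k hk k' hk' hne => by
    refine List.prod_eq_zero (List.mem_map.2 ⟨slot (k - 1), ?_, ?_⟩)
    · simp only [L, List.mem_cons, List.mem_append, List.mem_map, List.mem_range]
      exact Or.inr (Or.inr (Or.inr (Or.inl ⟨k - 1, by have := hK k hk; omega, rfl⟩)))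
    · have := hK k hk
      simp [slot, show k - 1 + 1 = k by omega, hne, hg1]
  have hdiag : ∀ k ∈ K, ipProd L k k ≤ (ax * ay * κ * ν) ^ 2 := fun k hk => by
    have sqle : ∀ {R : Msr}, IsProb R → ∀ {f : W → ℝ} {b : ℝ}, Real.sqrt (ip R f f) ≤ b →
        ip R f f ≤ b ^ 2 := fun hR f b h => by
      have := pow_le_pow_left₀ (Real.sqrt_nonneg _) h 2
      rwa [Real.sq_sqrt (ip_self_nonneg hR f)] at this
    have hk' := hK k hk
    have e : ipProd L k k =
        ip RX (fx k) (fx k) * (ip ρ fρ fρ * (ip s fg fg * ip RY (fy k) (fy k))) := by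
      have h2 := prod_range_map_single (M := ℝ) 1 (ip s fg fg) A k
      rw [if_pos (hK k hk), one_pow, one_pow, one_mul, mul_one] at h2
      rw [← h2]
      simp only [L, ipProd, slot, List.map_cons, List.map_append, List.map_replicate, List.map_map,
        List.prod_cons, List.prod_append, List.prod_replicate, List.map_nil, List.prod_nil,
        ip_one hs, one_pow, one_mul, mul_one, Function.comp_def]
      congr 3
      refine congrArg List.prod (List.map_congr_left fun i _ => ?_)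
      split_ifs <;> simp [ip_one hs]
    rw [e, show (ax * ay * κ * ν) ^ 2 = ax ^ 2 * (κ ^ 2 * (ν ^ 2 * ay ^ 2)) by ring]
    exact mul_le_mul (sqle hRX (hx1 k)) (mul_le_mul (sqle hρ hρ1) (mul_le_mul (sqle hs hg2)
      (sqle hRY (hy1 k)) (ip_self_nonneg hRY _) (by positivity))
      (mul_nonneg (ip_self_nonneg hs _) (ip_self_nonneg hRY _)) (by positivity))
      (mul_nonneg (ip_self_nonneg hρ _) (mul_nonneg (ip_self_nonneg hs _)
        (ip_self_nonneg hRY _))) (by positivity)
  obtain ⟨f, ef, hf⟩ := exists_dens_orth L hL K w hzero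
  rw [hRef] at ef hf
  refine ⟨f, ?_, ?_⟩
  · have hb : 0 ≤ ax * ay * κ * ν := by positivity
    refine (Real.sqrt_le_sqrt (hf.trans ((Finset.sum_le_sum fun k hk =>
      mul_le_mul_of_nonneg_left (hdiag k hk) (sq_nonneg (w k))).trans_eq
        (Finset.sum_mul _ _ _).symm))).trans ?_
    rw [Real.sqrt_mul (Finset.sum_nonneg fun k _ => sq_nonneg _), Real.sqrt_sq hb, mul_comm]
    exact mul_le_mul_of_nonneg_left (Real.sqrt_le_sqrt hw2) hb
  · rw [← ef, ← Finset.sum_sub_distrib]
    refine (l1_sum_le _ _).trans (le_trans (Finset.sum_le_sum fun k hk => ?_)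
      (show ∑ k ∈ K, w k * ((ax + εx) * (κ + η) * (ν + 2 * η) * (ay + εy) - ax * κ * ν * ay) ≤ _ by
        rw [← Finset.sum_mul]
        refine mul_le_of_le_one_left ?_ hw1
        rw [sub_nonneg]
        exact mul_le_mul (mul_le_mul (mul_le_mul (by linarith) (by linarith) hκ (by linarith))
          (by linarith) hν (by positivity)) (by linarith) hay (by positivity)))
    rw [← smul_sub, l1_smul, abs_of_nonneg (hw0 k hk), hFam k hk]
    refine mul_le_mul_of_nonneg_left ?_ (hw0 k hk)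
    have h1 : Ap RX (X k) ax εx := ⟨fx k, hx1 k, hx2 k hk⟩
    have key : ∀ {P Q μ' ν' : Msr} {b c δ₁ δ₂ : ℝ}, l1 P ≤ b → l1 Q ≤ c → l1 (μ' - P) ≤ δ₁ →
        l1 (ν' - Q) ≤ δ₂ → l1 (μ' * ν' - P * Q) ≤ (b + δ₁) * (c + δ₂) - b * c := by
      intro P Q μ' ν' b c δ₁ δ₂ hb hc h1 h2
      rw [show μ' * ν' - P * Q = (μ' - P) * Q + P * (ν' - Q) + (μ' - P) * (ν' - Q) by noncomm_ring]
      refine (l1_add_le _ _).trans ((add_le_add ((l1_add_le _ _).trans (add_le_add ?_ ?_)) ?_).trans_eq
        (by ring : δ₁ * c + b * δ₂ + δ₁ * δ₂ = (b + δ₁) * (c + δ₂) - b * c)) <;>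
        refine (l1_mul_le _ _).trans ?_
      · exact mul_le_mul h1 hc (l1_nonneg _) ((l1_nonneg _).trans h1)
      · exact mul_le_mul hb h2 (l1_nonneg _) ((l1_nonneg _).trans hb)
      · exact mul_le_mul h1 h2 (l1_nonneg _) ((l1_nonneg _).trans h1)
    set G := s ^ (k - 1) * g * s ^ (A - k) with hG
    set G' := s ^ (k - 1) * dens s fg * s ^ (A - k) with hG'
    have bG : l1 G' ≤ ν := (l1_mul_prob_right (hs.pow _) _).trans
      ((l1_mul_prob_left (hs.pow _) _).trans ((l1_dens_le hs fg).trans hg2))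
    have dG : l1 (G - G') ≤ 2 * η := by
      rw [hG, hG', ← sub_mul, ← mul_sub]
      exact (l1_mul_prob_right (hs.pow _) _).trans ((l1_mul_prob_left (hs.pow _) _).trans hg3)
    have bR : l1 (s ^ A * dens ρ fρ) ≤ κ :=
      (l1_mul_prob_left (hs.pow _) _).trans ((l1_dens_le hρ fρ).trans hρ1)
    have dR : l1 (s ^ A * σ - s ^ A * dens ρ fρ) ≤ η := by
      rw [← mul_sub]; exact (l1_mul_prob_left (hs.pow _) _).trans hρ2
    have bM := (l1_mul_le (s ^ A * dens ρ fρ) G').trans (mul_le_mul bR bG (l1_nonneg _) hκ)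
    have dM := key bR bG dR dG
    rw [show s ^ A * dens ρ fρ * G' = s ^ A * dens ρ fρ * (s ^ (k - 1) * dens s fg * s ^ (A - k))
      from rfl] at bM dM
    have bX := (l1_dens_le hRX (fx k)).trans (hx1 k)
    have bXM := (l1_mul_le (dens RX (fx k))
      (s ^ A * dens ρ fρ * (s ^ (k - 1) * dens s fg * s ^ (A - k)))).trans
        (mul_le_mul bX bM (l1_nonneg _) hax)
    have dXM := key bX bM (hx2 k hk) dM
    exact (key bXM ((l1_dens_le hRY (fy k)).trans (hy1 k)) dXM
      (hy2 k hk)).trans_eq (by ring)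

theorem shift_eq {M : Type*} [Monoid M] (s g : M) {A k : ℕ} (hk : 1 ≤ k) :
    s ^ (A + k) * g * s ^ (A - k) = s ^ A * s * (s ^ (k - 1) * g * s ^ (A - k)) := by
  rw [← pow_succ, ← mul_assoc, ← mul_assoc, ← pow_add]
  congr 3
  omega

/-- Translates of a content `2 w + 1` slots wide lose the root of its width. -/
theorem ap_orth_win {s ρ RX RY : Msr} (hs : IsProb s) (hρ : IsProb ρ) (hRX : IsProb RX)
    (hRY : IsProb RY) {A w : ℕ} {K : Finset ℕ} (hK : ∀ k ∈ K, w < k ∧ k + w ≤ A) {wt : ℕ → ℝ}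
    (hw0 : ∀ k ∈ K, 0 ≤ wt k) (hw1 : ∑ k ∈ K, wt k ≤ 1) {W2 : ℝ}
    (hw2 : ∑ k ∈ K, wt k ^ 2 ≤ W2) {X Y : ℕ → Msr} {g : Msr} (hg0 : mass g = 0)
    {ax ay κ ν εx εy η : ℝ} (hX : ∀ k ∈ K, Ap RX (X k) ax εx) (hY : ∀ k ∈ K, Ap RY (Y k) ay εy)
    (hsρ : Ap ρ s κ η) (hg : Ap (s ^ (2 * w + 1)) g ν η) (hax : 0 ≤ ax) (hay : 0 ≤ ay)
    (hεx : 0 ≤ εx) (hεy : 0 ≤ εy) :
    Ap (RX * (s ^ A * ρ * s ^ A) * RY)
      (∑ k ∈ K, wt k • (X k * (s ^ (A - w + k) * g * s ^ (A - w - k)) * Y k))
      (ax * ay * κ * ν * (Real.sqrt (2 * w + 1) * Real.sqrt W2))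
      ((2 * w + 1) *
        ((ax + εx) * (κ + η) * (ν + 2 * η) * (ay + εy) - ax * κ * ν * ay)) := by
  classical
  set d := 2 * w + 1 with hd
  set E := (ax + εx) * (κ + η) * (ν + 2 * η) * (ay + εy) - ax * κ * ν * ay with hE
  obtain ⟨hκ, hη⟩ := hsρ.nonneg
  obtain ⟨hν, -⟩ := hg.nonneg
  have hP : IsProb (RX * (s ^ A * ρ * s ^ A) * RY) :=
    (hRX.mul (((hs.pow _).mul hρ).mul (hs.pow _))).mul hRY
  have hclass : ∀ o ∈ range d, Ap (RX * (s ^ A * ρ * s ^ A) * RY)
      (∑ k ∈ K.filter (fun k => (k - w - 1) % d = o),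
        wt k • (X k * (s ^ (A - w + k) * g * s ^ (A - w - k)) * Y k))
      (ax * ay * κ * ν * Real.sqrt (∑ k ∈ K.filter (fun k => (k - w - 1) % d = o), wt k ^ 2))
      E := by
    intro o ho
    rw [mem_range] at ho
    set Ko := K.filter (fun k => (k - w - 1) % d = o) with hKo
    have hEnn : 0 ≤ E := by
      rw [hE, sub_nonneg]
      exact mul_le_mul (mul_le_mul (mul_le_mul (by linarith) (by linarith) hκ (by linarith))
        (by linarith) hν (by positivity)) (by linarith) hay (by positivity)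
    by_cases hAo : A < o
    · rw [show Ko = ∅ from Finset.filter_eq_empty_iff.2 fun k hk e => by
        have := hK k hk
        have := Nat.mod_le (k - w - 1) d
        omega]
      simpa using (Ap.zero _).mono le_rfl hEnn
    set m := (A - o) / d with hm
    set rem := (A - o) % d with hrem
    have hAm : o + d * m + rem = A := by
      have := Nat.div_add_mod (A - o) d
      rw [← hm, ← hrem] at this
      omega
    have hRX' : IsProb (RX * s ^ (A - d * m)) := hRX.mul (hs.pow _)
    have hRY' : IsProb (s ^ rem * RY) := (hs.pow _).mul hRY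
    have hkey : ∀ k ∈ Ko, ∃ i, k = w + 1 + o + d * i ∧ i + 1 ≤ m := fun k hk => by
      obtain ⟨hk1, hk2⟩ := mem_filter.1 hk
      have := hK k hk1
      refine ⟨(k - w - 1) / d, ?_, ?_⟩
      · have := Nat.div_add_mod (k - w - 1) d
        omega
      · rw [hm, Nat.le_div_iff_mul_le (by omega)]
        have := Nat.div_add_mod (k - w - 1) d
        rw [add_mul, one_mul, mul_comm _ d]
        omega
    let ix : ℕ → ℕ := fun k => (k - w - 1) / d + 1
    have hix : ∀ k ∈ Ko, k = w + 1 + o + d * (ix k - 1) ∧ 1 ≤ ix k ∧ ix k ≤ m := fun k hk => by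
      obtain ⟨i, rfl, hi⟩ := hkey k hk
      have : (w + 1 + o + d * i - w - 1) / d = i := by
        rw [show w + 1 + o + d * i - w - 1 = o + d * i by omega, Nat.add_mul_div_left _ _ (by omega),
          Nat.div_eq_of_lt ho, zero_add]
      simp only [ix, this, Nat.add_sub_cancel, true_and]
      exact ⟨Nat.le_add_left 1 i, hi⟩
    have hinj : Set.InjOn ix Ko := fun k hk k' hk' e => by
      have h1 := (hix k hk).1
      rw [e] at h1
      exact h1.trans (hix k' hk').1.symm
    let inv : ℕ → ℕ := fun i => w + 1 + o + d * (i - 1)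
    have hinv : ∀ k ∈ Ko, inv (ix k) = k := fun k hk => (hix k hk).1.symm
    have h := ap_orth (s := s ^ d) (σ := s ^ (1 + o)) (ρ := ρ * s ^ o) (RX := RX * s ^ (A - d * m))
      (RY := s ^ rem * RY) (hs.pow d) (hρ.mul (hs.pow o)) hRX' hRY' (A := m) (K := Ko.image ix)
      (fun i hi => by
        obtain ⟨k, hk, rfl⟩ := mem_image.1 hi
        exact (hix k hk).2)
      (w := fun i => wt (inv i)) (fun i hi => by
        obtain ⟨k, hk, rfl⟩ := mem_image.1 hi
        rw [hinv k hk]
        exact hw0 k (mem_filter.1 hk).1)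
      (by
        rw [Finset.sum_image hinj, Finset.sum_congr rfl fun k hk => by rw [hinv k hk]]
        exact (Finset.sum_le_sum_of_subset_of_nonneg (filter_subset _ _)
          fun k hk _ => hw0 k hk).trans hw1)
      (W2 := ∑ k ∈ Ko, wt k ^ 2) (by
        rw [Finset.sum_image hinj, Finset.sum_congr rfl fun k hk => by rw [hinv k hk]])
      (X := fun i => X (inv i) * s ^ (A - d * m)) (Y := fun i => s ^ rem * Y (inv i)) hg0
      (ax := ax) (ay := ay) (εx := εx) (εy := εy) (κ := κ) (ν := ν) (η := η)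
      (fun i hi => by
        obtain ⟨k, hk, rfl⟩ := mem_image.1 hi
        rw [hinv k hk]
        simpa using (hX k (mem_filter.1 hk).1).mul hRX (hs.pow _) (Ap.self (hs.pow (A - d * m))))
      (fun i hi => by
        obtain ⟨k, hk, rfl⟩ := mem_image.1 hi
        rw [hinv k hk]
        simpa using (Ap.self (hs.pow rem)).mul (hs.pow _) hRY (hY k (mem_filter.1 hk).1))
      (by
        rw [add_comm 1 o, pow_succ']
        simpa using hsρ.mul hρ (hs.pow o) (Ap.self (hs.pow o)))
      hg hax hay hεx hεy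
    have e1 : RX * s ^ (A - d * m) * ((s ^ d) ^ m * (ρ * s ^ o) * (s ^ d) ^ m) * (s ^ rem * RY) =
        RX * (s ^ A * ρ * s ^ A) * RY := by
      have : s ^ A = s ^ o * ((s ^ d) ^ m * s ^ rem) := by
        rw [← pow_mul, ← pow_add, ← pow_add]; congr 1; omega
      conv_rhs => rw [show s ^ A * ρ * s ^ A = s ^ A * ρ * (s ^ o * ((s ^ d) ^ m * s ^ rem)) by
        rw [← this], show A = A - d * m + d * m by omega, pow_add, pow_mul]
      simp only [mul_assoc]
    rw [e1, Finset.sum_image hinj] at h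
    refine h.congr (Finset.sum_congr rfl fun k hk => ?_)
    rw [hinv k hk]
    obtain ⟨hk1, hk2, hk3⟩ := hix k hk
    congr 1
    have hdi : d * (ix k - 1) + d ≤ d * m := by
      calc d * (ix k - 1) + d = d * (ix k - 1 + 1) := by ring
        _ ≤ d * m := Nat.mul_le_mul_left d (by omega)
    have hsub : d * (m - ix k) = d * m - (d * (ix k - 1) + d) := by
      rw [show m - ix k = m - (ix k - 1 + 1) by omega, Nat.mul_sub, mul_add, mul_one]
    simp only [← pow_mul, mul_assoc]
    congr 1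
    simp only [← mul_assoc, ← pow_add]
    congr 2
    · congr 2
      omega
    · congr 1
      omega
  have hsum := Ap.sum hP (range d) _ _ (fun _ => E) hclass
  rw [Finset.sum_fiberwise_of_maps_to (fun k _ => mem_range.2 (Nat.mod_lt _ (by omega)))] at hsum
  refine hsum.mono ?_ (by simp [hd])
  rw [← Finset.mul_sum]
  refine mul_le_mul_of_nonneg_left ?_ (by positivity)
  have hcs := Real.sum_sqrt_mul_sqrt_le (range d) (f := fun _ => (1 : ℝ))
    (g := fun o => ∑ k ∈ K.filter (fun k => (k - w - 1) % d = o), wt k ^ 2)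
    (fun _ => zero_le_one) (fun o => Finset.sum_nonneg fun k _ => sq_nonneg _)
  simp only [Real.sqrt_one, one_mul] at hcs
  refine hcs.trans (mul_le_mul (le_of_eq (by simp [hd])) (Real.sqrt_le_sqrt ?_) (Real.sqrt_nonneg _)
    (Real.sqrt_nonneg _))
  rw [Finset.sum_fiberwise_of_maps_to (fun k _ => mem_range.2 (Nat.mod_lt _ (by omega)))]
  exact hw2

end Vale.Agent.P321.Super
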