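import Vale.Agent.P321.Super.Blocks
import Vale.Agent.P321.Super.Orth

/-!
# P321: the centre of the next level

The next centre differs from pure slots by terms with two block differences, which are crudely
quadratic, and by single block differences inside a long word. A single difference is moved over
many slots between two runs of pure slots, and the translates are orthogonal.

Factors of bounded norm are recorded as `Crude`: the norm plus the coefficient of the negligible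
unit `E` is at most `T`; this multiplies along products.
-/

namespace Vale.Agent.P321.Super

open Finset

/-- A factor of bounded norm, with an error proportional to `E`. -/
def Crude (E T : ℝ) (R μ : Msr) : Prop :=
  ∃ x B : ℝ, 0 ≤ x ∧ 0 ≤ B ∧ x + B ≤ T ∧ Ap R μ x (B * E)

variable {R S μ ν' : Msr} {E x y B D T T' : ℝ}

theorem Crude.mk' (hB : 0 ≤ B) (hT : x + B ≤ T) (h : Ap R μ x (B * E)) : Crude E T R μ :=
  ⟨x, B, h.nonneg.1, hB, hT, h⟩

theorem Crude.nonneg (h : Crude E T R μ) : 0 ≤ T := by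
  obtain ⟨a, b, ha, hb, hab, -⟩ := h
  linarith

theorem Crude.mono (h : Crude E T R μ) (hT : T ≤ T') : Crude E T' R μ := by
  obtain ⟨a, b, ha, hb, hab, hA⟩ := h
  exact ⟨a, b, ha, hb, hab.trans hT, hA⟩

theorem Crude.congr (h : Crude E T R μ) (e : μ = ν') : Crude E T R ν' := e ▸ h

theorem Crude.ap (h : Crude E T R μ) (hE : 0 ≤ E) : Ap R μ T (T * E) := by
  obtain ⟨a, b, ha, hb, hab, hA⟩ := h
  exact hA.mono (by linarith) (mul_le_mul_of_nonneg_right (by linarith) hE)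

theorem Crude.l1_le (h : Crude E T R μ) (hR : IsProb R) (hE1 : E ≤ 1) : l1 μ ≤ T := by
  obtain ⟨a, b, ha, hb, hab, hA⟩ := h
  linarith [hA.l1_le hR, mul_le_of_le_one_right hb hE1]

/-- The product of two factors with errors proportional to `E`. -/
theorem Ap.mulE (hR : IsProb R) (hS : IsProb S) (hE : 0 ≤ E) (hE1 : E ≤ 1) (hB : 0 ≤ B)
    (hD : 0 ≤ D) (h : Ap R μ x (B * E)) (h' : Ap S ν' y (D * E)) :
    Ap (R * S) (μ * ν') (x * y) (((x + B) * (y + D) - x * y) * E) := by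
  refine (h.mul hR hS h').mono le_rfl ?_
  have hEE : E * E ≤ E := mul_le_of_le_one_left hE hE1
  nlinarith [mul_le_mul_of_nonneg_left hEE (mul_nonneg hB hD)]

theorem Crude.mul (hR : IsProb R) (hS : IsProb S) (hE : 0 ≤ E) (hE1 : E ≤ 1) (h : Crude E T R μ)
    (h' : Crude E T' S ν') : Crude E (T * T') (R * S) (μ * ν') := by
  obtain ⟨a, b, ha, hb, hab, hA⟩ := h
  obtain ⟨a', b', ha', hb', hab', hA'⟩ := h'
  refine ⟨a * a', (a + b) * (a' + b') - a * a', mul_nonneg ha ha', ?_, ?_,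
    hA.mulE hR hS hE hE1 hb hb' hA'⟩
  · nlinarith
  · rw [add_sub_cancel]
    exact mul_le_mul hab hab' (by linarith) (by linarith)

theorem Crude.pow (hR : IsProb R) (hE : 0 ≤ E) (hE1 : E ≤ 1) (h : Crude E T R μ) :
    ∀ j : ℕ, Crude E (T ^ j) (R ^ j) (μ ^ j)
  | 0 => ⟨1, 0, zero_le_one, le_rfl, by simp, by simpa using Ap.self isProb_one⟩
  | j + 1 => by
    rw [pow_succ, pow_succ, pow_succ]
    exact (h.pow hR hE hE1 j).mul (hR.pow j) hR hE hE1 h

theorem Ap.powE (hR : IsProb R) (hE : 0 ≤ E) (hE1 : E ≤ 1) (hB : 0 ≤ B) (h : Ap R μ x (B * E)) :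
    ∀ j : ℕ, Ap (R ^ j) (μ ^ j) (x ^ j) (((x + B) ^ j - x ^ j) * E)
  | 0 => by simpa using Ap.self isProb_one
  | j + 1 => by
    have hx := h.nonneg.1
    have ih := h.powE hR hE hE1 hB j
    have := ih.mulE (hR.pow j) hR hE hE1
      (sub_nonneg.2 (pow_le_pow_left₀ hx (by linarith) j)) hB h
    rw [add_sub_cancel] at this
    simpa only [← pow_succ] using this

/-- A small factor between two bounded ones. -/
theorem Ap.wrap {P Q P' Q' : Msr} (hP : IsProb P) (hR : IsProb R) (hQ : IsProb Q) (hE : 0 ≤ E)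
    (hE1 : E ≤ 1) (hD : 0 ≤ D) (h1 : Crude E T P P') (h : Ap R μ y (D * E))
    (h2 : Crude E T' Q Q') :
    Ap (P * R * Q) (P' * μ * Q') (T * T' * y) (T * T' * (y + D) * E) := by
  obtain ⟨a, b, ha, hb, hab, hA⟩ := h1
  obtain ⟨a', b', ha', hb', hab', hA'⟩ := h2
  have hy := h.nonneg.1
  have hm := hA.mulE hP hR hE hE1 hb hD h
  have hnn : 0 ≤ (a + b) * (y + D) - a * y := by nlinarith
  refine ((hm.mulE (hP.mul hR) hQ hE hE1 hnn hb' hA').mono ?_ (mul_le_mul_of_nonneg_right ?_ hE))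
  · nlinarith [mul_le_mul (show a ≤ T by linarith) (show a' ≤ T' by linarith) ha' (by linarith)]
  · have h1 := mul_le_mul hab hab' (add_nonneg ha' hb') (by linarith)
    have h2 := mul_le_mul_of_nonneg_right h1 (add_nonneg hy hD)
    have : 0 ≤ a * y * a' := by positivity
    nlinarith

namespace Lev

variable {v : Lev} {a : ℕ} {ν δ c κ η : ℝ}

theorem exists_false_run : ∀ (R m : ℕ) (P : List Bool), P.count true ≤ R → (R + 1) * m ≤ P.length →
    ∃ P₁ P₂, P = P₁ ++ (List.replicate m false ++ P₂)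
  | R, m, P, hc, hl => by
    have hm : m ≤ P.length := (Nat.le_mul_of_pos_left m (Nat.succ_pos R)).trans hl
    by_cases h : true ∈ P.take m
    · have h1 : 1 ≤ (P.take m).count true := List.count_pos_iff.2 h
      have hsum : (P.take m).count true + (P.drop m).count true = P.count true := by
        rw [← List.count_append, List.take_append_drop]
      obtain ⟨R', rfl⟩ : ∃ R', R = R' + 1 := ⟨R - 1, by omega⟩
      obtain ⟨P₁, P₂, e⟩ := exists_false_run R' m (P.drop m) (by omega)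
        (by rw [List.length_drop]; rw [Nat.succ_mul] at hl; omega)
      exact ⟨P.take m ++ P₁, P₂, by rw [List.append_assoc, ← e, List.take_append_drop]⟩
    · refine ⟨[], P.drop m, ?_⟩
      rw [List.nil_append]
      conv_lhs => rw [← List.take_append_drop m P]
      congr 1
      refine List.eq_replicate_iff.2 ⟨List.length_take_of_le hm, fun x hx => ?_⟩
      cases x
      · rfl
      · exact absurd hx h

/-- A word against a power of the ground block. -/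
theorem Inv.crude_wd (h : v.Inv a ν δ c κ η) (hν : ν * (1 + δ) ≤ 1) (hηE : η ≤ E) (P : List Bool)
    {R₀ : ℕ} (hP : P.count true ≤ R₀) : Crude E (2 * 8 ^ R₀) (v.wd P) (v.Z ^ P.length) := by
  have hA := h.ap_wd hν (b := P) (b' := List.replicate P.length false) (by simp)
  rw [wd_replicate, List.count_replicate] at hA
  simp only [Bool.false_eq_true, if_false, add_zero, beq_iff_eq] at hA
  refine ⟨2 ^ R₀, 8 ^ R₀, by positivity, by positivity, ?_, hA.mono
    (pow_le_pow_right₀ (by norm_num) hP) (mul_le_mul (pow_le_pow_right₀ (by norm_num) hP) hηE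
      h.nonneg.2.2.2.2.1 (by positivity))⟩
  have : (2 : ℝ) ^ R₀ ≤ 8 ^ R₀ := pow_le_pow_left₀ (by norm_num) (by norm_num) R₀
  linarith

theorem Inv.ap_D_letter (h : v.Inv a ν δ c κ η) (hηE : η ≤ E) (x : Bool) :
    Ap (if x then v.U else v.Z) (v.U - v.Z) (ν * (1 + δ)) (3 * E) := by
  cases x
  · exact (h.ap_D (ρ := v.e) (by simp)).mono le_rfl (by linarith)
  · exact (h.ap_D (ρ := v.o) (by simp)).mono le_rfl (by linarith)

theorem prob_letter_block (h : v.Inv a ν δ c κ η) (x : Bool) :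
    IsProb (if x then v.U else v.Z) := by
  cases x
  exacts [h.probZ, h.probU]

/-- Two block differences against a word. -/
theorem Inv.ap_two (h : v.Inv a ν δ c κ η) (hν : ν * (1 + δ) ≤ 1) (hδ : δ ≤ 1) (b : List Bool)
    {R₀ : ℕ} (hb : b.count true ≤ R₀) (c₁ : List Bool) (hc : c₁.count true ≤ R₀) (m₂ m₃ : ℕ)
    (hlen : b.length = c₁.length + 1 + m₂ + 1 + m₃) :
    Ap (v.wd b) (v.wd c₁ * (v.U - v.Z) * v.Z ^ m₂ * (v.U - v.Z) * v.Z ^ m₃)
      (4 * (2 * 8 ^ (2 * R₀)) ^ 3 * ν ^ 2) (32 * (2 * 8 ^ (2 * R₀)) ^ 3 * η) := by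
  obtain ⟨hν0, hδ0, -, -, hη, hη1⟩ := h.nonneg
  set j := c₁.length with hj
  set b₁ := b.take j with hb₁
  obtain ⟨x, t, ht⟩ : ∃ x t, b.drop j = x :: t := by
    cases e : b.drop j with
    | nil => have := List.drop_eq_nil_iff.1 e; omega
    | cons x t => exact ⟨x, t, rfl⟩
  have htl : t.length = m₂ + 1 + m₃ := by
    have := congrArg List.length ht
    simp at this
    omega
  set b₂ := t.take m₂ with hb₂
  obtain ⟨y, b₃, hy⟩ : ∃ y u, t.drop m₂ = y :: u := by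
    cases e : t.drop m₂ with
    | nil => have := List.drop_eq_nil_iff.1 e; omega
    | cons x u => exact ⟨x, u, rfl⟩
  have heq : b = b₁ ++ x :: (b₂ ++ y :: b₃) := by
    rw [hb₁, hb₂, ← hy, List.take_append_drop, ← ht, List.take_append_drop]
  have hl₂ : b₂.length = m₂ := List.length_take_of_le (by omega)
  have hl₃ : b₃.length = m₃ := by
    have := congrArg List.length hy
    simp at this
    omega
  have hl₁ : b₁.length = j := List.length_take_of_le (by omega)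
  have hcnt : b₁.count true + b₂.count true + b₃.count true ≤ R₀ := by
    refine le_trans ?_ hb
    rw [heq]
    simp only [List.count_append, List.count_cons]
    omega
  have hwd : v.wd b =
      v.wd b₁ * (if x then v.U else v.Z) * v.wd b₂ * (if y then v.U else v.Z) * v.wd b₃ := by
    rw [heq]
    simp [wd, mul_assoc]
  set T : ℝ := 2 * 8 ^ (2 * R₀) with hT
  have hmono : (2 : ℝ) * 8 ^ R₀ ≤ T :=
    mul_le_mul_of_nonneg_left (pow_le_pow_right₀ (by norm_num) (by omega)) (by norm_num)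
  have hA1 : Crude η T (v.wd b₁) (v.wd c₁) := by
    refine ⟨2 ^ (2 * R₀), 8 ^ (2 * R₀), by positivity, by positivity, ?_,
      (h.ap_wd hν (by omega)).mono (pow_le_pow_right₀ (by norm_num) (by omega))
        (mul_le_mul_of_nonneg_right (pow_le_pow_right₀ (by norm_num) (by omega)) hη)⟩
    have : (2 : ℝ) ^ (2 * R₀) ≤ 8 ^ (2 * R₀) := pow_le_pow_left₀ (by norm_num) (by norm_num) _
    rw [hT]; linarith
  have hA2 := (h.crude_wd hν le_rfl b₂ (R₀ := R₀) (by omega)).mono hmono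
  have hA3 := (h.crude_wd hν le_rfl b₃ (R₀ := R₀) (by omega)).mono hmono
  rw [hl₂] at hA2
  rw [hl₃] at hA3
  have hd := h.ap_D_letter le_rfl x
  have hd' := h.ap_D_letter le_rfl y
  have p1 := h.probWd b₁
  have p2 := h.probWd b₂
  have p3 := h.probWd b₃
  have px := prob_letter_block h x
  have py := prob_letter_block h y
  have hm := hd.wrap p1 px p2 hη hη1 (by norm_num) hA1 hA2
  have hν' : 0 ≤ ν * (1 + δ) := by positivity
  have hT1 : 1 ≤ T := by
    rw [hT]; linarith [one_le_pow₀ (show (1 : ℝ) ≤ 8 by norm_num) (n := 2 * R₀)]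
  have hT0 : 0 ≤ T * T * (ν * (1 + δ) + 3) := by positivity
  have h12 := hm.mulE ((p1.mul px).mul p2) py hη hη1 hT0 (by norm_num) hd'
  obtain ⟨a3, b3', ha3, hb3, hab3, hA3'⟩ := hA3
  have hC : 0 ≤ (T * T * (ν * (1 + δ)) + T * T * (ν * (1 + δ) + 3)) * (ν * (1 + δ) + 3) -
      T * T * (ν * (1 + δ)) * (ν * (1 + δ)) := by nlinarith [mul_nonneg (mul_self_nonneg T) hν']
  have hall := h12.mulE ((((p1.mul px).mul p2)).mul py) p3 hη hη1 hC hb3 hA3'
  rw [hwd]
  refine hall.mono ?_ (mul_le_mul_of_nonneg_right ?_ hη)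
  · have hsq : (ν * (1 + δ)) * (ν * (1 + δ)) ≤ 4 * ν ^ 2 := by
      nlinarith [mul_le_mul (show 1 + δ ≤ 2 by linarith) (show 1 + δ ≤ 2 by linarith) (by linarith)
        (by norm_num : (0 : ℝ) ≤ 2), sq_nonneg ν]
    calc T * T * (ν * (1 + δ)) * (ν * (1 + δ)) * a3
        = T * T * a3 * ((ν * (1 + δ)) * (ν * (1 + δ))) := by ring
      _ ≤ T * T * T * (4 * ν ^ 2) :=
          mul_le_mul (mul_le_mul_of_nonneg_left (by linarith) (by positivity)) hsq (by positivity)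
            (by positivity)
      _ = 4 * T ^ 3 * ν ^ 2 := by ring
  · rw [add_sub_cancel]
    have h5 : (T * T * (ν * (1 + δ)) + T * T * (ν * (1 + δ) + 3)) * (ν * (1 + δ) + 3) ≤
        T * T * 5 * 4 := by
      refine mul_le_mul ?_ (by linarith) (by linarith) (by positivity)
      nlinarith [mul_le_mul_of_nonneg_left hν (mul_self_nonneg T)]
    refine (sub_le_self _ (by positivity)).trans ?_
    refine le_trans ?_ (show T * T * 5 * 4 * T ≤ 32 * T ^ 3 by nlinarith [pow_nonneg (show 0 ≤ T by linarith) 3])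
    exact mul_le_mul h5 hab3 (by linarith) (by positivity)

theorem lin_eq_sum (v : Lev) : ∀ b : List Bool, v.lin b = ∑ i ∈ range b.length,
    if b[i]? = some true then v.Z ^ i * (v.U - v.Z) * v.Z ^ (b.length - 1 - i) else 0
  | [] => by simp [lin]
  | x :: b => by
    rw [lin, lin_eq_sum v b, List.length_cons, Finset.sum_range_succ', add_comm, Finset.mul_sum]
    congr 1
    · refine Finset.sum_congr rfl fun i hi => ?_
      rw [List.getElem?_cons_succ, mul_ite, mul_zero, pow_succ',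
        show b.length + 1 - 1 - (i + 1) = b.length - 1 - i by omega]
      simp [mul_assoc]
    · cases x <;> simp

theorem wd_sub_eq_sum (v : Lev) (b : List Bool) : v.wd b - v.Z ^ b.length = ∑ i ∈ range b.length,
    if b[i]? = some true then
      v.wd (b.take i) * (v.U - v.Z) * v.Z ^ (b.length - 1 - i) else 0 := by
  rw [sub_eq_iff_eq_add', v.wd_eq b, add_assoc]
  congr 1
  rw [high, lin_eq_sum, ← Finset.sum_add_distrib]
  refine Finset.sum_congr rfl fun i _ => ?_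
  split_ifs
  · noncomm_ring
  · rw [add_zero]

/-- The centre of the next level against pure slots, given the bound on single differences. -/
theorem Inv.centre_next (r : ℕ) : ∃ C : ℝ, 1 ≤ C ∧ ∀ (v : Lev) (a : ℕ) (ν δ c κ η : ℝ),
    v.Inv a ν δ c κ η → ν * (1 + δ) ≤ 1 → δ ≤ 1 → ∀ (A' : ℕ) (c1 η1 : ℝ), 0 ≤ c1 → 0 ≤ η1 →
    η1 ≤ 1 →
    (∀ (b : List Bool) (i : ℕ), i < b.length → b.count true ≤ 2 ^ r →
      b.length ≤ 2 ^ r * (4 * A' + 1) → 2 ^ r * A' ≤ 4 * i →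
      2 ^ r * A' ≤ 4 * (b.length - 1 - i) →
      Ap (v.wd b) (v.Z ^ i * (v.U - v.Z) * v.Z ^ (b.length - 1 - i)) c1 η1) →
    ∀ x y k, A' ≤ 2 * x → x ≤ 2 * A' → A' ≤ 2 * y → y ≤ 2 * A' → 4 * k ≤ A' →
      Ap ((v.next r A').s ^ x * (v.next r A').e * (v.next r A').s ^ y)
        ((v.next r A').s ^ (x + k) * (v.next r A').e * (v.next r A').s ^ (y - k) -
          (v.next r A').s ^ (x + y + 1)) (C * (ν ^ 2 + c1)) (C * (η + η1)) := by
  set R := 2 ^ r with hR
  set T : ℝ := 32 * (2 * 8 ^ (2 * R)) ^ 3 * R * R with hT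
  have hR1 : (1 : ℝ) ≤ R := by rw [hR]; exact_mod_cast Nat.one_le_two_pow
  refine ⟨R + T, le_add_of_le_of_nonneg hR1 (by rw [hT]; positivity), ?_⟩
  intro v a ν δ c κ η h hν hδ A' c1 η1 hc1 hη1 _ hsingle x y k hx1 hx2 hy1 hy2 hk
  obtain ⟨hν0, hδ0, -, -, hη0, -⟩ := h.nonneg
  set El := (tmw r).1 with hEl
  have hlen : El.length = R := (length_tmw r).1
  have hcnt : El.count true ≤ R := hlen ▸ List.count_le_length
  set b := List.replicate (R * x) false ++ El ++ List.replicate (R * y) false with hb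
  have hbl : b.length = R * x + R + R * y := by simp [hb, hlen]; omega
  have hbc : b.count true ≤ R := by simp [hb, List.count_replicate, hcnt]
  have es : ∀ n, (v.next r A').s ^ n = v.Z ^ (R * n) := fun n => by
    simp only [next, pow_mul, hR]
  have ee : (v.next r A').e = v.wd El := by simp [next, tm_eq, hEl]
  have href : (v.next r A').s ^ x * (v.next r A').e * (v.next r A').s ^ y = v.wd b := by
    rw [es, es, ee, hb, wd_append, wd_append, wd_replicate, wd_replicate]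
  set a' := R * (x + k) with ha'
  set b' := R * (y - k) with hb'
  have hab : a' + b' = R * x + R * y := by
    rw [ha', hb', ← mul_add, ← mul_add]
    congr 1
    omega
  have hexp : (v.next r A').s ^ (x + k) * (v.next r A').e * (v.next r A').s ^ (y - k) -
      (v.next r A').s ^ (x + y + 1) = v.Z ^ a' * (v.lin El + v.high El) * v.Z ^ b' := by
    rw [es, es, es, ee, v.wd_eq El, hlen, ← ha', ← hb',
      show R * (x + y + 1) = a' + R + b' by rw [mul_add, mul_add, mul_one]; omega,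
      pow_add, pow_add]
    noncomm_ring
  rw [href, hexp, mul_add, add_mul]
  have hhigh : v.high El = ∑ i ∈ range R, ∑ j ∈ range i,
      if El[i]? = some true ∧ El[j]? = some true then
        v.wd (El.take j) * (v.U - v.Z) * v.Z ^ (i - 1 - j) * (v.U - v.Z) * v.Z ^ (R - 1 - i)
      else 0 := by
    rw [high, hlen]
    refine Finset.sum_congr rfl fun i hi => ?_
    rw [mem_range] at hi
    by_cases ht : El[i]? = some true
    · rw [if_pos ht]
      have := v.wd_sub_eq_sum (El.take i)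
      rw [List.length_take_of_le (by omega)] at this
      rw [this, Finset.sum_mul, Finset.sum_mul]
      refine Finset.sum_congr rfl fun j hj => ?_
      rw [mem_range] at hj
      rw [List.getElem?_take_of_lt hj, List.take_take, Nat.min_eq_left hj.le]
      simp only [ht, true_and, ite_mul, zero_mul]
    · simp [ht]
  have hlin : Ap (v.wd b) (v.Z ^ a' * v.lin El * v.Z ^ b') (R * c1) (R * η1) := by
    rw [lin_eq_sum, hlen, Finset.mul_sum, Finset.sum_mul]
    refine (Ap.sum (h.probWd b) (range R) _ (fun _ => c1) (fun _ => η1) fun i hi => ?_).mono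
      (by simp) (by simp)
    rw [mem_range] at hi
    split_ifs with ht
    · have h1 : R * A' ≤ 4 * (a' + i) := by
        have : R * A' ≤ R * (4 * (x + k)) := Nat.mul_le_mul_left R (by omega)
        rw [ha']; rw [Nat.mul_left_comm] at this; omega
      have h2 : R * A' ≤ 4 * (b' + (R - 1 - i)) := by
        have : R * A' ≤ R * (4 * (y - k)) := Nat.mul_le_mul_left R (by omega)
        rw [hb']; rw [Nat.mul_left_comm] at this; omega
      have hsub : b.length - 1 - (a' + i) = (R - 1 - i) + b' := by omega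
      refine (hsingle b (a' + i) (by omega) hbc ?_ h1 (by omega)).congr ?_
      · rw [hbl, mul_add R, mul_one]
        have : R * x + R * y ≤ R * (4 * A') := by
          rw [← mul_add]; exact Nat.mul_le_mul_left R (by omega)
        omega
      · rw [hsub, pow_add, pow_add]
        simp only [mul_assoc]
    · rw [mul_zero, zero_mul]
      exact (Ap.zero _).mono hc1 hη1
  have hhi : Ap (v.wd b) (v.Z ^ a' * v.high El * v.Z ^ b') (T * ν ^ 2) (T * η) := by
    rw [hhigh, Finset.mul_sum, Finset.sum_mul]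
    have hterm : ∀ i ∈ range R, Ap (v.wd b) (v.Z ^ a' * (∑ j ∈ range i,
        if El[i]? = some true ∧ El[j]? = some true then
          v.wd (El.take j) * (v.U - v.Z) * v.Z ^ (i - 1 - j) * (v.U - v.Z) * v.Z ^ (R - 1 - i)
        else 0) * v.Z ^ b') (32 * (2 * 8 ^ (2 * R)) ^ 3 * R * ν ^ 2)
        (32 * (2 * 8 ^ (2 * R)) ^ 3 * R * η) := by
      intro i hi
      rw [mem_range] at hi
      rw [Finset.mul_sum, Finset.sum_mul]
      refine (Ap.sum (h.probWd b) (range i) _ (fun _ => 32 * (2 * 8 ^ (2 * R)) ^ 3 * ν ^ 2)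
        (fun _ => 32 * (2 * 8 ^ (2 * R)) ^ 3 * η) fun j hj => ?_).mono ?_ ?_
      · rw [mem_range] at hj
        split_ifs with ht
        · refine (h.ap_two hν hδ b hbc (List.replicate a' false ++ El.take j) ?_ (i - 1 - j)
            (R - 1 - i + b') ?_ |>.congr ?_).mono ?_ le_rfl
          · simp only [List.count_append, List.count_replicate, Bool.false_eq_true, if_false,
              zero_add, beq_iff_eq]
            exact ((List.take_sublist _ _).count_le _).trans hcnt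
          · simp only [List.length_append, List.length_replicate, List.length_take]
            omega
          · rw [wd_append, wd_replicate, pow_add]
            simp only [mul_assoc]
          · exact mul_le_mul_of_nonneg_right
              (mul_le_mul_of_nonneg_right (by norm_num) (by positivity)) (sq_nonneg ν)
        · rw [mul_zero, zero_mul]
          exact (Ap.zero _).mono (by positivity) (by positivity)
      all_goals
        rw [Finset.sum_const, card_range, nsmul_eq_mul]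
        have : (i : ℝ) ≤ R := by exact_mod_cast hi.le
        refine (mul_le_mul_of_nonneg_right this (by positivity)).trans (le_of_eq ?_)
        ring
    refine (Ap.sum (h.probWd b) (range R) _ _ _ hterm).mono (le_of_eq ?_) (le_of_eq ?_) <;>
      · rw [Finset.sum_const, card_range, nsmul_eq_mul, hT]
        ring
  have hT0 : 0 ≤ T := by rw [hT]; positivity
  refine (hlin.add (h.probWd b) hhi).mono ?_ ?_ <;> nlinarith [sq_nonneg ν]

theorem pc_pow (s X : Msr) (M q : ℕ) : ∀ (r : ℕ) (t : Fin r → ℕ) (m : Fin r → Bool),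
    (∀ i, t i ≤ q) → pc (fun k => s ^ (q + k)) (fun k => s ^ (q - k)) (s ^ M * X * s ^ M) r t m =
      s ^ (M + r * q + ksum t m) * X * s ^ (M + r * q - ksum t m)
  | 0, t, m, _ => by simp [pc, ksum]
  | r + 1, t, m, ht => by
    rw [pc, pc_pow s X M q r _ _ fun i => ht i.succ]
    have hk : ksum t m = (if m 0 then t 0 else 0) + ksum (fun i => t i.succ) fun i => m i.succ := by
      rw [ksum, ksum, Fin.sum_univ_succ]
    set j := if m 0 then t 0 else 0 with hj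
    set u := ksum (fun i => t i.succ) fun i => m i.succ
    have hu : u ≤ r * q := ksum_le (fun i => ht i.succ) _
    have hj' : j ≤ q := by rw [hj]; split_ifs <;> [exact ht 0; exact Nat.zero_le q]
    simp only [← mul_assoc, ← pow_add]
    rw [mul_assoc _ (s ^ (M + r * q - u)), ← pow_add, hk, add_mul, one_mul]
    congr 2 <;> [congr 1; skip] <;> omega

/-- Products of shifted ground blocks against words, pure slots against runs of ground blocks. -/
theorem Inv.crude_runs (h : v.Inv a ν δ c κ η) {κ1 : ℝ} (hκ1 : κ ≤ κ1) {n N₀ : ℕ} (hn : n ≤ N₀)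
    (hN : (1 + 4 * c ^ 2) ^ N₀ ≤ 2) (hE : 0 ≤ E) (hE1 : E ≤ 1) (hηE : η ≤ E)
    (hNE : (N₀ : ℝ) * η ≤ 5 * E) :
    let π := v.s ^ (n * (2 * v.A + 1))
    Crude E 22 (v.Z ^ n) π ∧
    (∀ k, 4 * k ≤ v.A → Crude E 62 (v.Z ^ n) (v.blk v.e k ^ n - π)) ∧
    ∀ k, 0 < k → 4 * k ≤ v.A → ∀ L : List Bool, L.length ≤ N₀ →
      Crude E (42 * (168 * κ1 ^ 2) ^ L.count true) (v.wd L) (v.blk v.e k ^ L.length) := by
  intro π
  obtain ⟨hν0, hδ0, hc0, hκone, hη, hη1⟩ := h.nonneg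
  have hκ11 : 1 ≤ κ1 := hκone.trans hκ1
  have hZ := h.probZ
  have hqc : (1 : ℝ) ≤ 1 + 4 * c ^ 2 := by nlinarith
  have hroot : ∀ m ≤ N₀, Real.sqrt ((1 + (2 * c) ^ 2) ^ m - 1) ≤ 1 ∧
      Real.sqrt ((1 + c ^ 2) ^ m - 1) ≤ 1 := fun m hm => by
    have h1 := (pow_le_pow_right₀ hqc hm).trans hN
    have h2 : (1 + c ^ 2) ^ m ≤ (1 + 4 * c ^ 2) ^ m :=
      pow_le_pow_left₀ (by positivity) (by nlinarith) m
    refine ⟨?_, ?_⟩ <;> rw [Real.sqrt_le_one] <;> [skip; linarith]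
    rw [show (2 * c) ^ 2 = 4 * c ^ 2 by ring]
    linarith
  have hmη : ∀ m ≤ N₀, (m : ℝ) * η ≤ 5 * E := fun m hm => by
    refine le_trans (mul_le_mul_of_nonneg_right ?_ hη) hNE
    exact_mod_cast hm
  have hrun : ∀ k, 4 * k ≤ v.A → ∀ m ≤ N₀, Crude E 42 (v.Z ^ m) (v.blk v.e k ^ m) := by
    intro k hk m hm
    have hp := prod_near (c := 2 * c) (η := 2 * η) (List.replicate m (v.Z, v.blk v.e k)) fun x hx => by
      rw [List.eq_of_mem_replicate hx]
      exact ⟨hZ, h.probBlk h.probE k, h.blk_sub hk⟩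
    simp only [List.map_replicate, List.prod_replicate, List.length_replicate] at hp
    have h1 := ((Ap.self (hZ.pow m)).add (hZ.pow m) hp).congr
      (ν := v.blk v.e k ^ m) (add_sub_cancel _ _)
    refine Crude.mk' (B := 40) (x := 2) (by norm_num) (by norm_num) (h1.mono ?_ ?_)
    · linarith [(hroot m hm).1]
    · rw [zero_add]
      nlinarith [(hroot m hm).1, hmη m hm, mul_nonneg (Nat.cast_nonneg (α := ℝ) m) hη,
        Real.sqrt_nonneg ((1 + (2 * c) ^ 2) ^ m - 1)]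
  have hpure : Ap (v.Z ^ n) (π - v.Z ^ n) 1 (20 * E) := by
    refine (h.ap_pow_pure n).mono (hroot n hn).2 ?_
    nlinarith [(hroot n hn).2, hmη n hn, mul_nonneg (Nat.cast_nonneg (α := ℝ) n) hη,
      Real.sqrt_nonneg ((1 + c ^ 2) ^ n - 1)]
  have hπc : Crude E 22 (v.Z ^ n) π := by
    refine Crude.mk' (B := 20) (x := 2) (by norm_num) (by norm_num)
      ((((Ap.self (hZ.pow n)).add (hZ.pow n) hpure).congr (add_sub_cancel _ _)).mono
        (by norm_num) (by rw [zero_add]))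
  have hkap : ∀ k, 4 * k ≤ v.A → Crude E 62 (v.Z ^ n) (v.blk v.e k ^ n - π) := by
    intro k hk
    have hp := prod_near (c := 2 * c) (η := 2 * η) (List.replicate n (v.Z, v.blk v.e k)) fun x hx => by
      rw [List.eq_of_mem_replicate hx]
      exact ⟨hZ, h.probBlk h.probE k, h.blk_sub hk⟩
    simp only [List.map_replicate, List.prod_replicate, List.length_replicate] at hp
    refine Crude.mk' (B := 60) (x := 2) (by norm_num) (by norm_num)
      (((hp.sub (hZ.pow n) hpure).congr (sub_sub_sub_cancel_right _ _ _)).mono ?_ ?_)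
    · linarith [(hroot n hn).1]
    · nlinarith [(hroot n hn).1, hmη n hn, mul_nonneg (Nat.cast_nonneg (α := ℝ) n) hη,
        Real.sqrt_nonneg ((1 + (2 * c) ^ 2) ^ n - 1)]
  have hword : ∀ k, 0 < k → 4 * k ≤ v.A → ∀ (L : List Bool) (m : ℕ), m + L.length ≤ N₀ →
      Crude E (42 * (168 * κ1 ^ 2) ^ L.count true) (v.Z ^ m * v.wd L)
        (v.blk v.e k ^ (m + L.length)) := by
    intro k hk0 hk L
    induction L with
    | nil => intro m hm; simpa [wd] using hrun k hk m (by simpa using hm)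
    | cons x L ih =>
      intro m hm
      rw [List.length_cons] at hm ⊢
      cases x
      · have := ih (m + 1) (by omega)
        rw [pow_succ v.Z m, mul_assoc, show v.Z * v.wd L = v.wd (false :: L) by simp [wd],
          show m + 1 + L.length = m + (L.length + 1) by ring] at this
        simpa using this
      · have hu : Crude E (4 * κ1 ^ 2) v.U (v.blk v.e k) := by
          refine Crude.mk' (B := 3 * κ1) (x := κ1 ^ 2) (by positivity) (by nlinarith)
            ((h.ap_blk (ρ := v.o) (x := v.e) (by simp) (by simp) hk0 (by omega)).mono ?_ ?_)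
          · rw [sq]; exact mul_le_mul hκ1 hκ1 (by linarith) (by linarith)
          · exact mul_le_mul (by linarith) hηE hη (by positivity)
        have h0 := ih 0 (by omega)
        simp only [pow_zero, one_mul, zero_add] at h0
        have := ((hrun k hk m (by omega)).mul (hZ.pow m) h.probU hE hE1 hu).mul
          ((hZ.pow m).mul h.probU) (h.probWd L) hE hE1 h0
        rw [mul_assoc (v.Z ^ m), show v.U * v.wd L = v.wd (true :: L) by simp [wd], ← pow_succ,
          ← pow_add, show m + 1 + L.length = m + (L.length + 1) by ring] at this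
        refine this.mono (le_of_eq ?_)
        rw [List.count_cons_self, pow_succ']
        ring
  refine ⟨hπc, hkap, fun k hk0 hk L hL => ?_⟩
  have := hword k hk0 hk L 0 (by omega)
  simpa using this

theorem middle_poly {T κ η : ℝ} (hE : 0 ≤ E) (hE1 : E ≤ 1) (hκ : 0 ≤ κ) (hκT : κ ≤ T)
    (hT : 2 ≤ T) (hη : 0 ≤ η) (hη1 : η ≤ 1) (hηE : η ≤ E) :
    ∀ u, 0 ≤ u → u ≤ 1 →
      (T + T * E) * (κ + η) * (u + 2 * η) * (T + T * E) - T * κ * u * T ≤ 27 * T ^ 4 * E := by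
  intro u hu hu1
  have hT0 : 0 ≤ T := by linarith
  have hT1 : True ∧ 2 ≤ T := ⟨trivial, hT⟩
  have h1 : (κ + η) * (u + 2 * η) ≤ κ * u + 4 * T * E := by
    nlinarith [mul_le_mul_of_nonneg_left hη1 hη, mul_le_mul_of_nonneg_right hκT hη,
      mul_le_mul_of_nonneg_right hu1 hη, mul_le_mul_of_nonneg_left hηE hT0, hT1.2]
  have h2 : (1 + E) * (1 + E) ≤ 1 + 3 * E := by nlinarith
  have h3 : κ * u ≤ T := (mul_le_of_le_one_right (by linarith) hu1).trans hκT
  have h4 : 0 ≤ κ * u := by positivity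
  calc (T + T * E) * (κ + η) * (u + 2 * η) * (T + T * E) - T * κ * u * T
      = T ^ 2 * (((1 + E) * (1 + E)) * ((κ + η) * (u + 2 * η)) - κ * u) := by ring
    _ ≤ T ^ 2 * ((1 + 3 * E) * (κ * u + 4 * T * E) - κ * u) := by
        refine mul_le_mul_of_nonneg_left (sub_le_sub_right ?_ _) (sq_nonneg T)
        exact mul_le_mul h2 h1 (by positivity) (by linarith)
    _ ≤ T ^ 2 * (27 * T ^ 2 * E) := by
        refine mul_le_mul_of_nonneg_left ?_ (sq_nonneg T)
        have := mul_le_mul_of_nonneg_left hE1 (mul_nonneg hT0 hE)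
        have := mul_le_mul_of_nonneg_left hT1.2 (mul_nonneg hT0 hE)
        nlinarith [mul_le_mul_of_nonneg_right h3 hE]
    _ = _ := by ring

/-- Weighted translates of the block difference between bounded factors. -/
theorem Inv.ap_translates (h : v.Inv a ν δ c κ η) (hν : ν * (1 + δ) ≤ 1) (hE : 0 ≤ E)
    (hE1 : E ≤ 1) (hηE : η ≤ E) (hκT : κ ≤ T) (hT2 : 2 ≤ T) {ρ RX RY : Msr}
    (hρ : ρ ∈ [v.e, v.o]) (hRXp : IsProb RX) (hRYp : IsProb RY) {I : ℕ} {Ks : Finset ℕ}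
    (hKs : ∀ k ∈ Ks, a < k ∧ 4 * k ≤ v.A) {wk : ℕ → ℝ} (hw0 : ∀ k ∈ Ks, 0 ≤ wk k)
    (hw1 : ∑ k ∈ Ks, wk k ≤ 1) (hw2 : ∑ k ∈ Ks, wk k ^ 2 ≤ 1 / (I : ℝ)) {X Y : ℕ → Msr}
    (hXY : ∀ k ∈ Ks, Crude E T RX (X k) ∧ Crude E T RY (Y k)) :
    Ap (RX * (v.s ^ v.A * ρ * v.s ^ v.A) * RY)
      (∑ k ∈ Ks, wk k • (X k * v.blk (v.o - v.e) k * Y k))
      (T ^ 3 * (ν / Real.sqrt I + ν * δ * Real.sqrt ((2 * a + 1 : ℕ) / I : ℝ)))
      (100 * T ^ 4 * ((a + 1) * E)) := by
  obtain ⟨hν0, hδ0, -, hκone, hη, hη1⟩ := h.nonneg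
  obtain ⟨g, rr, hg0, hr0, hg, hrr, -, hrep⟩ := h.rep
  have hs' := h.probS
  have hρp := h.prob_ref hρ
  have hT0 : 0 ≤ T := by linarith
  have hP := (hRXp.mul (((hs'.pow v.A).mul hρp).mul (hs'.pow v.A))).mul hRYp
  have hν1 : ν ≤ 1 := le_trans (le_mul_of_one_le_right hν0 (by linarith)) hν
  have hνδ : ν * δ ≤ 1 := le_trans (mul_le_mul_of_nonneg_left (by linarith) hν0) hν
  have hX := fun k hk => (hXY k hk).1.ap hE
  have hY := fun k hk => (hXY k hk).2.ap hE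
  have hTE := mul_nonneg hT0 hE
  have o1 := ap_orth hs' hρp hRXp hRYp (σ := v.s) (A := v.A) (K := Ks)
    (fun k hk => by have := hKs k hk; omega) hw0 hw1 hw2 hg0 hX hY (h.crossS ρ hρ).1 hg hT0 hT0
    hTE hTE
  have o2 := ap_orth_win hs' hρp hRXp hRYp (A := v.A) (w := a) (K := Ks)
    (fun k hk => by have := hKs k hk; have := h.ha; omega) hw0 hw1 hw2 hr0 hX hY
    (h.crossS ρ hρ).1 hrr hT0 hT0 hTE hTE
  have o3 : Ap (RX * (v.s ^ v.A * ρ * v.s ^ v.A) * RY) (∑ k ∈ Ks, wk k •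
      (X k * (v.blk (v.o - v.e - g) k - v.s ^ (v.A - a + k) * rr * v.s ^ (v.A - a - k)) * Y k)) 0
      (T * T * E) := by
    refine Ap.of_l1 _ ((l1_sum_le _ _).trans ?_)
    refine le_trans (Finset.sum_le_sum fun k hk => ?_)
      (show ∑ k ∈ Ks, wk k * (T * T * E) ≤ T * T * E by
        rw [← Finset.sum_mul]; exact mul_le_of_le_one_left (by positivity) hw1)
    rw [l1_smul, abs_of_nonneg (hw0 k hk)]
    refine mul_le_mul_of_nonneg_left ((l1_mul_le _ _).trans ?_) (hw0 k hk)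
    refine (mul_le_mul ((l1_mul_le _ _).trans (mul_le_mul ((hXY k hk).1.l1_le hRXp hE1)
      ((hrep k (by have := (hKs k hk).2; omega)).trans hηE) (l1_nonneg _) hT0))
      ((hXY k hk).2.l1_le hRYp hE1) (l1_nonneg _) hTE).trans (le_of_eq ?_)
    ring
  refine (((o1.add hP o2).add hP o3).congr ?_).mono ?_ ?_
  · rw [← Finset.sum_add_distrib, ← Finset.sum_add_distrib]
    refine Finset.sum_congr rfl fun k hk => ?_
    have h0 : 1 ≤ k := by have := hKs k hk; omega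
    rw [← shift_eq v.s g (A := v.A) h0, ← smul_add, ← smul_add]
    congr 1
    simp only [blk, mul_sub, sub_mul]
    abel
  · have hsq : Real.sqrt (2 * a + 1) * Real.sqrt (1 / I) =
        Real.sqrt ((2 * a + 1 : ℕ) / I : ℝ) := by
      rw [← Real.sqrt_mul (by positivity)]
      push_cast
      rw [mul_one_div]
    rw [hsq, add_zero, mul_add, show Real.sqrt (1 / (I : ℝ)) = 1 / Real.sqrt I by
      rw [Real.sqrt_div zero_le_one, Real.sqrt_one], show T ^ 3 = T * T * T by ring]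
    refine add_le_add ?_ ?_
    · rw [show T * T * κ * ν * (1 / Real.sqrt I) = T * T * κ * (ν / Real.sqrt I) by ring]
      gcongr
    · rw [show T * T * κ * (ν * δ) * Real.sqrt ((2 * a + 1 : ℕ) / I : ℝ) =
        T * T * κ * (ν * δ * Real.sqrt ((2 * a + 1 : ℕ) / I : ℝ)) by ring]
      gcongr
  · have hp := middle_poly hE hE1 (zero_le_one.trans hκone) hκT hT2 hη hη1 hηE
    have p1 := hp ν hν0 hν1
    have hA1 : (0 : ℝ) ≤ 2 * a + 1 := by positivity
    have p2 := mul_le_mul_of_nonneg_left (hp (ν * δ) (by positivity) hνδ) hA1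
    have hT4 : T * T ≤ T ^ 4 := by
      calc T * T = T ^ 2 := (sq T).symm
        _ ≤ T ^ 4 := pow_le_pow_right₀ (by linarith) (by norm_num)
    have e1 := mul_le_mul_of_nonneg_right hT4 hE
    have hTE4 : 0 ≤ T ^ 4 * E := by positivity
    refine (add_le_add (add_le_add p1 p2) e1).trans ?_
    nlinarith [mul_nonneg hTE4 (Nat.cast_nonneg (α := ℝ) a)]

/-- Moving the block difference between two pure runs. -/
theorem shifted_eq (v : Lev) (n jl jr lp lq : ℕ) {k : ℕ} (hk : 4 * k ≤ v.A)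
    (hkN : k ≤ n * (2 * v.A + 1)) :
    let π := v.s ^ (n * (2 * v.A + 1))
    v.s ^ (n * (2 * v.A + 1) + k) * ((v.Z ^ n - π) ^ jl * v.Z ^ lp * (v.U - v.Z) * v.Z ^ lq *
        (v.Z ^ n - π) ^ jr) * v.s ^ (n * (2 * v.A + 1) - k) =
      π * (v.blk v.e k ^ n - π) ^ jl * v.blk v.e k ^ lp * v.blk (v.o - v.e) k *
        (v.blk v.e k ^ lq * (v.blk v.e k ^ n - π) ^ jr * π) := by
  intro π
  set N := n * (2 * v.A + 1) with hN
  have hz := v.semiconjBy_blk v.e (i := 0) (k := k) (by omega)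
  have hd := v.semiconjBy_blk (v.o - v.e) (i := 0) (k := k) (by omega)
  rw [zero_add] at hz hd
  rw [← Z_eq] at hz
  rw [← D_eq] at hd
  have hκs : SemiconjBy (v.s ^ k) (v.Z ^ n - π) (v.blk v.e k ^ n - π) :=
    (hz.pow_right n).sub_right (Commute.pow_pow_self v.s k N)
  have hall := ((((hκs.pow_right jl).mul_right (hz.pow_right lp)).mul_right hd).mul_right
    (hz.pow_right lq)).mul_right (hκs.pow_right jr)
  have hπk : v.s ^ k * v.s ^ (N - k) = π := by
    rw [← pow_add, Nat.add_sub_cancel' hkN]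
  rw [pow_add, mul_assoc (v.s ^ N), hall.eq]
  simp only [mul_assoc]
  rw [hπk]

theorem Inv.l1_core_le (h : v.Inv a ν δ c κ η) {κ1 : ℝ} (hκ1 : κ ≤ κ1) {n N₀ : ℕ} (hn : n ≤ N₀)
    (hN : (1 + 4 * c ^ 2) ^ N₀ ≤ 2) (hE : 0 ≤ E) (hE1 : E ≤ 1) (hηE : η ≤ E)
    (hNE : (N₀ : ℝ) * η ≤ 5 * E) {K jl jr : ℕ} (hjl : jl ≤ K) (hjr : jr ≤ K) (lp lq : ℕ) :
    let π := v.s ^ (n * (2 * v.A + 1))
    l1 ((v.Z ^ n - π) ^ jl * v.Z ^ lp * (v.U - v.Z) * v.Z ^ lq * (v.Z ^ n - π) ^ jr) ≤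
      2 * (62 ^ K) ^ 2 := by
  intro π
  have hZ := h.probZ
  have hk0 := (h.crude_runs hκ1 hn hN hE hE1 hηE hNE).2.1 0 (by omega)
  rw [← Z_eq] at hk0
  have hl : ∀ j ≤ K, l1 ((v.Z ^ n - π) ^ j) ≤ 62 ^ K := fun j hj =>
    ((hk0.pow (hZ.pow n) hE hE1 j).l1_le ((hZ.pow n).pow j) hE1).trans
      (pow_le_pow_right₀ (by norm_num) hj)
  calc l1 ((v.Z ^ n - π) ^ jl * v.Z ^ lp * (v.U - v.Z) * v.Z ^ lq * (v.Z ^ n - π) ^ jr)
      ≤ l1 ((v.Z ^ n - π) ^ jl) * 2 * l1 ((v.Z ^ n - π) ^ jr) := by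
        refine (l1_mul_le _ _).trans (mul_le_mul_of_nonneg_right ?_ (l1_nonneg _))
        refine ((l1_mul_prob_right (hZ.pow _) _).trans ((l1_mul_le _ _).trans ?_))
        exact mul_le_mul (l1_mul_prob_right (hZ.pow _) _) (l1_sub_prob_le h.probU hZ)
          (l1_nonneg _) (l1_nonneg _)
    _ ≤ 62 ^ K * 2 * 62 ^ K := by
        refine mul_le_mul ?_ (hl jr hjr) (l1_nonneg _) (by positivity)
        exact mul_le_mul_of_nonneg_right (hl jl hjl) zero_le_two
    _ = _ := by ring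

/-- The expansion at no shift, when the alternating sum is small. -/
theorem Inv.ap_rich (h : v.Inv a ν δ c κ η) (hν : ν * (1 + δ) ≤ 1) (hE : 0 ≤ E) (hE1 : E ≤ 1)
    (hηE : η ≤ E) (hκT : κ ≤ T) (hT2 : 2 ≤ T) {ρ RX RY : Msr} (hρ : ρ ∈ [v.e, v.o])
    (hRXp : IsProb RX) (hRYp : IsProb RY) {r I : ℕ} (hI : 0 < I)
    (hk4 : 4 * (r * (a + 1 + I)) ≤ v.A) {X Y : ℕ → Msr}
    (hXY : ∀ k, 0 < k → 4 * k ≤ v.A → Crude E T RX (X k) ∧ Crude E T RY (Y k)) (F : ℕ → Msr)
    (hF : ∀ k, 0 < k → k ≤ r * (a + 1 + I) → F k = X k * v.blk (v.o - v.e) k * Y k)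
    (G : (Fin r → ℕ) → (Fin r → Bool) → Msr)
    (hG : ∀ t ∈ steps r (a + 1) I, ∀ m, G t m = F (ksum t m)) {β : ℝ}
    (halt : ∀ t ∈ steps r (a + 1) I, l1 (∑ m, sgn m • G t m) ≤ β) :
    Ap (RX * (v.s ^ v.A * ρ * v.s ^ v.A) * RY) (F 0)
      (2 ^ r * T ^ 3 * (ν / Real.sqrt I + ν * δ * Real.sqrt ((2 * a + 1 : ℕ) / I : ℝ)))
      (2 ^ r * (300 * T ^ 4) * ((a + 1) * E) + β) := by
  set RF := RX * (v.s ^ v.A * ρ * v.s ^ v.A) * RY with hRF
  have hRFp : IsProb RF :=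
    (hRXp.mul (((h.probS.pow _).mul (h.prob_ref hρ)).mul (h.probS.pow _))).mul hRYp
  obtain ⟨hν0, hδ0, -, -, -, -⟩ := h.nonneg
  have hT0 : 0 ≤ T := by linarith
  have hsteps : ∀ t ∈ steps r (a + 1) I, ∀ i, t i ≤ a + 1 + I := fun t ht i => by
    have := mem_steps.1 ht i; omega
  have hG0 : ∀ t ∈ steps r (a + 1) I, G t (mask0 r) = F 0 := fun t ht => by
    rw [hG t ht, ksum_mask0]
  have hmid : (∑ m ∈ univ.erase (mask0 r),
      sgn m • avg r (a + 1) I fun t => F (ksum t m) - G t m) = 0 :=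
    Finset.sum_eq_zero fun m _ => by
      rw [avg_congr (Y := fun _ => (0 : Msr)) fun t ht => by rw [hG t ht, sub_self],
        avg_const hI, smul_zero]
  have hrich := rich hI F G hG0
  rw [hmid, add_zero] at hrich
  rw [hrich]
  set G1 := ν / Real.sqrt I + ν * δ * Real.sqrt ((2 * a + 1 : ℕ) / I : ℝ) with hG1
  set E' := ((a : ℝ) + 1) * E with hE'
  have hE'0 : 0 ≤ E' := by positivity
  have hmask : ∀ m ∈ univ.erase (mask0 r),
      Ap RF (-sgn m • avg r (a + 1) I fun t => F (ksum t m)) (T ^ 3 * G1)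
        (300 * T ^ 4 * E') := by
    intro m hm
    have hm0 : m ≠ mask0 r := (mem_erase.1 hm).1
    have hKb : ∀ k ∈ (steps r (a + 1) I).image (fun t => ksum t m),
        a + 1 ≤ k ∧ k ≤ r * (a + 1 + I) := fun k hk => by
      obtain ⟨t, ht, rfl⟩ := mem_image.1 hk
      exact ⟨le_ksum (fun i => (mem_steps.1 ht i).1) hm0, ksum_le (hsteps t ht) m⟩
    have o := h.ap_translates hν hE hE1 hηE hκT hT2 hρ hRXp hRYp
      (fun k hk => by have := hKb k hk; exact ⟨by omega, by omega⟩)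
      (fun k _ => wt_nonneg r (a + 1) I m k) (sum_wt hI m).le (sum_wt_sq hI hm0)
      fun k hk => by have := hKb k hk; exact hXY k (by omega) (by omega)
    have hsum := o.smul (-sgn m)
    rw [abs_neg, abs_sgn, one_mul, one_mul] at hsum
    refine (hsum.congr ?_).mono le_rfl (mul_le_mul_of_nonneg_right
      (mul_le_mul_of_nonneg_right (by norm_num) (pow_nonneg hT0 4)) hE'0)
    rw [avg_eq_sum_wt r (a + 1) I m F]
    congr 1
    exact Finset.sum_congr rfl fun k hk => by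
      have := hKb k hk
      rw [hF k (by omega) this.2]
  have hcard : ((#(univ.erase (mask0 r))) : ℝ) ≤ 2 ^ r := by
    have := Finset.card_le_univ (univ.erase (mask0 r))
    rw [Fintype.card_fun, Fintype.card_bool, Fintype.card_fin] at this
    exact_mod_cast this
  have hG1' : 0 ≤ G1 := by rw [hG1]; positivity
  refine ((Ap.sum hRFp _ _ _ _ hmask).add hRFp (Ap.of_l1 RF (l1_avg_le hI halt))).mono ?_ ?_ <;>
    simp only [Finset.sum_const, nsmul_eq_mul]
  · rw [add_zero, mul_assoc]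
    exact mul_le_mul_of_nonneg_right hcard (mul_nonneg (pow_nonneg hT0 3) hG1')
  · rw [mul_assoc (2 ^ r : ℝ)]
    exact add_le_add (mul_le_mul_of_nonneg_right hcard
      (mul_nonneg (mul_nonneg (by norm_num) (pow_nonneg hT0 4)) hE'0)) le_rfl

/-- The alternating sum of pure runs of random lengths is small. -/
theorem l1_alt_runs {s : Msr} (hs : IsProb s) (X : Msr) (M : ℕ) {q r b : ℕ} (t : Fin r → ℕ)
    (ht : ∀ i, t i ≤ b) {δP β : ℝ}
    (h : ∀ k ≤ b, l1 (s ^ (q + k) - s ^ q) ≤ δP ∧ l1 (s ^ (q - k) - s ^ q) ≤ δP) (hX : l1 X ≤ β) :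
    l1 (∑ m, sgn m • pc (fun k => s ^ (q + k)) (fun k => s ^ (q - k)) (s ^ M * X * s ^ M) r t m) ≤
      β * (2 * δP) ^ r := by
  have hδP : 0 ≤ δP := (l1_nonneg _).trans (h 0 (Nat.zero_le _)).1
  have hP : IsProb (s ^ (q + 0)) := hs.pow (q + 0)
  have hstep : ∀ i, IsProb (s ^ (q - t i)) ∧ l1 (s ^ (q + t i) - s ^ (q + 0)) ≤ δP ∧
      l1 (s ^ (q - t i) - s ^ (q - 0)) ≤ δP := fun i => by
    obtain ⟨h1, h2⟩ := h (t i) (ht i)
    rw [add_zero, Nat.sub_zero]
    exact ⟨hs.pow _, h1, h2⟩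
  have := l1_alt_pc_le (fun k => s ^ (q + k)) (fun k => s ^ (q - k)) hP (s ^ M * X * s ^ M)
    (δ := δP) r t hstep
  refine this.trans ?_
  · rw [mul_comm β]
    exact mul_le_mul_of_nonneg_left ((l1_mul_prob_right (hs.pow _) _).trans
      ((l1_mul_prob_left (hs.pow _) _).trans hX)) (pow_nonneg (by linarith) r)

/-- A single difference between two runs of pure slots, moved over many positions. -/
theorem Inv.ap_middle (h : v.Inv a ν δ c κ η) (hν : ν * (1 + δ) ≤ 1) {κ1 : ℝ}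
    (hκ1 : κ ≤ κ1) {r n q I N₀ R₀ : ℕ} {δP : ℝ} (hI : 0 < I)
    (hk4 : 4 * (r * (a + 1 + I)) ≤ v.A) (hq : r * (a + 1 + I) ≤ q) (hr : 1 ≤ r)
    (hqn : r * q ≤ n * (2 * v.A + 1)) (hn : n ≤ N₀) (hN : (1 + 4 * c ^ 2) ^ N₀ ≤ 2)
    (hE : 0 ≤ E) (hE1 : E ≤ 1) (hηE : η ≤ E) (hNE : (N₀ : ℝ) * η ≤ 5 * E)
    (hs : ∀ k ≤ a + 1 + I,
      l1 (v.s ^ (q + k) - v.s ^ q) ≤ δP ∧ l1 (v.s ^ (q - k) - v.s ^ q) ≤ δP)
    {K jl jr : ℕ} (hjl : jl ≤ K) (hjr : jr ≤ K) (P Q : List Bool) (xb : Bool)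
    (hP : P.count true ≤ R₀) (hP' : P.length ≤ N₀) (hQ : Q.count true ≤ R₀) (hQ' : Q.length ≤ N₀) :
    let π := v.s ^ (n * (2 * v.A + 1))
    let T := 22 * 62 ^ K * (42 * (168 * κ1 ^ 2) ^ (R₀ + 1))
    Ap (v.Z ^ n * (v.Z ^ n) ^ jl * v.wd P * (if xb then v.U else v.Z) *
        (v.wd Q * (v.Z ^ n) ^ jr * v.Z ^ n))
      (π * ((v.Z ^ n - π) ^ jl * v.Z ^ P.length * (v.U - v.Z) * v.Z ^ Q.length *
        (v.Z ^ n - π) ^ jr) * π)
      (2 ^ r * T ^ 3 * (ν / Real.sqrt I + ν * δ * Real.sqrt ((2 * a + 1 : ℕ) / I : ℝ)))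
      (2 ^ r * (300 * T ^ 4) * ((a + 1) * E) + 2 * (62 ^ K) ^ 2 * (2 * δP) ^ r) := by
  intro π T
  obtain ⟨hν0, hδ0, hc0, hκone, hη, hη1⟩ := h.nonneg
  have hκ11 : 1 ≤ κ1 := hκone.trans hκ1
  have hs' := h.probS
  have hZ := h.probZ
  set N := n * (2 * v.A + 1) with hNdef
  have hπ : IsProb π := hs'.pow _
  obtain ⟨hπc, hkap, hword⟩ := h.crude_runs hκ1 hn hN hE hE1 hηE hNE
  set Xl : ℕ → Msr := fun k => π * (v.blk v.e k ^ n - π) ^ jl * v.blk v.e k ^ P.length with hXl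
  set Xr : ℕ → Msr := fun k => v.blk v.e k ^ Q.length * (v.blk v.e k ^ n - π) ^ jr * π with hXr
  set RX := v.Z ^ n * (v.Z ^ n) ^ jl * v.wd P with hRX
  set RY := v.wd Q * (v.Z ^ n) ^ jr * v.Z ^ n with hRY
  have hRXp : IsProb RX := ((hZ.pow n).mul ((hZ.pow n).pow jl)).mul (h.probWd P)
  have hRYp : IsProb RY := ((h.probWd Q).mul ((hZ.pow n).pow jr)).mul (hZ.pow n)
  have h168 : (1 : ℝ) ≤ 168 * κ1 ^ 2 := by nlinarith
  have hT' : ∀ {j R' : ℕ}, j ≤ K → R' ≤ R₀ + 1 →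
      22 * 62 ^ j * (42 * (168 * κ1 ^ 2) ^ R') ≤ T := fun hj hR' =>
    mul_le_mul (mul_le_mul_of_nonneg_left (pow_le_pow_right₀ (by norm_num) hj) (by norm_num))
      (mul_le_mul_of_nonneg_left (pow_le_pow_right₀ h168 hR') (by norm_num)) (by positivity)
      (by positivity)
  have hXc : ∀ k, 0 < k → 4 * k ≤ v.A → Crude E T RX (Xl k) ∧ Crude E T RY (Xr k) := by
    intro k h0 hk
    have hwP := hword k h0 hk P hP'
    have hwQ := hword k h0 hk Q hQ'
    refine ⟨(((hπc.mul (hZ.pow n) ((hZ.pow n).pow jl) hE hE1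
      ((hkap k hk).pow (hZ.pow n) hE hE1 jl)).mul ((hZ.pow n).mul ((hZ.pow n).pow jl))
      (h.probWd P) hE hE1 hwP).mono (hT' hjl (hP.trans (Nat.le_succ _)))), ?_⟩
    refine ((hwQ.mul (h.probWd Q) ((hZ.pow n).pow jr) hE hE1
      ((hkap k hk).pow (hZ.pow n) hE hE1 jr)).mul ((h.probWd Q).mul ((hZ.pow n).pow jr))
      (hZ.pow n) hE hE1 hπc).mono (le_trans (le_of_eq ?_) (hT' hjr (hQ.trans (Nat.le_succ _))))
    ring
  have hT1 : κ1 ≤ T ∧ 2 ≤ T := by
    have h1 := hT' (j := 0) (R' := 1) (Nat.zero_le K) (Nat.le_add_left 1 R₀)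
    rw [pow_zero, pow_one] at h1
    constructor <;> nlinarith
  set ρ := if xb then v.o else v.e with hρdef
  have hρ : ρ ∈ [v.e, v.o] := by rw [hρdef]; cases xb <;> simp
  have hblock : (if xb then v.U else v.Z) = v.s ^ v.A * ρ * v.s ^ v.A := by
    rw [hρdef]; cases xb <;> rfl
  rw [hblock]
  set X₀ := (v.Z ^ n - π) ^ jl * v.Z ^ P.length * (v.U - v.Z) * v.Z ^ Q.length *
    (v.Z ^ n - π) ^ jr with hX₀
  obtain ⟨M, hM⟩ : ∃ M, N = M + r * q := ⟨N - r * q, by omega⟩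
  have hrq : a + 1 + I ≤ q := (Nat.le_mul_of_pos_left _ hr).trans hq
  have hrN : r * (a + 1 + I) ≤ N := (Nat.mul_le_mul_left r hrq).trans hqn
  have hsteps : ∀ t ∈ steps r (a + 1) I, ∀ i, t i ≤ a + 1 + I := fun t ht i => by
    have := mem_steps.1 ht i; omega
  have hF0 : π * X₀ * π = v.s ^ (N + 0) * X₀ * v.s ^ (N - 0) := by simp [π, hNdef]
  rw [hF0]
  have hκT : κ ≤ T := hκ1.trans hT1.1
  have hsh : ∀ k, 0 < k → k ≤ r * (a + 1 + I) →
      v.s ^ (N + k) * X₀ * v.s ^ (N - k) = Xl k * v.blk (v.o - v.e) k * Xr k := by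
    intro k _ hk
    have he := v.shifted_eq n jl jr P.length Q.length (k := k) (by omega) (by omega)
    simp only [hXl, hXr, hX₀, π, hNdef] at he ⊢
    exact he
  refine Inv.ap_rich (X := Xl) (Y := Xr) (T := T) (r := r) (I := I)
    (β := 2 * (62 ^ K) ^ 2 * (2 * δP) ^ r) h hν hE hE1 hηE hκT hT1.2 hρ hRXp hRYp hI hk4 hXc
    (fun k => v.s ^ (N + k) * X₀ * v.s ^ (N - k)) hsh
    (pc (fun k => v.s ^ (q + k)) (fun k => v.s ^ (q - k)) (v.s ^ M * X₀ * v.s ^ M) r)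
    (fun t ht m => by
      rw [pc_pow v.s X₀ M q r t m fun i => (hsteps t ht i).trans hrq, ← hM])
    fun t ht => ?_
  exact l1_alt_runs hs' X₀ M t (hsteps t ht) hs
    (h.l1_core_le hκ1 hn hN hE hE1 hηE hNE hjl hjr P.length Q.length)

theorem centre_pow_left {M : Type*} [Ring M] (y π : M) :
    ∀ K : ℕ, y ^ K = (∑ j ∈ range K, y ^ (K - 1 - j) * π * (y - π) ^ j) + (y - π) ^ K
  | 0 => by simp
  | K + 1 => by
    rw [pow_succ' y K]
    conv_lhs => rw [centre_pow_left y π K, mul_add, Finset.mul_sum]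
    rw [Finset.sum_range_succ, Nat.add_sub_cancel, Nat.sub_self, pow_zero, one_mul, add_assoc,
      pow_succ' (y - π), ← add_mul, add_sub_cancel]
    congr 1
    refine Finset.sum_congr rfl fun j hj => ?_
    rw [mem_range] at hj
    rw [show K - j = K - 1 - j + 1 by omega, pow_succ']
    simp only [mul_assoc]

theorem centre_pow_right {M : Type*} [Ring M] (y π : M) :
    ∀ K : ℕ, y ^ K = (∑ j ∈ range K, (y - π) ^ j * π * y ^ (K - 1 - j)) + (y - π) ^ K
  | 0 => by simp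
  | K + 1 => by
    rw [pow_succ y K]
    conv_lhs => rw [centre_pow_right y π K, add_mul, Finset.sum_mul]
    rw [Finset.sum_range_succ, Nat.add_sub_cancel, Nat.sub_self, pow_zero, mul_one, add_assoc,
      pow_succ (y - π), ← mul_add, add_sub_cancel]
    congr 1
    refine Finset.sum_congr rfl fun j hj => ?_
    rw [mem_range] at hj
    rw [show K - j = K - 1 - j + 1 by omega, pow_succ]
    simp only [mul_assoc]

/-- A difference between two bounded factors, with a general error. -/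
theorem wrap_gen {P Q P' Q' R' X : Msr} (hP : IsProb P) (hR : IsProb R') (hQ : IsProb Q)
    (hE : 0 ≤ E) (hE1 : E ≤ 1) {ε : ℝ} (h1 : Crude E T P P') (h : Ap R' X y ε)
    (h2 : Crude E T' Q Q') :
    Ap (P * R' * Q) (P' * X * Q') (T * T' * y) (T * T' * (3 * (y * E) + 4 * ε)) := by
  obtain ⟨hy, hε⟩ := h.nonneg
  have hT := h1.nonneg
  have hT' := h2.nonneg
  refine (((h1.ap hE).mul hP hR h).mul (hP.mul hR) hQ (h2.ap hE)).mono (le_of_eq (by ring)) ?_
  have e : T * E * ε ≤ T * ε := mul_le_mul_of_nonneg_right (mul_le_of_le_one_right hT hE1) hε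
  have hu : 0 ≤ T * ε + T * E * y + T * E * ε := by positivity
  have e2 : (T * ε + T * E * y + T * E * ε) * (T' * E) ≤ (T * ε + T * E * y + T * E * ε) * T' :=
    mul_le_mul_of_nonneg_left (mul_le_of_le_one_right hT' hE1) hu
  nlinarith [mul_le_mul_of_nonneg_left e hT']

/-- The two terms without a pure run on one side. -/
theorem Inv.ap_kap_terms (h : v.Inv a ν δ c κ η) (hν : ν * (1 + δ) ≤ 1) (hδ : δ ≤ 1) {n N₀ : ℕ}
    (hn : n ≤ N₀) (hN : (1 + 4 * c ^ 2) ^ N₀ ≤ 2) (hE : 0 ≤ E) (hE1 : E ≤ 1) (hηE : η ≤ E)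
    (hNE : (N₀ : ℝ) * η ≤ 5 * E) (K : ℕ) (P Q : List Bool) (x : Bool) {R₀ : ℕ}
    (hP : P.count true ≤ R₀) (hQ : Q.count true ≤ R₀) :
    let π := v.s ^ (n * (2 * v.A + 1))
    Ap ((v.Z ^ n) ^ K * v.wd P * (if x then v.U else v.Z) * (v.wd Q * (v.Z ^ n) ^ K))
      ((v.Z ^ n - π) ^ K * v.Z ^ P.length * (v.U - v.Z) * (v.Z ^ Q.length * (v.Z ^ n) ^ K) +
        ((v.Z ^ n) ^ K - (v.Z ^ n - π) ^ K) * v.Z ^ P.length * (v.U - v.Z) *
          (v.Z ^ Q.length * (v.Z ^ n - π) ^ K))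
      (10 * (21 ^ K) ^ 2 * (2 * 8 ^ R₀) ^ 2 * (ν * Real.sqrt ((1 + 4 * c ^ 2) ^ n - 1) ^ K))
      (50 * (21 ^ K) ^ 2 * (2 * 8 ^ R₀) ^ 2 * E) := by
  intro π
  obtain ⟨hν0, hδ0, hc0, -, hη, -⟩ := h.nonneg
  have hZ := h.probZ
  set q := Real.sqrt ((1 + 4 * c ^ 2) ^ n - 1) with hq
  set W : ℝ := 2 * 8 ^ R₀ with hW
  set S : ℝ := 21 ^ K with hS
  have hqc : (1 : ℝ) ≤ 1 + 4 * c ^ 2 := by nlinarith
  have hq1 : q ≤ 1 := by
    rw [hq, Real.sqrt_le_one]
    linarith [(pow_le_pow_right₀ hqc hn).trans hN]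
  have hcq : Real.sqrt ((1 + c ^ 2) ^ n - 1) ≤ q :=
    Real.sqrt_le_sqrt (by
      linarith [pow_le_pow_left₀ (show (0 : ℝ) ≤ 1 + c ^ 2 by positivity)
        (show 1 + c ^ 2 ≤ 1 + 4 * c ^ 2 by nlinarith) n])
  have hq0 : 0 ≤ q := Real.sqrt_nonneg _
  have hk : Ap (v.Z ^ n) (v.Z ^ n - π) q (20 * E) := by
    refine ((h.ap_pow_pure n).neg.congr (neg_sub _ _)).mono hcq ?_
    have : (n : ℝ) * η ≤ 5 * E :=
      le_trans (mul_le_mul_of_nonneg_right (by exact_mod_cast hn) hη) hNE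
    nlinarith [mul_nonneg (Nat.cast_nonneg (α := ℝ) n) hη, hcq.trans hq1,
      Real.sqrt_nonneg ((1 + c ^ 2) ^ n - 1)]
  have hqS : (q + 20) ^ K ≤ S := pow_le_pow_left₀ (by linarith) (by linarith) K
  have hqK : q ^ K ≤ 1 := pow_le_one₀ hq0 hq1
  have hkK : Ap ((v.Z ^ n) ^ K) ((v.Z ^ n - π) ^ K) (q ^ K) (S * E) :=
    (hk.powE (hZ.pow n) hE hE1 (by norm_num) K).mono le_rfl
      (mul_le_mul_of_nonneg_right (by linarith [pow_nonneg hq0 K]) hE)
  have hS1 : 1 ≤ S := one_le_pow₀ (by norm_num)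
  have hSL : Crude E (3 * S) ((v.Z ^ n) ^ K) ((v.Z ^ n) ^ K - (v.Z ^ n - π) ^ K) :=
    Crude.mk' (x := 2) (B := S) (by linarith) (by linarith)
      (((Ap.self ((hZ.pow n).pow K)).sub ((hZ.pow n).pow K) hkK).mono (by linarith) (by simp))
  have hself : Crude E 1 ((v.Z ^ n) ^ K) ((v.Z ^ n) ^ K) :=
    Crude.mk' (x := 1) (B := 0) le_rfl (by norm_num)
      ((Ap.self ((hZ.pow n).pow K)).mono le_rfl (by simp))
  have hcP := h.crude_wd hν hηE P hP
  have hcQ := h.crude_wd hν hηE Q hQ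
  have hd := h.ap_D_letter hηE x
  have pX := prob_letter_block h x
  have pP := h.probWd P
  have pQ := h.probWd Q
  have pK := (hZ.pow n).pow K
  have hν' : 0 ≤ ν * (1 + δ) := by positivity
  have hW0 : 0 ≤ W := by positivity
  have h1 := hd.wrap pP pX (pQ.mul pK) hE hE1 (by norm_num) hcP
    (hcQ.mul pQ pK hE hE1 hself)
  have t1 := hkK.mulE pK ((pP.mul pX).mul (pQ.mul pK)) hE hE1 (by positivity) (by positivity) h1
  have h2 := hd.wrap (pK.mul pP) pX pQ hE hE1 (by norm_num) (hSL.mul pK pP hE hE1 hcP) hcQ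
  have t2 := h2.mulE (((pK.mul pP).mul pX).mul pQ) pK hE hE1 (by positivity) (by positivity) hkK
  simp only [← mul_assoc] at t1 t2 ⊢
  refine (t1.add ((((pK.mul pP).mul pX).mul pQ).mul pK) t2).mono ?_ ?_
  · rw [mul_one]
    have e : ν * (1 + δ) ≤ 2 * ν := by nlinarith
    have hm : 0 ≤ q ^ K * (W * W) := by positivity
    have e1 := mul_le_mul_of_nonneg_left e hm
    have hm2 : 0 ≤ 3 * S * W * W * q ^ K := by positivity
    have e2 := mul_le_mul_of_nonneg_left e hm2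
    have hSS : S ≤ S ^ 2 := le_self_pow₀ hS1 two_ne_zero
    have e3 := mul_le_mul_of_nonneg_left hSS (show 0 ≤ W * W * ν * q ^ K by positivity)
    have e4 : 1 ≤ S ^ 2 := le_trans hS1 hSS
    have e5 := mul_le_mul_of_nonneg_left e4 (show 0 ≤ W * W * ν * q ^ K by positivity)
    nlinarith
  · rw [← add_mul]
    refine mul_le_mul_of_nonneg_right ?_ hE
    simp only [mul_one]
    have e1 : (q ^ K + S) * (W * W * (ν * (1 + δ)) + W * W * (ν * (1 + δ) + 3)) ≤
        (2 * S) * (5 * (W * W)) :=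
      mul_le_mul (by linarith) (by nlinarith [mul_le_mul_of_nonneg_left hν (mul_self_nonneg W)])
        (by positivity) (by linarith)
    have e2 : (3 * S * W * W * (ν * (1 + δ)) + 3 * S * W * W * (ν * (1 + δ) + 3)) * (q ^ K + S) ≤
        (5 * (3 * S * W * W)) * (2 * S) :=
      mul_le_mul (by nlinarith [mul_le_mul_of_nonneg_left hν (show 0 ≤ 3 * S * W * W by positivity)])
        (by linarith) (by positivity) (by positivity)
    have p1 : 0 ≤ q ^ K * (W * W * (ν * (1 + δ))) := by positivity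
    have p2 : 0 ≤ 3 * S * W * W * (ν * (1 + δ)) * q ^ K := by positivity
    have e3 := mul_le_mul_of_nonneg_left (le_self_pow₀ hS1 two_ne_zero) (mul_self_nonneg W)
    nlinarith

/-- The word between the two runs. -/
theorem Inv.ap_mid (h : v.Inv a ν δ c κ η) (hν : ν * (1 + δ) ≤ 1) (hδ : δ ≤ 1) {κ1 : ℝ}
    (hκ1 : κ ≤ κ1) {r n q I N₀ R₀ : ℕ} {δP : ℝ} (hI : 0 < I)
    (hk4 : 4 * (r * (a + 1 + I)) ≤ v.A) (hq : r * (a + 1 + I) ≤ q) (hr : 1 ≤ r)
    (hqn : r * q ≤ n * (2 * v.A + 1)) (hn : n ≤ N₀) (hN : (1 + 4 * c ^ 2) ^ N₀ ≤ 2)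
    (hE : 0 ≤ E) (hE1 : E ≤ 1) (hηE : η ≤ E) (hNE : (N₀ : ℝ) * η ≤ 5 * E)
    (hs : ∀ k ≤ a + 1 + I,
      l1 (v.s ^ (q + k) - v.s ^ q) ≤ δP ∧ l1 (v.s ^ (q - k) - v.s ^ q) ≤ δP)
    (K : ℕ) (P Q : List Bool) (x : Bool) (hP : P.count true ≤ R₀) (hP' : P.length ≤ N₀)
    (hQ : Q.count true ≤ R₀) (hQ' : Q.length ≤ N₀) :
    let T := 22 * 62 ^ K * (42 * (168 * κ1 ^ 2) ^ (R₀ + 1))
    let C := (K : ℝ) ^ 2 * (2 ^ r * T ^ 3 + 2 ^ r * (300 * T ^ 4) + 2 * (62 ^ K) ^ 2) +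
      50 * (21 ^ K) ^ 2 * (2 * 8 ^ R₀) ^ 2
    Ap ((v.Z ^ n) ^ K * v.wd P * (if x then v.U else v.Z) * (v.wd Q * (v.Z ^ n) ^ K))
      ((v.Z ^ n) ^ K * v.Z ^ P.length * (v.U - v.Z) * (v.Z ^ Q.length * (v.Z ^ n) ^ K))
      (C * (ν / Real.sqrt I + ν * δ * Real.sqrt ((2 * a + 1 : ℕ) / I : ℝ) +
        ν * Real.sqrt ((1 + 4 * c ^ 2) ^ n - 1) ^ K))
      (C * ((a + 1) * E + (2 * δP) ^ r)) := by
  intro T C
  obtain ⟨hν0, hδ0, -, hκone, -, -⟩ := h.nonneg
  have hZ := h.probZ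
  set π := v.s ^ (n * (2 * v.A + 1)) with hπ
  set y := v.Z ^ n with hy
  have hyp : IsProb y := hZ.pow n
  set RF := y ^ K * v.wd P * (if x then v.U else v.Z) * (v.wd Q * y ^ K) with hRF
  have hRFp : IsProb RF :=
    (((hyp.pow K).mul (h.probWd P)).mul (prob_letter_block h x)).mul ((h.probWd Q).mul (hyp.pow K))
  have hk := h.ap_kap_terms hν hδ hn hN hE hE1 hηE hNE K P Q x hP hQ
  set G1 := ν / Real.sqrt I + ν * δ * Real.sqrt ((2 * a + 1 : ℕ) / I : ℝ) with hG1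
  set g2 := ν * Real.sqrt ((1 + 4 * c ^ 2) ^ n - 1) ^ K with hg2
  have hmid : ∀ jl ∈ range K, ∀ jr ∈ range K, Ap RF
      (y ^ (K - 1 - jl) * π * (y - π) ^ jl * v.Z ^ P.length * (v.U - v.Z) *
        (v.Z ^ Q.length * ((y - π) ^ jr * π * y ^ (K - 1 - jr))))
      (2 ^ r * T ^ 3 * G1)
      (2 ^ r * (300 * T ^ 4) * ((a + 1) * E) + 2 * (62 ^ K) ^ 2 * (2 * δP) ^ r) := by
    intro jl hjl jr hjr
    rw [mem_range] at hjl hjr
    have hm := h.ap_middle hν hκ1 hI hk4 hq hr hqn hn hN hE hE1 hηE hNE hs (K := K) hjl.le hjr.le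
      P Q x hP hP' hQ hQ'
    have hR' : IsProb (y * y ^ jl * v.wd P * (if x then v.U else v.Z) * (v.wd Q * y ^ jr * y)) :=
      (((hyp.mul (hyp.pow _)).mul (h.probWd P)).mul (prob_letter_block h x)).mul
        (((h.probWd Q).mul (hyp.pow _)).mul hyp)
    have hw := ap_inside (hyp.pow (K - 1 - jl)) hR' (hyp.pow (K - 1 - jr)) hm
    have e1 : y ^ K = y ^ (K - 1 - jl) * (y * y ^ jl) := by
      rw [← pow_succ', ← pow_add]; congr 1; omega
    have e2 : y ^ K = y ^ jr * y * y ^ (K - 1 - jr) := by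
      rw [← pow_succ, ← pow_add]; congr 1; omega
    rw [hRF]
    nth_rewrite 1 [e1]
    rw [e2]
    convert hw using 1
    all_goals simp only [mul_assoc]
    all_goals rfl
  have hsum := Ap.sum hRFp (range K) _ _ _ fun jl hjl => Ap.sum hRFp (range K) _ _ _ (hmid jl hjl)
  have hrest : Ap RF ((∑ jl ∈ range K, ∑ jr ∈ range K,
      y ^ (K - 1 - jl) * π * (y - π) ^ jl * v.Z ^ P.length * (v.U - v.Z) *
        (v.Z ^ Q.length * ((y - π) ^ jr * π * y ^ (K - 1 - jr)))) + _) _ _ := hsum.add hRFp hk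
  have eL := centre_pow_left y π K
  have eR := centre_pow_right y π K
  set SL := ∑ j ∈ range K, y ^ (K - 1 - j) * π * (y - π) ^ j with hSL
  set SR := ∑ j ∈ range K, (y - π) ^ j * π * y ^ (K - 1 - j) with hSR
  have e : y ^ K * v.Z ^ P.length * (v.U - v.Z) * (v.Z ^ Q.length * y ^ K) =
      SL * v.Z ^ P.length * (v.U - v.Z) * (v.Z ^ Q.length * SR) +
      ((y - π) ^ K * v.Z ^ P.length * (v.U - v.Z) * (v.Z ^ Q.length * y ^ K) +
        (y ^ K - (y - π) ^ K) * v.Z ^ P.length * (v.U - v.Z) *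
          (v.Z ^ Q.length * (y - π) ^ K)) := by
    have eSL : SL = y ^ K - (y - π) ^ K := eq_sub_of_add_eq eL.symm
    have eSR : SR = y ^ K - (y - π) ^ K := eq_sub_of_add_eq eR.symm
    rw [eSL, eSR]
    noncomm_ring
  rw [e]
  refine (hrest.congr ?_).mono ?_ ?_
  · congr 1
    rw [hSL, hSR]
    simp only [Finset.sum_mul, Finset.mul_sum]
    exact Finset.sum_comm
  all_goals simp only [Finset.sum_const, card_range, nsmul_eq_mul]
  · have hT : 0 ≤ T := by
      have : (0 : ℝ) ≤ κ1 := by linarith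
      positivity
    have hG : 0 ≤ G1 := by rw [hG1]; positivity
    have hg : 0 ≤ g2 := mul_nonneg hν0 (pow_nonneg (Real.sqrt_nonneg _) K)
    have h1 : (K : ℝ) * ((K : ℝ) * (2 ^ r * T ^ 3 * G1)) ≤ C * G1 := by
      rw [← mul_assoc, ← mul_assoc]
      refine mul_le_mul_of_nonneg_right ?_ hG
      have : 0 ≤ (K : ℝ) ^ 2 * (2 ^ r * (300 * T ^ 4) + 2 * (62 ^ K) ^ 2) +
          50 * (21 ^ K) ^ 2 * (2 * 8 ^ R₀) ^ 2 := by positivity
      linarith
    have h2 : 10 * (21 ^ K) ^ 2 * (2 * 8 ^ R₀) ^ 2 * g2 ≤ C * g2 := by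
      refine mul_le_mul_of_nonneg_right ?_ hg
      have : 0 ≤ (K : ℝ) ^ 2 * (2 ^ r * T ^ 3 + 2 ^ r * (300 * T ^ 4) + 2 * (62 ^ K) ^ 2) := by
        positivity
      nlinarith [show (0 : ℝ) ≤ (21 ^ K) ^ 2 * (2 * 8 ^ R₀) ^ 2 by positivity]
    rw [mul_add C]
    exact add_le_add h1 h2
  · have hT : 0 ≤ T := by
      have : (0 : ℝ) ≤ κ1 := by linarith
      positivity
    have hδP : 0 ≤ δP := (l1_nonneg _).trans (hs 0 (Nat.zero_le _)).1
    have hE' : E ≤ (a + 1) * E := le_mul_of_one_le_left hE (by linarith [Nat.cast_nonneg (α := ℝ) a])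
    have hpE : 0 ≤ ((a : ℝ) + 1) * E := hE.trans hE'
    have hpd : 0 ≤ (2 * δP) ^ r := pow_nonneg (by linarith) r
    rw [mul_add C]
    have h1 : (K : ℝ) * ((K : ℝ) * (2 ^ r * (300 * T ^ 4) * ((a + 1) * E))) +
        50 * (21 ^ K) ^ 2 * (2 * 8 ^ R₀) ^ 2 * E ≤ C * ((a + 1) * E) := by
      have h0 := mul_le_mul_of_nonneg_left hE'
        (show (0 : ℝ) ≤ 50 * (21 ^ K) ^ 2 * (2 * 8 ^ R₀) ^ 2 by positivity)
      have : 0 ≤ (K : ℝ) ^ 2 * (2 ^ r * T ^ 3 + 2 * (62 ^ K) ^ 2) * ((a + 1) * E) := by positivity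
      nlinarith
    have h2 : (K : ℝ) * ((K : ℝ) * (2 * (62 ^ K) ^ 2 * (2 * δP) ^ r)) ≤ C * (2 * δP) ^ r := by
      rw [← mul_assoc, ← mul_assoc]
      refine mul_le_mul_of_nonneg_right ?_ hpd
      have : 0 ≤ (K : ℝ) ^ 2 * (2 ^ r * T ^ 3 + 2 ^ r * (300 * T ^ 4)) +
          50 * (21 ^ K) ^ 2 * (2 * 8 ^ R₀) ^ 2 := by positivity
      linarith
    linarith

theorem exists_split (v : Lev) {b : List Bool} {i R m : ℕ} (hib : i < b.length)
    (hbc : b.count true ≤ R) (h1 : (R + 1) * m ≤ i) (h2 : (R + 1) * m ≤ b.length - 1 - i) :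
    ∃ (P₁ P₂ Q₂ Q₁ : List Bool) (x : Bool), (P₁.count true ≤ R ∧ P₂.count true ≤ R ∧
      Q₂.count true ≤ R ∧ Q₁.count true ≤ R) ∧ P₂.length ≤ b.length ∧ Q₂.length ≤ b.length ∧
      v.wd b = v.wd P₁ * (v.Z ^ m * v.wd P₂ * (if x then v.U else v.Z) *
        (v.wd Q₂ * v.Z ^ m)) * v.wd Q₁ ∧
      v.Z ^ i * (v.U - v.Z) * v.Z ^ (b.length - 1 - i) =
        v.Z ^ P₁.length * (v.Z ^ m * v.Z ^ P₂.length * (v.U - v.Z) *
          (v.Z ^ Q₂.length * v.Z ^ m)) * v.Z ^ Q₁.length := by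
  obtain ⟨x, tl, hx⟩ : ∃ x tl, b.drop i = x :: tl := by
    cases e : b.drop i with
    | nil => have := List.drop_eq_nil_iff.1 e; omega
    | cons x tl => exact ⟨x, tl, rfl⟩
  have hbeq : b = b.take i ++ x :: tl := by rw [← hx, List.take_append_drop]
  have htl : tl.length = b.length - 1 - i := by
    have := congrArg List.length hx
    simp at this
    omega
  have hlt : (b.take i).length = i := List.length_take_of_le hib.le
  have hcnt : (b.take i).count true + tl.count true ≤ R := by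
    refine le_trans ?_ hbc
    conv_rhs => rw [hbeq]
    simp only [List.count_append, List.count_cons]
    omega
  obtain ⟨P₁, P₂, hP⟩ := exists_false_run R m (b.take i) (by omega) (by rw [hlt]; exact h1)
  obtain ⟨Q₂, Q₁, hQ⟩ := exists_false_run R m tl (by omega) (by rw [htl]; exact h2)
  have cP := congrArg (List.count true) hP
  have cQ := congrArg (List.count true) hQ
  simp [List.count_replicate] at cP cQ
  have lP := congrArg List.length hP
  have lQ := congrArg List.length hQ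
  simp only [List.length_append, List.length_replicate, hlt] at lP
  simp only [List.length_append, List.length_replicate, htl] at lQ
  refine ⟨P₁, P₂, Q₂, Q₁, x, ⟨by omega, by omega, by omega, by omega⟩, by omega, by omega, ?_, ?_⟩
  · conv_lhs => rw [hbeq, hP, hQ]
    simp [wd, mul_assoc]
  · rw [lQ, lP, pow_add, pow_add, pow_add, pow_add]
    simp only [mul_assoc]

theorem single_gain_le {ν δ q : ℝ} {a I K : ℕ} (hν0 : 0 ≤ ν) (hδ0 : 0 ≤ δ) (hν : ν * (1 + δ) ≤ 1)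
    (hI : 0 < I) (hq0 : 0 ≤ q) (hq1 : q ≤ 1) :
    ν / Real.sqrt I + ν * δ * Real.sqrt ((2 * a + 1 : ℕ) / I : ℝ) + ν * q ^ K ≤ 2 * (a + 1) := by
  have hI1 : (1 : ℝ) ≤ Real.sqrt I := Real.one_le_sqrt.2 (by exact_mod_cast hI)
  have h1 : ν / Real.sqrt I ≤ ν := div_le_self hν0 hI1
  have h2 : Real.sqrt ((2 * a + 1 : ℕ) / I : ℝ) ≤ a + 1 := by
    rw [Real.sqrt_le_left (by positivity)]
    refine (div_le_self (Nat.cast_nonneg _) (by exact_mod_cast hI)).trans ?_
    push_cast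
    nlinarith [sq_nonneg (a : ℝ)]
  have h3 : ν * q ^ K ≤ ν := mul_le_of_le_one_right hν0 (pow_le_one₀ hq0 hq1)
  have ha : (0 : ℝ) ≤ a := Nat.cast_nonneg a
  have h4 := mul_le_mul_of_nonneg_left h2 (mul_nonneg hν0 hδ0)
  have h5 : ν * (1 + δ) * (a + 1) ≤ a + 1 := mul_le_of_le_one_left (by linarith) hν
  have h6 : 0 ≤ ν * a := mul_nonneg hν0 ha
  have h7 : ν ≤ ν * (1 + δ) := le_mul_of_one_le_right hν0 (by linarith)
  nlinarith

theorem single_small {W C G u E F P : ℝ} (hW : 0 ≤ W) (hC : 1 ≤ C) (hG : 0 ≤ G) (hu0 : u ≤ 1)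
    (hu : u ≤ 2 * G) (hE : 0 ≤ E) (hF : E ≤ F) (hP : 0 ≤ P) :
    W * W * u ≤ 10 * W * W * C * G ∧ W * W * (u + 3) * E ≤ 10 * W * W * C * (F + P) := by
  have hWW := mul_nonneg hW hW
  refine ⟨?_, ?_⟩
  · calc W * W * u ≤ W * W * (2 * G) := mul_le_mul_of_nonneg_left hu hWW
      _ = 2 * W * W * 1 * G := by ring
      _ ≤ 10 * W * W * C * G := by gcongr; norm_num
  · calc W * W * (u + 3) * E ≤ W * W * 4 * E :=
          mul_le_mul_of_nonneg_right (mul_le_mul_of_nonneg_left (by linarith) hWW) hE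
      _ = 4 * W * W * 1 * E := by ring
      _ ≤ 10 * W * W * C * (F + P) := by gcongr <;> linarith

theorem single_finish {W C G E F P : ℝ} (hW : 0 ≤ W) (hC : 0 ≤ C) (_hF : 0 ≤ F) (hP : 0 ≤ P)
    (hGE : G * E ≤ 2 * F) :
    W * W * (3 * (C * G * E) + 4 * (C * (F + P))) ≤ 10 * W * W * C * (F + P) := by
  have h := mul_le_mul_of_nonneg_left hGE (mul_nonneg (mul_nonneg hW hW) hC)
  nlinarith [mul_nonneg (mul_nonneg (mul_nonneg hW hW) hC) hP,
    mul_nonneg (mul_nonneg (mul_nonneg hW hW) hC) _hF]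

/-- The crude bound for a single difference. -/
theorem Inv.single_crude (h : v.Inv a ν δ c κ η) (hν : ν * (1 + δ) ≤ 1) (hE : 0 ≤ E) (hE1 : E ≤ 1)
    (hηE : η ≤ E) {R i : ℕ} {b : List Bool} (hib : i < b.length) (hbc : b.count true ≤ R)
    {C G F P : ℝ} (hC : 1 ≤ C) (hG : 0 ≤ G) (hg : ν * (1 + δ) ≤ 2 * G) (hF : E ≤ F) (hP : 0 ≤ P) :
    Ap (v.wd b) (v.Z ^ i * (v.U - v.Z) * v.Z ^ (b.length - 1 - i))
      (10 * (2 * 8 ^ (2 * R)) * (2 * 8 ^ (2 * R)) * C * G)
      (10 * (2 * 8 ^ (2 * R)) * (2 * 8 ^ (2 * R)) * C * (F + P)) := by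
  obtain ⟨P₁, P₂, Q₂, Q₁, x, ⟨hc1, hc2, hc3, hc4⟩, -, -, eref, etgt⟩ :=
    v.exists_split (R := R) (m := 0) hib hbc (by omega) (by omega)
  simp only [pow_zero, one_mul, mul_one] at eref etgt
  have eref' : v.wd b = v.wd (P₁ ++ P₂) * (if x then v.U else v.Z) * v.wd (Q₂ ++ Q₁) := by
    rw [eref, wd_append, wd_append]
    simp only [mul_assoc]
  have etgt' : v.Z ^ i * (v.U - v.Z) * v.Z ^ (b.length - 1 - i) =
      v.Z ^ (P₁ ++ P₂).length * (v.U - v.Z) * v.Z ^ (Q₂ ++ Q₁).length := by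
    rw [etgt, List.length_append, List.length_append, pow_add, pow_add]
    simp only [mul_assoc]
  rw [eref', etgt']
  have hd := h.ap_D_letter hηE x
  have hcP := h.crude_wd hν hηE (P₁ ++ P₂) (R₀ := 2 * R)
    (by rw [List.count_append]; omega)
  have hcQ := h.crude_wd hν hηE (Q₂ ++ Q₁) (R₀ := 2 * R)
    (by rw [List.count_append]; omega)
  obtain ⟨s1, s2⟩ := single_small (W := (2 : ℝ) * 8 ^ (2 * R)) (by positivity) hC hG hν hg hE hF hP
  exact (hd.wrap (h.probWd _) (prob_letter_block h x) (h.probWd _) hE hE1 (by norm_num) hcP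
    hcQ).mono s1 s2

theorem single_nums {a A A' n q I K R r : ℕ} {c η E : ℝ} (hr : 1 ≤ r) (hK : 1 ≤ K)
    (hq : r * (a + 1 + I) ≤ q) (hqn : r * q ≤ n * (2 * A + 1)) (hKn : 4 * (K * n * (R + 1)) ≤ R * A')
    (hR : R = 2 ^ r) (hc : (1 + 4 * c ^ 2) ^ (5 * R * A') ≤ 2) (hη : 0 ≤ η)
    (hE : E = (2 ^ r * A' + 1) * η) :
    n ≤ R * (4 * A' + 1) ∧ (1 + 4 * c ^ 2) ^ (R * (4 * A' + 1)) ≤ 2 ∧
      ((R * (4 * A' + 1) : ℕ) : ℝ) * η ≤ 5 * E := by
  have hn : 1 ≤ n := by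
    rcases Nat.eq_zero_or_pos n with h0 | h0
    · subst h0
      have h1 := Nat.le_mul_of_pos_left (a + 1 + I) hr
      have h2 := Nat.le_mul_of_pos_left q hr
      rw [zero_mul] at hqn
      omega
    · exact h0
  have hKn' : n ≤ K * n * (R + 1) := by
    calc n = 1 * n * 1 := by ring
      _ ≤ K * n * (R + 1) := Nat.mul_le_mul (Nat.mul_le_mul_right n hK) (by omega)
  have hA' : 1 ≤ A' := by
    rcases Nat.eq_zero_or_pos A' with h0 | h0
    · subst h0; rw [mul_zero] at hKn; omega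
    · exact h0
  have hN5 : R * (4 * A' + 1) ≤ 5 * R * A' := by
    rw [mul_comm 5 R, mul_assoc R 5]
    exact Nat.mul_le_mul_left R (by omega)
  have : R * A' ≤ R * (4 * A' + 1) := Nat.mul_le_mul_left R (by omega)
  refine ⟨by omega, (pow_le_pow_right₀ (by nlinarith) hN5).trans hc, ?_⟩
  rw [hE, ← mul_assoc]
  refine mul_le_mul_of_nonneg_right ?_ hη
  have h5 : ((R * (4 * A' + 1) : ℕ) : ℝ) ≤ 5 * (R : ℝ) * A' := by exact_mod_cast hN5
  subst hR
  push_cast at h5 ⊢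
  linarith

/-- A single block difference inside a long word. -/
theorem Inv.single (r K : ℕ) (κ0 : ℝ) : ∃ C : ℝ, 1 ≤ C ∧ ∀ (v : Lev) (a : ℕ) (ν δ c κ η : ℝ),
    v.Inv a ν δ c κ η → κ ≤ κ0 → ν * (1 + δ) ≤ 1 → δ ≤ 1 → ∀ (A' n q I : ℕ) (δP : ℝ),
    0 < I → 4 * (r * (a + 1 + I)) ≤ v.A → r * (a + 1 + I) ≤ q → r * q ≤ n * (2 * v.A + 1) →
    4 * (K * n * (2 ^ r + 1)) ≤ 2 ^ r * A' → (1 + 4 * c ^ 2) ^ (5 * 2 ^ r * A') ≤ 2 →
    (2 ^ r * A' + 1) * η ≤ 1 →
    (∀ k ≤ a + 1 + I, l1 (v.s ^ (q + k) - v.s ^ q) ≤ δP ∧ l1 (v.s ^ (q - k) - v.s ^ q) ≤ δP) →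
    ∀ (b : List Bool) (i : ℕ), i < b.length → b.count true ≤ 2 ^ r →
      b.length ≤ 2 ^ r * (4 * A' + 1) → 2 ^ r * A' ≤ 4 * i →
      2 ^ r * A' ≤ 4 * (b.length - 1 - i) →
      Ap (v.wd b) (v.Z ^ i * (v.U - v.Z) * v.Z ^ (b.length - 1 - i))
        (C * (ν / Real.sqrt I + ν * δ * Real.sqrt ((2 * a + 1 : ℕ) / I : ℝ) +
          ν * Real.sqrt ((1 + 4 * c ^ 2) ^ n - 1) ^ K))
        (C * ((a + 1) * (2 ^ r * A' + 1) * η + (2 * δP) ^ r)) := by
  set R := 2 ^ r with hR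
  set κ1 := max κ0 1 with hκ1def
  set W : ℝ := 2 * 8 ^ (2 * R) with hW
  set C₀ : ℝ := (K : ℝ) ^ 2 * (2 ^ r * (22 * 62 ^ K * (42 * (168 * κ1 ^ 2) ^ (R + 1))) ^ 3 +
    2 ^ r * (300 * (22 * 62 ^ K * (42 * (168 * κ1 ^ 2) ^ (R + 1))) ^ 4) + 2 * (62 ^ K) ^ 2) +
      50 * (21 ^ K) ^ 2 * (2 * 8 ^ R) ^ 2 with hC₀
  have hW2 : 2 ≤ W := by
    rw [hW]; linarith [one_le_pow₀ (show (1 : ℝ) ≤ 8 by norm_num) (n := 2 * R)]
  have hC00 : 1 ≤ C₀ := by
    have h1 : (1 : ℝ) ≤ (21 ^ K) ^ 2 * (2 * 8 ^ R) ^ 2 :=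
      one_le_mul_of_one_le_of_one_le (one_le_pow₀ (one_le_pow₀ (by norm_num)))
        (one_le_pow₀ (by linarith [one_le_pow₀ (show (1 : ℝ) ≤ 8 by norm_num) (n := R)]))
    have h2 : 0 ≤ (K : ℝ) ^ 2 * (2 ^ r * (22 * 62 ^ K * (42 * (168 * κ1 ^ 2) ^ (R + 1))) ^ 3 +
        2 ^ r * (300 * (22 * 62 ^ K * (42 * (168 * κ1 ^ 2) ^ (R + 1))) ^ 4) + 2 * (62 ^ K) ^ 2) := by
      have : (0 : ℝ) ≤ κ1 := le_trans zero_le_one (le_max_right _ _)
      positivity
    rw [hC₀]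
    nlinarith
  refine ⟨10 * W * W * C₀, by nlinarith [mul_le_mul hW2 hW2 zero_le_two (by linarith)], ?_⟩
  intro v a ν δ c κ η h hκ0 hν hδ A' n q I δP hI hk4 hq hqn hKn hc hηA hs b i hib hbc hbl hi1 hi2
  obtain ⟨hν0, hδ0, -, -, hη, hη1⟩ := h.nonneg
  have hZ := h.probZ
  set E : ℝ := (2 ^ r * A' + 1) * η with hEdef
  have hE : 0 ≤ E := by rw [hEdef]; positivity
  have hηE : η ≤ E := le_mul_of_one_le_left hη (le_add_of_nonneg_left (by positivity))
  have hδP : 0 ≤ δP := (l1_nonneg _).trans (hs 0 (Nat.zero_le _)).1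
  have hpd : 0 ≤ (2 * δP) ^ r := pow_nonneg (by linarith) r
  have hE' : E ≤ (a + 1) * E :=
    le_mul_of_one_le_left hE (by linarith [Nat.cast_nonneg (α := ℝ) a])
  have eE : (a + 1) * (2 ^ r * A' + 1) * η = ((a : ℝ) + 1) * E := by rw [hEdef]; ring
  rw [eE]
  set G := ν / Real.sqrt I + ν * δ * Real.sqrt ((2 * a + 1 : ℕ) / I : ℝ) +
    ν * Real.sqrt ((1 + 4 * c ^ 2) ^ n - 1) ^ K with hG
  have hG0 : 0 ≤ G := by rw [hG]; positivity
  have hCW : 0 ≤ 10 * W * W * C₀ := by positivity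
  have hW0 : 0 ≤ W := by linarith
  rcases Nat.eq_zero_or_pos r with hr0 | hr
  · refine (Ap.of_l1 _ (?_ : l1 _ ≤ 2)).mono (mul_nonneg hCW hG0) ?_
    · exact (l1_mul_prob_right (hZ.pow _) _).trans ((l1_mul_prob_left (hZ.pow _) _).trans
        (l1_sub_prob_le h.probU hZ))
    · subst hr0
      rw [pow_zero]
      have : 2 ≤ 10 * W * W * C₀ := by
        nlinarith [mul_le_mul hW2 hW2 zero_le_two (by linarith)]
      nlinarith [mul_nonneg hCW (hE.trans hE')]
  rcases Nat.eq_zero_or_pos K with hK0 | hK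
  · have hg : ν * (1 + δ) ≤ 2 * G := by
      have hνG : ν ≤ G := by
        subst hK0
        rw [hG, pow_zero, mul_one]
        exact le_add_of_nonneg_left (by positivity)
      calc ν * (1 + δ) ≤ ν * 2 := mul_le_mul_of_nonneg_left (by linarith) hν0
        _ ≤ 2 * G := by linarith
    exact h.single_crude hν hE hηA hηE hib hbc hC00 hG0 hg hE' hpd
  obtain ⟨hnN, hN, hNE⟩ := single_nums hr hK hq hqn hKn hR hc hη hEdef
  set N₀ := R * (4 * A' + 1) with hN₀
  obtain ⟨P₁, P₂, Q₂, Q₁, x, ⟨hc1, hc2, hc3, hc4⟩, hl2, hl3, eref, etgt⟩ :=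
    v.exists_split (R := R) (m := K * n) hib hbc (by rw [mul_comm]; omega) (by rw [mul_comm]; omega)
  have hm := h.ap_mid hν hδ (hκ0.trans (le_max_left κ0 1)) hI hk4 hq hr hqn hnN hN hE hηA hηE hNE hs
    K P₂ Q₂ x (R₀ := R) (by omega) (by omega) (by omega) (by omega)
  have hw := wrap_gen (h.probWd P₁)
    ((((hZ.pow n).pow K).mul (h.probWd P₂)).mul (prob_letter_block h x) |>.mul
      ((h.probWd Q₂).mul ((hZ.pow n).pow K))) (h.probWd Q₁) hE hηA
    (h.crude_wd hν hηE P₁ (R₀ := 2 * R) (by omega)) hm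
    (h.crude_wd hν hηE Q₁ (R₀ := 2 * R) (by omega))
  rw [← pow_mul, mul_comm n K] at hw
  rw [eref, etgt]
  have hq1 : Real.sqrt ((1 + 4 * c ^ 2) ^ n - 1) ≤ 1 := by
    rw [Real.sqrt_le_one]
    linarith [(pow_le_pow_right₀ (le_add_of_nonneg_right (by positivity) :
      (1 : ℝ) ≤ 1 + 4 * c ^ 2) hnN).trans hN]
  have hGE : G * E ≤ 2 * (((a : ℝ) + 1) * E) := by
    have hg := single_gain_le (a := a) (K := K) hν0 hδ0 hν hI (Real.sqrt_nonneg _) hq1
    calc G * E ≤ 2 * ((a : ℝ) + 1) * E := mul_le_mul_of_nonneg_right hg hE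
      _ = 2 * (((a : ℝ) + 1) * E) := mul_assoc _ _ _
  have hC0 : 0 ≤ C₀ := zero_le_one.trans hC00
  have hn1 : W * W * (C₀ * G) ≤ 10 * W * W * C₀ * G := by
    rw [← mul_assoc]
    refine mul_le_mul_of_nonneg_right ?_ hG0
    exact mul_le_mul_of_nonneg_right (by linarith [mul_nonneg hW0 hW0]) hC0
  exact hw.mono hn1 (single_finish hW0 hC0 (hE.trans hE') hpd hGE)

end Lev

end Vale.Agent.P321.Super
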