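import Vale.Agent.P321.Super.Window

/-!
# P321: a comb of `L` periods hides one period

Cut `L + 1` periods and `L` periods into the same number of windows whose numbers of units differ
by a small step. Each window is close to a pure stretch, pure stretches absorb small steps, and
common parts multiply under concatenation.
-/

namespace Vale.Agent.P321.Super

open Finset
open MonoidAlgebra (single)

theorem exists_common {X Y : Msr} (hX : IsProb X) (hY : IsProb Y) :
    ∃ C A B : Msr, X = C + A ∧ Y = C + B ∧ (∀ t, 0 ≤ C.coeff t) ∧ (∀ t, 0 ≤ A.coeff t) ∧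
      (∀ t, 0 ≤ B.coeff t) ∧ mass C = 1 - l1 (X - Y) / 2 := by
  classical
  set T := X.coeff.support ∪ Y.coeff.support with hT
  set C : Msr := ∑ t ∈ T, single t (min (X.coeff t) (Y.coeff t)) with hC
  have hc : ∀ t, C.coeff t = min (X.coeff t) (Y.coeff t) := by
    intro t
    rw [hC]
    simp only [MonoidAlgebra.coeff_sum, MonoidAlgebra.coeff_single, Finsupp.coe_finsetSum,
      Finset.sum_apply, Finsupp.single_apply, Finset.sum_ite_eq']
    split_ifs with h
    · rfl
    · simp only [hT, Finset.mem_union, not_or, Finsupp.mem_support_iff, not_not] at h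
      rw [h.1, h.2, min_self]
  refine ⟨C, X - C, Y - C, by simp, by simp, fun t => ?_, fun t => ?_, fun t => ?_, ?_⟩
  · rw [hc]; exact le_min (hX.nonneg t) (hY.nonneg t)
  · simp [hc]
  · simp [hc]
  · have h1 : l1 (X - Y) = ∑ t ∈ T, |X.coeff t - Y.coeff t| := by
      rw [l1_eq_sum (s := T) (by simpa [hT] using Finsupp.support_sub)]
      simp
    have h2 : ∑ t ∈ T, (X.coeff t + Y.coeff t) = 2 := by
      rw [Finset.sum_add_distrib, ← mass_eq_sum (μ := X) Finset.subset_union_left,
        ← mass_eq_sum (μ := Y) Finset.subset_union_right, hX.mass_one, hY.mass_one]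
      norm_num
    have h3 : mass C = ∑ t ∈ T, min (X.coeff t) (Y.coeff t) := by simp [hC, mass_single]
    have h4 : ∀ t, 2 * min (X.coeff t) (Y.coeff t) + |X.coeff t - Y.coeff t| =
        X.coeff t + Y.coeff t := fun t => by
      rcases le_total (X.coeff t) (Y.coeff t) with h | h
      · rw [min_eq_left h, abs_of_nonpos (by linarith)]; ring
      · rw [min_eq_right h, abs_of_nonneg (by linarith)]; ring
    have h5 := Finset.sum_congr rfl fun t (_ : t ∈ T) => h4 t
    rw [Finset.sum_add_distrib, ← Finset.mul_sum, h2, ← h1, ← h3] at h5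
    linarith

theorem l1_eq_mass {μ : Msr} (h : ∀ t, 0 ≤ μ.coeff t) : l1 μ = mass μ := by
  rw [mass_eq_sum subset_rfl, l1]
  exact Finset.sum_congr rfl fun t _ => abs_of_nonneg (h t)

/-- Common parts multiply. -/
theorem l1_mul_sub_mul_le {X Y X' Y' : Msr} (hX : IsProb X) (hY : IsProb Y) (hX' : IsProb X')
    (hY' : IsProb Y') {α β : ℝ} (hβ : 0 ≤ β) (h : l1 (X - Y) ≤ 2 * (1 - α))
    (h' : l1 (X' - Y') ≤ 2 * (1 - β)) : l1 (X * X' - Y * Y') ≤ 2 * (1 - α * β) := by
  obtain ⟨C, A, B, rfl, rfl, hC, hA, hB, hm⟩ := exists_common hX hY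
  have hA1 : mass A = 1 - mass C := by have := hX.mass_one; rw [map_add] at this; linarith
  have hB1 : mass B = 1 - mass C := by have := hY.mass_one; rw [map_add] at this; linarith
  have e : (C + A) * X' - (C + B) * Y' = C * (X' - Y') + A * X' - B * Y' := by
    rw [add_mul, add_mul, mul_sub]; abel
  rw [e]
  have h1 : l1 (C * (X' - Y')) ≤ mass C * l1 (X' - Y') := by
    rw [← l1_eq_mass hC]; exact l1_mul_le _ _
  have h2 : l1 (A * X') ≤ mass A := (l1_mul_prob_right hX' A).trans_eq (l1_eq_mass hA)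
  have h3 : l1 (B * Y') ≤ mass B := (l1_mul_prob_right hY' B).trans_eq (l1_eq_mass hB)
  have hmC : 0 ≤ mass C := (l1_nonneg C).trans_eq (l1_eq_mass hC)
  have h4 : α ≤ mass C := by linarith
  have := l1_sub_le (C * (X' - Y') + A * X') (B * Y')
  have := l1_add_le (C * (X' - Y')) (A * X')
  nlinarith [mul_le_mul_of_nonneg_left h' hmC, mul_le_mul_of_nonneg_right h4 hβ]

theorem thin_of_length {α : Type*} {θ : ℝ} (r : List α) (f : ℕ → ℝ) :
    thin θ r (fun τ => f τ.length) = ∑ k ∈ range (r.length + 1), binW θ r.length k * f k := by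
  simp only [← thin_length_eq (θ := θ) r, mul_comm _ (f _)]
  simp only [← smul_eq_mul (f _), ← thin_smul, ← thin_sum]
  refine thin_congr fun τ hτ => ?_
  simp [Finset.mem_range, Nat.lt_succ_iff.2 hτ]

/-- One more trial moves a binomial law by at most `√(π / ((1-π) (n+1)))`. -/
theorem sum_abs_binW_step_le {π : ℝ} (h0 : 0 ≤ π) (h1 : π < 1) (n : ℕ) :
    ∑ k ∈ range (n + 2), |binW π (n + 1) k - binW π n k| ≤
      Real.sqrt (π / ((1 - π) * (n + 1))) := by
  have hq : 0 < 1 - π := by linarith
  have hn : (0 : ℝ) < (n : ℝ) + 1 := by positivity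
  have e : ∀ k ∈ range (n + 2), binW π n k =
      binW π (n + 1) k * (((n : ℝ) + 1 - k) / ((1 - π) * (n + 1))) := by
    intro k hk
    rcases lt_or_ge n k with h | h
    · have : k = n + 1 := by simp at hk; omega
      subst this
      rw [binW_of_lt h]
      simp
    · have := binW_rec_succ π h
      field_simp
      linarith
  have hw : ∀ k, 0 ≤ binW π (n + 1) k := binW_nonneg h0 h1.le (n + 1)
  have hv : ∑ k ∈ range (n + 2), binW π (n + 1) k * ((k : ℝ) - π * (n + 1)) ^ 2 =
      π * (1 - π) * (n + 1) := by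
    have a := thin_of_length (θ := π) (List.replicate (n + 1) ())
      (fun k => ((k : ℝ) - π * (n + 1)) ^ 2)
    rw [thin_length_sq, List.length_replicate] at a
    rw [← a]
    push_cast
    ring
  refine Real.le_sqrt_of_sq_le ((Finset.sum_sq_le_sum_mul_sum_of_sq_le_mul
    (r := fun k => |binW π (n + 1) k - binW π n k|) (f := binW π (n + 1))
    (g := fun k => binW π (n + 1) k * ((k : ℝ) - π * (n + 1)) ^ 2 / ((1 - π) * (n + 1)) ^ 2)
    (range (n + 2)) (fun k _ => hw k)
    (fun k _ => div_nonneg (mul_nonneg (hw k) (sq_nonneg _)) (sq_nonneg _))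
    fun k hk => ?_).trans_eq ?_)
  · rw [sq_abs, e k hk]
    field_simp
    nlinarith [sq_nonneg ((k : ℝ) - π * (n + 1)), hw k]
  · rw [sum_binW, one_mul, ← Finset.sum_div, hv]
    field_simp

/-- A pure stretch absorbs a few more units. -/
theorem pure_step {p : ℝ} (h0 : 0 < p) (h1 : p < 1) : ∃ c : ℝ, 0 ≤ c ∧ ∀ U d : ℕ,
    l1 ((letter p false * letter p true) ^ (U + d) - (letter p false * letter p true) ^ U) ≤
      d * (c * Real.sqrt (1 / (U + 1))) := by
  set q := 1 - p with hq
  set π := 1 - q ^ 2 with hπ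
  have hq0 : 0 < q := by linarith
  have hπ0 : 0 < π := by nlinarith
  have hπ1 : π < 1 := by nlinarith
  set ν : Msr := ∑ c, (![1 - (1 - q ^ 2) / π, p * q / π, p * q / π, p ^ 2 / π] c) •
    single (unitWord c) (1 : ℝ) with hν
  have hdec : (1 - π) • (1 : Msr) + π • ν = letter p false * letter p true :=
    unitLaw_pure hπ0.ne' hq
  have hx : IsProb (letter p false * letter p true) :=
    (isProb_letter h0.le h1.le _).mul (isProb_letter h0.le h1.le _)
  have hν1 : l1 ν ≤ 1 := by
    rw [hν]
    refine (l1_sum_le _ _).trans ?_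
    simp only [Fin.sum_univ_four, Matrix.cons_val, l1_smul, l1_single, abs_one, mul_one]
    rw [show 1 - (1 - q ^ 2) / π = 0 by rw [← hπ, div_self hπ0.ne', sub_self], abs_zero,
      abs_of_nonneg (by positivity), abs_of_nonneg (by positivity)]
    apply le_of_eq
    field_simp
    rw [hπ, hq]
    ring
  have hpow : ∀ n, ((1 - π) • (1 : Msr) + π • ν) ^ n =
      ∑ k ∈ range (n + 1), binW π n k • ν ^ k := by
    intro n
    rw [add_comm, ((Commute.one_right ν).smul_left π |>.smul_right (1 - π)).add_pow]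
    refine Finset.sum_congr rfl fun k _ => ?_
    rw [smul_pow, smul_pow, one_pow, smul_mul_smul_comm, mul_one, ← nsmul_eq_mul',
      ← Nat.cast_smul_eq_nsmul ℝ, smul_smul, binW, ← mul_assoc]
  have hνk : ∀ k : ℕ, l1 (ν ^ k) ≤ 1 := by
    intro k
    induction k with
    | zero => simp [isProb_one.l1_eq]
    | succ k ih =>
      rw [pow_succ]
      exact (l1_mul_le _ _).trans (mul_le_one₀ ih (l1_nonneg _) hν1)
  set c := Real.sqrt (π / (1 - π)) with hc
  refine ⟨c, Real.sqrt_nonneg _, fun U d => ?_⟩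
  have hstep : ∀ n, U ≤ n →
      l1 ((letter p false * letter p true) ^ (n + 1) - (letter p false * letter p true) ^ n) ≤
        c * Real.sqrt (1 / (U + 1)) := by
    intro n hn
    have e : (letter p false * letter p true) ^ (n + 1) - (letter p false * letter p true) ^ n =
        ∑ k ∈ range (n + 2), (binW π (n + 1) k - binW π n k) • ν ^ k := by
      rw [← hdec, hpow, hpow]
      simp only [sub_smul, Finset.sum_sub_distrib]
      rw [Finset.sum_range_succ (fun k => binW π n k • ν ^ k) (n + 1),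
        binW_of_lt (Nat.lt_succ_self n), zero_smul, add_zero]
    rw [e]
    refine (l1_sum_le _ _).trans (le_trans (Finset.sum_le_sum fun k _ => ?_)
      ((sum_abs_binW_step_le hπ0.le hπ1 n).trans ?_))
    · rw [l1_smul]
      exact mul_le_of_le_one_right (abs_nonneg _) (hνk k)
    · rw [hc, ← Real.sqrt_mul (by have : 0 < 1 - π := by linarith
                                  positivity), div_mul_div_comm, mul_one]
      refine Real.sqrt_le_sqrt (div_le_div_of_nonneg_left hπ0.le ?_ ?_)
      · have : 0 < 1 - π := by linarith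
        positivity
      · exact mul_le_mul_of_nonneg_left (by exact_mod_cast Nat.succ_le_succ hn) (by linarith)
  induction d with
  | zero => simp
  | succ d ih =>
    calc l1 ((letter p false * letter p true) ^ (U + (d + 1)) -
          (letter p false * letter p true) ^ U)
        = l1 (((letter p false * letter p true) ^ (U + d + 1) -
            (letter p false * letter p true) ^ (U + d)) +
            ((letter p false * letter p true) ^ (U + d) -
              (letter p false * letter p true) ^ U)) := by rw [sub_add_sub_cancel, add_assoc]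
      _ ≤ c * Real.sqrt (1 / (U + 1)) + d * (c * Real.sqrt (1 / (U + 1))) :=
          (l1_add_le _ _).trans (add_le_add (hstep _ (Nat.le_add_right _ _)) ih)
      _ = _ := by push_cast; ring

/-- A stretch of periods: `k + 1` lone letters, gaps `G` inside, margins `x` and `y`. -/
noncomputable def stretch (p : ℝ) (G x k y : ℕ) : Msr :=
  (letter p false * letter p true) ^ x *
    ((letter p true * (letter p false * letter p true) ^ G) ^ k *
      (letter p true * (letter p false * letter p true) ^ y))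

theorem isProb_stretch {p : ℝ} (h0 : 0 ≤ p) (h1 : p ≤ 1) (G x k y : ℕ) :
    IsProb (stretch p G x k y) :=
  have s := (isProb_letter h0 h1 false).mul (isProb_letter h0 h1 true)
  (s.pow x).mul ((((isProb_letter h0 h1 true).mul (s.pow G)).pow k).mul
    ((isProb_letter h0 h1 true).mul (s.pow y)))

theorem stretch_append (p : ℝ) {G u v : ℕ} (h : u + v = G) (x k l y : ℕ) :
    stretch p G x k u * stretch p G v l y = stretch p G x (k + 1 + l) y := by
  simp only [stretch, pow_add, pow_one, ← h, mul_assoc]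

theorem pow_comb (p : ℝ) {a b G : ℕ} (h : a + b = G) (n : ℕ) :
    ((letter p false * letter p true) ^ a * letter p true *
      (letter p false * letter p true) ^ b) ^ (n + 1) = stretch p G a n b := by
  induction n with
  | zero => simp [stretch, mul_assoc]
  | succ n ih =>
    rw [pow_succ, ih, ← stretch_append p (show b + a = G by omega) a n 0 b]
    simp [stretch, mul_assoc]

theorem stretch_near {p : ℝ} (h0 : 0 < p) (h1 : p < 1) : ∃ ε > 0, ∃ L0 : ℕ, ∀ L ≥ L0,
    ∀ G x k y : ℕ, L ≤ 5 * G → L ≤ 5 * x → L ≤ 5 * y →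
      ((x + y + k * (G + 1) + 1 : ℕ) : ℝ) ≤ ε * (L : ℝ) ^ 2 →
      l1 (stretch p G x k y -
        (letter p false * letter p true) ^ (x + y + k * (G + 1) + 1)) ≤ 1 / 4 := by
  obtain ⟨ε, hε, L0, h⟩ := window h0 h1 (δ := 1 / 4) (by norm_num)
  refine ⟨ε / 4, by positivity, max (2 * L0) 4, fun L hL G x k y hG hx hy hU => ?_⟩
  have hmax : 2 * L0 ≤ L ∧ 4 ≤ L := max_le_iff.1 hL
  have hg := h (4 * L / 5) (by omega) (x :: (List.replicate k G ++ [y])) (by simp) (fun z hz => by
      simp only [List.mem_cons, List.mem_append, List.mem_replicate, List.mem_nil_iff,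
        or_false] at hz
      rcases hz with rfl | ⟨-, rfl⟩ | rfl <;> omega) ?_
  · have e : (x :: (List.replicate k G ++ [y])).sum +
        (x :: (List.replicate k G ++ [y])).length - 1 = x + y + k * (G + 1) + 1 := by
      simp [mul_add]; omega
    rw [e] at hg
    simpa [stretch, mul_assoc] using hg
  · have e : (x :: (List.replicate k G ++ [y])).sum +
        (x :: (List.replicate k G ++ [y])).length - 1 = x + y + k * (G + 1) + 1 := by
      simp [mul_add]; omega
    rw [e]
    refine hU.trans ?_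
    have hle : (L : ℝ) ≤ 2 * ((4 * L / 5 : ℕ) : ℝ) := by
      exact_mod_cast (show L ≤ 2 * (4 * L / 5) by omega)
    calc ε / 4 * (L : ℝ) ^ 2 ≤ ε / 4 * (2 * ((4 * L / 5 : ℕ) : ℝ)) ^ 2 := by gcongr
      _ = _ := by ring

/-- Two stretches differing by at most `j d` units, in `j + 1` windows of about `M` periods. -/
theorem cut_le {p : ℝ} (h0 : 0 ≤ p) (h1 : p ≤ 1) {G M d : ℕ} (hM : 3 ≤ M) (hG : 20 ≤ G)
    {P : Msr → Msr → Prop} (hP : ∀ X Y, P X Y → l1 (X - Y) ≤ 1)
    (hwin : ∀ x k y x' k' y', G + 1 ≤ 5 * x → G + 1 ≤ 5 * y → G + 1 ≤ 5 * x' → G + 1 ≤ 5 * y' →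
      x ≤ G → y ≤ G → x' ≤ G → y' ≤ G → M ≤ k + 3 → k ≤ 4 * M →
      x + y + k * (G + 1) ≤ x' + y' + k' * (G + 1) →
      x' + y' + k' * (G + 1) ≤ x + y + k * (G + 1) + d →
      P (stretch p G x k y) (stretch p G x' k' y')) :
    ∀ j N N' x x' b D : ℕ, G + 1 ≤ 5 * x → G + 1 ≤ 5 * x' → G + 1 ≤ 5 * b → x ≤ G → x' ≤ G →
      b ≤ G → D ≤ G + 1 → D ≤ (j + 1) * d →
      (j + 1) * M ≤ N + 1 → N ≤ (j + 1) * M + M →
      x' + N' * (G + 1) = x + N * (G + 1) + D →
      l1 (stretch p G x N b - stretch p G x' N' b) ≤ 2 * (1 - (1 / 2 : ℝ) ^ (j + 1)) := by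
  intro j
  induction j with
  | zero =>
    intro N N' x x' b D hx hx' hb hxG hx'G hbG _ hD hN hN' he
    refine (hP _ _ (hwin _ _ _ _ _ _ hx hb hx' hb hxG hbG hx'G hbG (by omega) (by omega)
      (by omega) (by omega))).trans ?_
    norm_num
  | succ j ih =>
    intro N N' x x' b D hx hx' hb hxG hx'G hbG hDG hD hN hN' he
    set D' := D - d with hD'
    set k := if 2 * D' ≤ G + 1 then 0 else 1 with hk
    set c := (G + 1) / 5 + 1 with hc
    have hk01 : k = 0 ∧ 2 * D' ≤ G + 1 ∨ k = 1 ∧ G + 1 < 2 * D' := by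
      rw [hk]; split_ifs <;> omega
    have hmul : (j + 1 + 1) * M = (j + 1) * M + M := by ring
    have hcmp : N ≤ N' + 1 ∧ N' ≤ N + 2 := by
      constructor
      · by_contra hlt
        push Not at hlt
        have := Nat.mul_le_mul_right (G + 1) (show N' + 2 ≤ N by omega)
        rw [add_mul] at this
        omega
      · by_contra hlt
        push Not at hlt
        have := Nat.mul_le_mul_right (G + 1) (show N + 3 ≤ N' by omega)
        rw [add_mul] at this
        omega
    obtain ⟨u, u', hu, hu', huG, hu'G, hu5, hu'5, huv, hu'v, hrel⟩ : ∃ u u', c ≤ u ∧ c ≤ u' ∧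
        u ≤ G ∧ u' ≤ G ∧ G + 1 ≤ 5 * u ∧ G + 1 ≤ 5 * u' ∧ G + 1 ≤ 5 * (G - u) ∧
        G + 1 ≤ 5 * (G - u') ∧ u + k * (G + 1) = u' + D' := by
      rcases hk01 with ⟨e, h⟩ | ⟨e, h⟩
      · refine ⟨c + D', c, ?_⟩
        rw [e]; omega
      · refine ⟨c, c + (G + 1 - D'), ?_⟩
        rw [e]; omega
    set m := M - 1 with hm
    set m' := m + N' - N - k with hm'
    have hm'1 : m' + N + k = m + N' := by omega
    set R := N - (m + 1) with hR
    set R' := N' - (m' + 1) with hR'
    have hM1 : M ≤ (j + 1) * M := Nat.le_mul_of_pos_left M (Nat.succ_pos j)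
    have hR1 : R' + (m' + 1) = N' := by omega
    have hR2 : R + (m + 1) = N := by omega
    have hRk : R' = R + k := by omega
    have he1 : (G - u') + R' * (G + 1) = (G - u) + R * (G + 1) + D' := by
      rw [hRk, add_mul]; omega
    have he2 : x' + u' + m' * (G + 1) + D' = x + u + m * (G + 1) + D := by
      have a1 : N' * (G + 1) = R' * (G + 1) + m' * (G + 1) + (G + 1) := by rw [← hR1]; ring
      have a2 : N * (G + 1) = R * (G + 1) + m * (G + 1) + (G + 1) := by rw [← hR2]; ring
      have a3 : R' * (G + 1) = R * (G + 1) + k * (G + 1) := by rw [hRk]; ring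
      omega
    have hd : D' ≤ D ∧ D ≤ D' + d := by omega
    have h1' : l1 (stretch p G x m u - stretch p G x' m' u') ≤ 2 * (1 - 1 / 2) :=
      (hP _ _ (hwin _ _ _ _ _ _ hx hu5 hx' hu'5 hxG huG hx'G hu'G (by omega) (by omega)
        (by omega) (by omega))).trans (by norm_num)
    have hDj : D' ≤ (j + 1) * d := by
      have : (j + 1 + 1) * d = (j + 1) * d + d := by ring
      omega
    have h2' := ih R R' (G - u) (G - u') b D' huv hu'v hb (Nat.sub_le _ _) (Nat.sub_le _ _) hbG
      (by omega) hDj (by rw [hm] at hR2; omega) (by rw [hm] at hR2; omega) he1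
    have hX := fun a k b => isProb_stretch h0 h1 G a k b
    have := l1_mul_sub_mul_le (hX _ _ _) (hX _ _ _) (hX _ _ _) (hX _ _ _)
      (by positivity) h1' h2'
    rw [stretch_append p (by omega), stretch_append p (by omega),
      show m + 1 + R = N by omega, show m' + 1 + R' = N' by omega] at this
    refine this.trans_eq ?_
    rw [pow_succ _ (j + 1)]
    ring

/-- A comb of `L` periods hides one period. -/
theorem comb_step {p : ℝ} (h0 : 0 < p) (h1 : p < 1) :
    ∃ θ < (1 : ℝ), ∃ L0 : ℕ, ∀ L ≥ L0, ∀ a b : ℕ, a + b + 1 = L → L ≤ 3 * a → L ≤ 3 * b →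
      l1 (((letter p false * letter p true) ^ a * letter p true *
          (letter p false * letter p true) ^ b) ^ (L + 1) -
        ((letter p false * letter p true) ^ a * letter p true *
          (letter p false * letter p true) ^ b) ^ L) ≤ 2 * θ := by
  obtain ⟨ε, hε, L0, hnear⟩ := stretch_near h0 h1
  obtain ⟨c, hc, hstep⟩ := pure_step h0 h1
  obtain ⟨w, hw⟩ := exists_nat_gt (max (16 / ε) (64 * c ^ 2))
  have hw1 : 16 / ε < w := lt_of_le_of_lt (le_max_left _ _) hw
  have hw2 : 64 * c ^ 2 < w := lt_of_le_of_lt (le_max_right _ _) hw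
  have hw0 : 0 < w := by
    have : (0 : ℝ) < w := lt_of_le_of_lt (by positivity) hw1
    exact_mod_cast this
  refine ⟨1 - (1 / 2) ^ w, by have : (0 : ℝ) < (1 / 2) ^ w := by positivity
                              linarith,
    max L0 (w * (w + 20)), fun L hL a b hab ha hb => ?_⟩
  obtain ⟨hL0, hLw⟩ : L0 ≤ L ∧ w * (w + 20) ≤ L := max_le_iff.1 hL
  obtain ⟨G, rfl⟩ : ∃ G, L = G + 1 := ⟨L - 1, by omega⟩
  set M := (G + 1) / w with hM
  set d := M + 1 with hd
  have hdiv := Nat.div_add_mod (G + 1) w
  have hmod := Nat.mod_lt (G + 1) hw0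
  rw [← hM] at hdiv
  have hMw : w + 20 ≤ M := (Nat.le_div_iff_mul_le hw0).2 (by rw [mul_comm]; exact hLw)
  have hwin : ∀ x k y x' k' y', G + 1 ≤ 5 * x → G + 1 ≤ 5 * y → G + 1 ≤ 5 * x' → G + 1 ≤ 5 * y' →
      x ≤ G → y ≤ G → x' ≤ G → y' ≤ G → M ≤ k + 3 → k ≤ 4 * M →
      x + y + k * (G + 1) ≤ x' + y' + k' * (G + 1) →
      x' + y' + k' * (G + 1) ≤ x + y + k * (G + 1) + d →
      l1 (stretch p G x k y - stretch p G x' k' y') ≤ 1 := by
    intro x k y x' k' y' hx hy hx' hy' hxG hyG hx'G hy'G hkl hku hle hge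
    set U := x + y + k * (G + 1) + 1 with hU
    obtain ⟨e, he, hed⟩ : ∃ e, x' + y' + k' * (G + 1) + 1 = U + e ∧ e ≤ d :=
      ⟨x' + y' + k' * (G + 1) + 1 - U, by omega, by omega⟩
    have hW : (M : ℝ) * w ≤ (G + 1 : ℕ) := by exact_mod_cast (show M * w ≤ G + 1 by
      rw [mul_comm]; omega)
    have hlo : (M : ℝ) * (M * w) ≤ 4 * ((U : ℝ) + 1) := by
      have h' : M * (M * w) ≤ 4 * (U + 1) := by
        have : M * (G + 1) ≤ 4 * (k * (G + 1)) := by
          rw [← mul_assoc]; exact Nat.mul_le_mul_right _ (by omega)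
        have : M * (M * w) ≤ M * (G + 1) := Nat.mul_le_mul_left _ (by rw [mul_comm]; omega)
        omega
      exact_mod_cast h'
    have hup : ∀ V : ℕ, V ≤ U + d → (V : ℝ) ≤ ε * ((G + 1 : ℕ) : ℝ) ^ 2 := by
      intro V hV
      have h' : V * w ≤ 16 * (G + 1) ^ 2 := by
        have e1 : U + d ≤ 8 * M * (G + 1) := by
          have : k * (G + 1) ≤ 4 * M * (G + 1) := Nat.mul_le_mul_right _ hku
          have : 4 * (G + 1) ≤ 4 * M * (G + 1) := Nat.mul_le_mul_right _ (by omega)
          have : 8 * M * (G + 1) = 4 * M * (G + 1) + 4 * M * (G + 1) := by ring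
          have : M ≤ G + 1 := Nat.div_le_self _ _
          omega
        have e2 : V * w ≤ 8 * M * (G + 1) * w := Nat.mul_le_mul_right _ (hV.trans e1)
        have e3 : 8 * (G + 1) * (M * w) ≤ 8 * (G + 1) * (G + 1) :=
          Nat.mul_le_mul_left _ (by rw [mul_comm]; omega)
        nlinarith
      have h'' : (V : ℝ) * w ≤ 16 * ((G + 1 : ℕ) : ℝ) ^ 2 := by exact_mod_cast h'
      rw [div_lt_iff₀ hε] at hw1
      have hV0 : (0 : ℝ) ≤ V := Nat.cast_nonneg _
      have hwp : (0 : ℝ) < w := by exact_mod_cast hw0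
      by_contra hcon
      push Not at hcon
      nlinarith [mul_lt_mul_of_pos_right hcon hwp, sq_nonneg ((G + 1 : ℕ) : ℝ)]
    have n1 := hnear (G + 1) hL0 G x k y (by omega) hx hy (hup U (by omega))
    have n2 := hnear (G + 1) hL0 G x' k' y' (by omega) hx' hy' (hup _ (by omega))
    have n3 : l1 ((letter p false * letter p true) ^ (U + e) -
        (letter p false * letter p true) ^ U) ≤ 1 / 2 := by
      refine (hstep U e).trans ?_
      have hM0 : (0 : ℝ) < M := by exact_mod_cast (show 0 < M by omega)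
      have he2 : (e : ℝ) ≤ 2 * M := by exact_mod_cast (show e ≤ 2 * M by omega)
      have hU0 : (0 : ℝ) < (U : ℝ) + 1 := by positivity
      have hsq : ((e : ℝ) * (c * Real.sqrt (1 / (U + 1)))) ^ 2 ≤ (1 / 2) ^ 2 := by
        rw [mul_pow, mul_pow, Real.sq_sqrt (by positivity), ← mul_assoc, mul_one_div,
          div_le_iff₀ hU0]
        have : (e : ℝ) ^ 2 ≤ (2 * M) ^ 2 := pow_le_pow_left₀ (Nat.cast_nonneg _) he2 2
        nlinarith [mul_le_mul_of_nonneg_right this (sq_nonneg c),
          mul_le_mul_of_nonneg_left hw2.le (sq_nonneg (M : ℝ))]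
      exact abs_le_of_sq_le_sq hsq (by norm_num) |>.trans' (le_abs_self _)
    rw [he] at n2
    have t1 := l1_sub_le (stretch p G x k y - (letter p false * letter p true) ^ U)
      ((stretch p G x' k' y' - (letter p false * letter p true) ^ (U + e)) +
        ((letter p false * letter p true) ^ (U + e) - (letter p false * letter p true) ^ U))
    have t2 := l1_add_le (stretch p G x' k' y' - (letter p false * letter p true) ^ (U + e))
      ((letter p false * letter p true) ^ (U + e) - (letter p false * letter p true) ^ U)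
    rw [sub_add_sub_cancel, sub_sub_sub_cancel_right] at t1
    rw [sub_add_sub_cancel] at t2
    linarith
  have hbig := Nat.le_mul_of_pos_left (w + 20) hw0
  have hcut := cut_le h0.le h1.le (G := G) (M := M) (d := d) (by omega) (by omega)
    (P := fun X Y => l1 (X - Y) ≤ 1) (fun _ _ h => h) hwin (w - 1) G (G + 1) a a b (G + 1)
    (by omega) (by omega) (by omega) (by omega) (by omega) (by omega) le_rfl
    (by rw [show w - 1 + 1 = w by omega, hd, mul_add]; omega)
    (by rw [show w - 1 + 1 = w by omega]; omega)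
    (by rw [show w - 1 + 1 = w by omega]; omega) (by ring)
  rw [show w - 1 + 1 = w by omega] at hcut
  rw [pow_comb p (show a + b = G by omega), pow_comb p (show a + b = G by omega), ← l1_neg,
    neg_sub]
  exact hcut

end Vale.Agent.P321.Super
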