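import Vale.Agent.P321.Super.Slots

/-!
# P321: the hierarchy of words

A level is given by a slot law `s`, two centre laws `e`, `o` and a margin `A`. Its two blocks are
`Z = s^A e s^A` and `U = s^A o s^A`. The next slot is a power of `Z`; the next centres are the
even and odd Thue-Morse words in `Z` and `U`.
-/

namespace Vale.Agent.P321.Super

open Finset

/-- The data of one level. -/
structure Lev where
  /-- the slot law -/
  s : Msr
  /-- the even centre law -/
  e : Msr
  /-- the odd centre law -/
  o : Msr
  /-- the number of slots on each side of the centre -/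
  A : ℕ

namespace Lev

/-- The content `x` shifted right by `k` slots inside a block. -/
noncomputable def blk (v : Lev) (x : Msr) (k : ℕ) : Msr := v.s ^ (v.A + k) * x * v.s ^ (v.A - k)

/-- The ground block. -/
noncomputable def Z (v : Lev) : Msr := v.s ^ v.A * v.e * v.s ^ v.A

/-- The perturbed block. -/
noncomputable def U (v : Lev) : Msr := v.s ^ v.A * v.o * v.s ^ v.A

/-- The two Thue-Morse words of length `2 ^ r` in the letters `x`, `y`. -/
noncomputable def tm (x y : Msr) : ℕ → Msr × Msr
  | 0 => (x, y)
  | r + 1 => ((tm x y r).1 * (tm x y r).2, (tm x y r).2 * (tm x y r).1)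

/-- The next level. -/
noncomputable def next (v : Lev) (r A' : ℕ) : Lev :=
  ⟨v.Z ^ (2 ^ r), (tm v.Z v.U r).1, (tm v.Z v.U r).2, A'⟩

end Lev

/-- The law of the unit `01`. -/
noncomputable def s0 (p : ℝ) : Msr := letter p false * letter p true

/-- The law of the inserted letter. -/
noncomputable def dd (p : ℝ) : Msr := letter p true

/-- A slot of `S` units whose unit number `u` is replaced by the inserted letter. -/
noncomputable def defect (p : ℝ) (S u : ℕ) : Msr := s0 p ^ u * dd p * s0 p ^ (S - 1 - u)

/-- The first level: slots of `S` units, a defect in the middle, or one unit to its right. -/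
noncomputable def base (p : ℝ) (S A : ℕ) : Lev :=
  ⟨s0 p ^ S, defect p S (S / 2), defect p S (S / 2 + 1), A⟩

/-- The levels, with the margins `A j`. -/
noncomputable def level (p : ℝ) (r S : ℕ) (A : ℕ → ℕ) : ℕ → Lev
  | 0 => base p S (A 0)
  | j + 1 => (level p r S A j).next r (A (j + 1))

end Vale.Agent.P321.Super
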