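import Mathlib

/-!
# P321: arrangements of two laws

Slots `i` carry two laws `P i`, `Q i` at distance at most `2θ < 2`. The averages over all
arrangements with `K - 1`, respectively `K`, letters `Q` among `2K - 1` slots differ in `l¹`
by `O(1 / √K)`.
-/

namespace Vale.Agent.P321.Super

open Finset Polynomial

variable {N : ℕ}

/-- `∑ (-1)^|U \ T|` over the sets `T` of size `j`. -/
noncomputable def kraw (U : Finset (Fin N)) (j : ℕ) : ℝ :=
  ∑ T ∈ (univ : Finset (Fin N)).powersetCard j, (-1) ^ #(U \ T)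

theorem kraw_poly (U : Finset (Fin N)) (j : ℕ) :
    kraw U j = (((X : ℝ[X]) - 1) ^ #U * (X + 1) ^ (N - #U)).coeff j := by
  have hp : ((X : ℝ[X]) - 1) ^ #U * (X + 1) ^ (N - #U) =
      ∏ i : Fin N, (X + C (if i ∈ U then (-1 : ℝ) else 1)) := by
    have e : ∀ i : Fin N, (X + C (if i ∈ U then (-1 : ℝ) else 1)) =
        if i ∈ U then X - 1 else X + 1 := fun i => by split_ifs <;> simp [sub_eq_add_neg]
    simp only [e, Finset.prod_ite]
    rw [prod_const, prod_const]
    congr 2
    · congr 1; ext i; simp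
    · rw [show univ.filter (fun i => i ∉ U) = Uᶜ by ext i; simp, card_compl, Fintype.card_fin]
  rw [hp, Finset.prod_add, finsetSum_coeff]
  have hT : ∀ T : Finset (Fin N), ((∏ _i ∈ T, (X : ℝ[X])) *
      ∏ i ∈ univ \ T, C (if i ∈ U then (-1 : ℝ) else 1)).coeff j =
      if #T = j then (-1 : ℝ) ^ #(U \ T) else 0 := by
    intro T
    rw [prod_const, ← map_prod C, mul_comm, coeff_C_mul, coeff_X_pow]
    rw [Finset.prod_ite, prod_const, prod_const, one_pow, mul_one,
      show (univ \ T).filter (fun i => i ∈ U) = U \ T by ext i; simp [and_comm]]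
    by_cases h : #T = j
    · simp [h]
    · simp [h, Ne.symm h]
  simp only [hT, ← Finset.sum_filter, kraw]
  exact Finset.sum_congr (by ext T; simp) fun _ _ => rfl

/-- Complementing the sets. -/
theorem kraw_compl (U : Finset (Fin N)) {j : ℕ} (hj : j ≤ N) :
    kraw U (N - j) = (-1) ^ #U * kraw U j := by
  simp only [kraw, mul_sum]
  refine Finset.sum_nbij' compl compl ?_ ?_ (by simp) (by simp) fun T _ => ?_
  · intro T hT
    simp only [mem_powersetCard, subset_univ, true_and, card_compl, Fintype.card_fin] at hT ⊢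
    omega
  · intro T hT
    simp only [mem_powersetCard, subset_univ, true_and, card_compl, Fintype.card_fin] at hT ⊢
    omega
  · have h : #(U \ T) + #(U \ Tᶜ) = #U := by
      rw [show U \ Tᶜ = U ∩ T by ext i; simp, add_comm]
      exact card_inter_add_card_sdiff U T
    rw [← pow_add, ← h, show #(U \ T) + #(U \ Tᶜ) + #(U \ Tᶜ) = #(U \ T) + 2 * #(U \ Tᶜ) by ring,
      pow_add, pow_mul]
    simp

/-- The middle coefficient of `(X - 1)^(2a) (X + 1)^(2b)`. -/
theorem middle_coeff (a b : ℕ) :
    (((X : ℝ[X]) - 1) ^ (2 * a) * (X + 1) ^ (2 * b)).coeff (a + b) *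
        ((a.factorial : ℝ) * b.factorial * (a + b).factorial) =
      (-1) ^ a * (((2 * a).factorial : ℝ) * (2 * b).factorial) := by
  induction a generalizing b with
  | zero =>
    rw [mul_zero, pow_zero, one_mul, zero_add, coeff_X_add_one_pow]
    have h := Nat.choose_mul_factorial_mul_factorial (show b ≤ 2 * b by omega)
    rw [show 2 * b - b = b by omega] at h
    simp only [pow_zero, Nat.factorial_zero, Nat.cast_one, one_mul]
    rw [← mul_assoc]
    exact_mod_cast h
  | succ a ih =>
    have hrec : (((X : ℝ[X]) - 1) ^ (2 * (a + 1)) * (X + 1) ^ (2 * b)).coeff (a + 1 + b) =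
        (((X : ℝ[X]) - 1) ^ (2 * a) * (X + 1) ^ (2 * (b + 1))).coeff (a + (b + 1)) -
          4 * (((X : ℝ[X]) - 1) ^ (2 * a) * (X + 1) ^ (2 * b)).coeff (a + b) := by
      have hp : ((X : ℝ[X]) - 1) ^ (2 * (a + 1)) * (X + 1) ^ (2 * b) =
          (X - 1) ^ (2 * a) * (X + 1) ^ (2 * (b + 1)) -
            C (4 : ℝ) * (X * ((X - 1) ^ (2 * a) * (X + 1) ^ (2 * b))) := by
        rw [map_ofNat C]; ring
      rw [hp, coeff_sub, coeff_C_mul, show a + 1 + b = a + b + 1 by ring, coeff_X_mul,
        show a + (b + 1) = a + b + 1 by ring]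
    have h1 := ih (b + 1)
    have h0 := ih b
    rw [hrec]
    rw [show a + (b + 1) = a + b + 1 by ring] at h1
    rw [show a + 1 + b = a + b + 1 by ring, show 2 * (a + 1) = 2 * a + 1 + 1 by ring]
    rw [show 2 * (b + 1) = 2 * b + 1 + 1 by ring] at h1
    simp only [Nat.factorial_succ] at h1 ⊢
    push_cast at h1 ⊢
    have hb1 : ((b : ℝ) + 1) ≠ 0 := by positivity
    apply mul_left_cancel₀ hb1
    linear_combination ((a : ℝ) + 1) * h1 -
      4 * ((a : ℝ) + 1) * ((b : ℝ) + 1) * ((a : ℝ) + b + 1) * h0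

/-- The average over the arrangements with `j` letters `Q`. -/
noncomputable def arr {α : Type*} (P Q : Fin N → α → ℝ) (j : ℕ) (x : Fin N → α) : ℝ :=
  ((N.choose j : ℕ) : ℝ)⁻¹ *
    ∑ T ∈ (univ : Finset (Fin N)).powersetCard j, ∏ i, if i ∈ T then Q i (x i) else P i (x i)

theorem sum_mul_geom_le {y : ℝ} (h0 : 0 ≤ y) (h1 : y < 1) (n : ℕ) :
    ∑ a ∈ range n, ((a : ℝ) + 1) * y ^ a ≤ 1 / (1 - y) ^ 2 := by
  have key : (1 - y) ^ 2 * ∑ a ∈ range n, ((a : ℝ) + 1) * y ^ a =
      1 - ((n : ℝ) + 1) * y ^ n + n * y ^ (n + 1) := by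
    induction n with
    | zero => simp
    | succ n ih => rw [sum_range_succ, mul_add, ih]; push_cast; ring
  rw [le_div_iff₀ (by nlinarith), mul_comm, key]
  have : y ^ (n + 1) ≤ y ^ n := pow_le_pow_of_le_one h0 h1.le (by omega)
  nlinarith [pow_nonneg h0 n, Nat.cast_nonneg (α := ℝ) n]

/-- **Urn bound.** -/
theorem urn {α : Type*} (S : Fin N → Finset α) (P Q : Fin N → α → ℝ) {K : ℕ}
    (hN : N + 1 = 2 * K) (hP : ∀ i a, 0 ≤ P i a) (hQ : ∀ i a, 0 ≤ Q i a)
    (hP1 : ∀ i, ∑ a ∈ S i, P i a = 1) (hQ1 : ∀ i, ∑ a ∈ S i, Q i a = 1)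
    {θ : ℝ} (hθ0 : 0 ≤ θ) (hθ : θ < 1) (hd : ∀ i, ∑ a ∈ S i, |Q i a - P i a| ≤ 2 * θ) :
    ∑ x ∈ Fintype.piFinset S, |arr P Q K x - arr P Q (K - 1) x| ≤
      2 / ((1 - θ) * Real.sqrt K) := by
  classical
  have hK : 1 ≤ K := by omega
  set R := fun i a => (P i a + Q i a) / 2 with hR
  set g := fun i a => (Q i a - P i a) / (P i a + Q i a) with hg
  have hR0 : ∀ i a, 0 ≤ R i a := fun i a => by
    simp only [hR]; linarith [hP i a, hQ i a]
  have hR1 : ∀ i, ∑ a ∈ S i, R i a = 1 := fun i => by
    simp only [hR, ← sum_div, sum_add_distrib, hP1, hQ1]; norm_num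
  have hgR : ∀ i a, R i a * g i a = (Q i a - P i a) / 2 := fun i a => by
    rcases eq_or_ne (P i a + Q i a) 0 with h | h
    · have : P i a = 0 ∧ Q i a = 0 := by constructor <;> linarith [hP i a, hQ i a]
      simp [hR, hg, this.1, this.2]
    · simp only [hR, hg]; field_simp
  have hg1 : ∀ i a, |g i a| ≤ 1 := fun i a => by
    rcases eq_or_ne (P i a + Q i a) 0 with h | h
    · simp [hg, h]
    · simp only [hg, abs_div]
      rw [div_le_one (by positivity), abs_of_nonneg (a := P i a + Q i a) (by linarith [hP i a, hQ i a])]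
      exact abs_sub_le_iff.2 ⟨by linarith [hP i a], by linarith [hQ i a]⟩
  have hmean : ∀ i, ∑ a ∈ S i, R i a * g i a = 0 := fun i => by
    simp only [hgR, ← sum_div, sum_sub_distrib, hP1, hQ1]; norm_num
  have hv : ∀ i, ∑ a ∈ S i, R i a * g i a ^ 2 ≤ θ := fun i => by
    calc ∑ a ∈ S i, R i a * g i a ^ 2 = ∑ a ∈ S i, (Q i a - P i a) / 2 * g i a :=
          Finset.sum_congr rfl fun a _ => by rw [← hgR]; ring
      _ ≤ ∑ a ∈ S i, |Q i a - P i a| / 2 := Finset.sum_le_sum fun a _ => by
          refine (le_abs_self _).trans ?_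
          rw [abs_mul, abs_div, abs_two]
          exact mul_le_of_le_one_right (by positivity) (hg1 i a)
      _ ≤ θ := by rw [← sum_div]; linarith [hd i]
  set Cn : ℝ := ((N.choose K : ℕ) : ℝ) with hCn
  have hCpos : 0 < Cn := by
    rw [hCn]; exact_mod_cast Nat.choose_pos (by omega)
  have hCsymm : ((N.choose (K - 1) : ℕ) : ℝ) = Cn := by
    rw [hCn]; congr 1
    conv_rhs => rw [← Nat.choose_symm (show K ≤ N by omega)]
    congr 1; omega
  set c := fun U : Finset (Fin N) => (kraw U K - kraw U (K - 1)) / Cn with hc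
  set G := fun (U : Finset (Fin N)) (x : Fin N → α) => ∏ i ∈ U, g i (x i) with hG
  set W := fun x : Fin N → α => ∏ i, R i (x i) with hW
  -- expansion
  have hexp : ∀ x, arr P Q K x - arr P Q (K - 1) x = W x * ∑ U, c U * G U x := by
    intro x
    have hT : ∀ T : Finset (Fin N), (∏ i, if i ∈ T then Q i (x i) else P i (x i)) =
        ∑ U : Finset (Fin N), (-1) ^ #(U \ T) * (W x * G U x) := by
      intro T
      have e : ∀ i, (if i ∈ T then Q i (x i) else P i (x i)) =
          (if i ∈ T then (1 : ℝ) else -1) * g i (x i) * R i (x i) + R i (x i) := fun i => by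
        have := hgR i (x i)
        simp only [hR] at this ⊢
        split_ifs <;> nlinarith
      simp only [e, Finset.prod_add, Finset.powerset_univ]
      refine Finset.sum_congr rfl fun U _ => ?_
      rw [prod_mul_distrib, prod_mul_distrib, mul_assoc, Finset.prod_ite, prod_const, prod_const,
        one_pow, one_mul, show U.filter (fun i => i ∉ T) = U \ T by ext i; simp]
      simp only [hW, hG]
      rw [← Finset.prod_sdiff (s₁ := U) (s₂ := univ) (subset_univ _)]
      ring
    simp only [arr, hCsymm, hT, ← hCn]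
    rw [sum_comm, sum_comm (s := (univ : Finset (Fin N)).powersetCard (K - 1)), ← mul_sub,
      ← sum_sub_distrib, mul_sum, mul_sum]
    refine Finset.sum_congr rfl fun U _ => ?_
    simp only [hc, kraw, ← sum_mul]
    field_simp
  -- orthogonality
  have horth : ∀ U V : Finset (Fin N), ∑ x ∈ Fintype.piFinset S, W x * (G U x * G V x) =
      if U = V then ∏ i ∈ U, ∑ a ∈ S i, R i a * g i a ^ 2 else 0 := by
    intro U V
    have e : ∀ x, W x * (G U x * G V x) = ∏ i, R i (x i) *
        ((if i ∈ U then g i (x i) else 1) * if i ∈ V then g i (x i) else 1) := fun x => by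
      simp only [hW, hG, prod_mul_distrib, Finset.prod_ite_mem, univ_inter]
    simp only [e]
    rw [← Finset.prod_univ_sum (t := S) (f := fun i a => R i a *
      ((if i ∈ U then g i a else 1) * if i ∈ V then g i a else 1))]
    split_ifs with h
    · subst h
      rw [← Finset.prod_subset (subset_univ U) (f := fun i => ∑ a ∈ S i, R i a *
        ((if i ∈ U then g i a else 1) * if i ∈ U then g i a else 1)) fun i _ hi => by
          simp [hi, hR1]]
      exact Finset.prod_congr rfl fun i hi => by simp [hi, sq]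
    · obtain ⟨i, hi⟩ : ∃ i, ¬ (i ∈ U ↔ i ∈ V) := by
        by_contra hcon
        push Not at hcon
        exact h (Finset.ext hcon)
      refine Finset.prod_eq_zero (mem_univ i) ?_
      by_cases hU : i ∈ U
      · have : i ∉ V := fun hV => hi ⟨fun _ => hV, fun _ => hU⟩
        simp [hU, this, hmean]
      · have : i ∈ V := by_contra fun hV => hi ⟨fun h' => absurd h' hU, fun h' => absurd h' hV⟩
        simp [hU, this, hmean]
  -- Cauchy-Schwarz
  have hW1 : ∑ x ∈ Fintype.piFinset S, W x = 1 := by
    rw [hW, ← Finset.prod_univ_sum]; simp [hR1]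
  have hW0 : ∀ x, 0 ≤ W x := fun x => prod_nonneg fun i _ => hR0 _ _
  have hsq : ∑ x ∈ Fintype.piFinset S, W x * (∑ U, c U * G U x) ^ 2 ≤
      ∑ U : Finset (Fin N), c U ^ 2 * θ ^ #U := by
    have e : ∀ x, W x * (∑ U, c U * G U x) ^ 2 =
        ∑ U, ∑ V, c U * c V * (W x * (G U x * G V x)) := fun x => by
      rw [sq, sum_mul_sum, mul_sum]
      refine Finset.sum_congr rfl fun U _ => ?_
      rw [mul_sum]
      exact Finset.sum_congr rfl fun V _ => by ring
    simp only [e]
    rw [sum_comm]
    refine Finset.sum_le_sum fun U _ => ?_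
    rw [sum_comm]
    simp only [← mul_sum, horth, mul_ite, mul_zero, sum_ite_eq, mem_univ, if_true]
    rw [← sq]
    refine mul_le_mul_of_nonneg_left ?_ (sq_nonneg _)
    rw [← prod_const θ]
    exact Finset.prod_le_prod (fun i _ => sum_nonneg fun a _ =>
      mul_nonneg (hR0 i a) (sq_nonneg _)) fun i _ => hv i
  -- the coefficients
  have hneg : ∀ U : Finset (Fin N), kraw U (K - 1) = (-1) ^ #U * kraw U K := fun U => by
    rw [← kraw_compl U (show K ≤ N by omega)]; congr 1; omega
  have heven : ∀ U : Finset (Fin N), Even #U → c U = 0 := fun U hU => by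
    simp [hc, hneg, hU.neg_one_pow]
  have hodd : ∀ (U : Finset (Fin N)) (a : ℕ), #U = 2 * a + 1 →
      c U ^ 2 * (N.choose #U : ℕ) ≤ 4 * ((a : ℝ) + 1) / K := by
    intro U a hUa
    have hUN : #U ≤ N := by simpa using card_le_univ U
    obtain ⟨b, rfl⟩ : ∃ b, K = a + 1 + b := ⟨K - (a + 1), by omega⟩
    have hNU : N - #U = 2 * b := by omega
    have hF : kraw U (a + 1 + b) - kraw U (a + 1 + b - 1) =
        -(((X : ℝ[X]) - 1) ^ (2 * (a + 1)) * (X + 1) ^ (2 * b)).coeff (a + 1 + b) := by
      rw [kraw_poly, kraw_poly, hUa, show N - (2 * a + 1) = 2 * b by omega,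
        show ((X : ℝ[X]) - 1) ^ (2 * (a + 1)) * (X + 1) ^ (2 * b) =
          X * ((X - 1) ^ (2 * a + 1) * (X + 1) ^ (2 * b)) -
            (X - 1) ^ (2 * a + 1) * (X + 1) ^ (2 * b) by ring,
        coeff_sub, show a + 1 + b - 1 = a + b by omega, show a + 1 + b = a + b + 1 by ring,
        coeff_X_mul]
      ring
    have hm := middle_coeff (a + 1) b
    set K := a + 1 + b with hKdef
    have hNc : ((N.choose K : ℕ) : ℝ) * 2 * (K.factorial * K.factorial) = (2 * K).factorial := by
      have h1 : 2 * N.choose K = (2 * K).choose K := by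
        rw [show (2 * K).choose K = (N + 1).choose (K - 1 + 1) by
          rw [hN, show K - 1 + 1 = K by omega], Nat.choose_succ_succ',
          show K - 1 + 1 = K by omega]
        have := Nat.choose_symm (show K ≤ N by omega)
        rw [show N - K = K - 1 by omega] at this
        omega
      have h2 := Nat.choose_mul_factorial_mul_factorial (show K ≤ 2 * K by omega)
      rw [show 2 * K - K = K by omega, ← h1] at h2
      have h3 : ((2 * N.choose K * K.factorial * K.factorial : ℕ) : ℝ) = (2 * K).factorial := by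
        exact_mod_cast h2
      push_cast at h3
      linarith
    have hch : (N.choose #U : ℝ) * (2 * K) = ((2 * K).choose (2 * (a + 1))) * (2 * (a + 1)) := by
      have := Nat.add_one_mul_choose_eq N (2 * a + 1)
      rw [hN] at this
      rw [hUa, show 2 * (a + 1) = 2 * a + 1 + 1 by ring]
      have h' : ((2 * K * N.choose (2 * a + 1) : ℕ) : ℝ) =
          (((2 * K).choose (2 * a + 1 + 1) * (2 * a + 1 + 1) : ℕ) : ℝ) := by rw [this]
      push_cast at h'
      linarith
    -- the value of the coefficient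
    have hval : |c U| * ((2 * K).choose (2 * (a + 1)) : ℕ) = 2 * (K.choose (a + 1) : ℕ) := by
      have hcU : c U * Cn = -(((X : ℝ[X]) - 1) ^ (2 * (a + 1)) * (X + 1) ^ (2 * b)).coeff K := by
        simp only [hc]
        rw [div_mul_cancel₀ _ hCpos.ne', hF]
      set F := (((X : ℝ[X]) - 1) ^ (2 * (a + 1)) * (X + 1) ^ (2 * b)).coeff K with hFdef
      have hA := Nat.choose_mul_factorial_mul_factorial (show 2 * (a + 1) ≤ 2 * K by omega)
      rw [show 2 * K - 2 * (a + 1) = 2 * b by omega] at hA
      have hB := Nat.choose_mul_factorial_mul_factorial (show a + 1 ≤ K by omega)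
      rw [show K - (a + 1) = b by omega] at hB
      have hA' : (((2 * K).choose (2 * (a + 1)) : ℕ) : ℝ) * (2 * (a + 1)).factorial *
          (2 * b).factorial = (2 * K).factorial := by exact_mod_cast hA
      have hB' : ((K.choose (a + 1) : ℕ) : ℝ) * (a + 1).factorial * b.factorial = K.factorial := by
        exact_mod_cast hB
      have habs : |F| * ((a + 1).factorial * b.factorial * K.factorial) =
          (2 * (a + 1)).factorial * (2 * b).factorial := by
        calc |F| * ((a + 1).factorial * b.factorial * K.factorial)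
            = |F * ((a + 1).factorial * b.factorial * K.factorial)| := by
              rw [abs_mul F, abs_of_nonneg (show (0 : ℝ) ≤
                (a + 1).factorial * b.factorial * K.factorial by positivity)]
          _ = _ := by
              rw [hm, abs_mul, abs_pow, abs_neg, abs_one, one_pow, one_mul, abs_of_nonneg]
              positivity
      have hcabs : |c U| * Cn = |F| := by
        rw [← abs_of_pos hCpos, ← abs_mul, hcU, abs_neg]
      have hpos : 0 < Cn * (((a + 1).factorial : ℝ) * b.factorial * K.factorial) := by positivity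
      apply mul_right_cancel₀ hpos.ne'
      calc |c U| * ((2 * K).choose (2 * (a + 1)) : ℕ) *
            (Cn * (((a + 1).factorial : ℝ) * b.factorial * K.factorial))
          = ((2 * K).choose (2 * (a + 1)) : ℕ) *
              (|F| * (((a + 1).factorial : ℝ) * b.factorial * K.factorial)) := by
            rw [← hcabs]; ring
        _ = (2 * K).factorial := by rw [habs, ← hA']; ring
        _ = Cn * 2 * (K.factorial * ((K.choose (a + 1) : ℕ) * (a + 1).factorial * b.factorial)) := by
            rw [hB', ← hNc, hCn]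
        _ = _ := by ring
    have hsqle : ((K.choose (a + 1) : ℕ) : ℝ) ^ 2 ≤ ((2 * K).choose (2 * (a + 1)) : ℕ) := by
      have h := Nat.add_choose_eq K K (2 * (a + 1))
      rw [show K + K = 2 * K by ring] at h
      have hle : K.choose (a + 1) * K.choose (a + 1) ≤ (2 * K).choose (2 * (a + 1)) := by
        rw [h]
        refine Finset.single_le_sum (f := fun ij : ℕ × ℕ => K.choose ij.1 * K.choose ij.2)
          (fun ij _ => Nat.zero_le _) (a := (a + 1, a + 1)) ?_
        simp; ring
      rw [sq]
      exact_mod_cast hle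
    have hKpos : (0 : ℝ) < K := by exact_mod_cast (show 0 < K by omega)
    have hBp : (0 : ℝ) < ((2 * K).choose (2 * (a + 1)) : ℕ) := by
      exact_mod_cast Nat.choose_pos (by omega)
    rw [le_div_iff₀ hKpos]
    refine le_of_mul_le_mul_right ?_ hBp
    calc c U ^ 2 * (N.choose #U : ℕ) * K * ((2 * K).choose (2 * (a + 1)) : ℕ)
        = (|c U| * ((2 * K).choose (2 * (a + 1)) : ℕ)) ^ 2 * ((a : ℝ) + 1) := by
          rw [mul_pow, sq_abs]; linear_combination (c U ^ 2 *
            ((2 * K).choose (2 * (a + 1)) : ℕ) / 2) * hch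
      _ = 4 * ((K.choose (a + 1) : ℕ) : ℝ) ^ 2 * ((a : ℝ) + 1) := by rw [hval]; ring
      _ ≤ _ := by
          calc 4 * ((K.choose (a + 1) : ℕ) : ℝ) ^ 2 * ((a : ℝ) + 1)
              ≤ 4 * ((2 * K).choose (2 * (a + 1)) : ℕ) * ((a : ℝ) + 1) := by gcongr
            _ = _ := by ring
  have hcoef : ∑ U : Finset (Fin N), c U ^ 2 * θ ^ #U ≤ 4 / (K * (1 - θ) ^ 2) := by
    rw [← Finset.powerset_univ, Finset.sum_powerset, card_univ, Fintype.card_fin,
      show N + 1 = 2 * K from hN]
    have hlevel : ∀ t, ∑ U ∈ (univ : Finset (Fin N)).powersetCard t, c U ^ 2 * θ ^ #U ≤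
        if Even t then 0 else 4 * (((t / 2 : ℕ) : ℝ) + 1) / K * θ ^ t := by
      intro t
      split_ifs with ht
      · exact le_of_eq (Finset.sum_eq_zero fun U hU => by
          simp [heven U ((mem_powersetCard.1 hU).2.symm ▸ ht)])
      · obtain ⟨a, rfl⟩ := Nat.not_even_iff_odd.1 ht
        rcases le_or_gt (2 * a + 1) N with hle | hgt
        · have hne : (0 : ℝ) < (N.choose (2 * a + 1) : ℕ) := by
            exact_mod_cast Nat.choose_pos hle
          refine (Finset.sum_le_card_nsmul _ _
            (4 * ((a : ℝ) + 1) / K / (N.choose (2 * a + 1) : ℕ) * θ ^ (2 * a + 1))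
            fun U hU => ?_).trans (le_of_eq ?_)
          · have hcard := (mem_powersetCard.1 hU).2
            rw [hcard]
            refine mul_le_mul_of_nonneg_right ?_ (by positivity)
            rw [le_div_iff₀ hne, ← hcard]
            exact hodd U a hcard
          · rw [card_powersetCard, card_univ, Fintype.card_fin, nsmul_eq_mul,
              show (2 * a + 1) / 2 = a by omega]
            field_simp
        · rw [powersetCard_eq_empty.2 (by simpa using hgt), sum_empty]
          positivity
    refine (Finset.sum_le_sum fun t _ => hlevel t).trans ?_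
    have hpair : ∀ m : ℕ, ∑ t ∈ range (2 * m),
        (if Even t then 0 else 4 * (((t / 2 : ℕ) : ℝ) + 1) / K * θ ^ t) =
          4 * θ / K * ∑ a ∈ range m, ((a : ℝ) + 1) * (θ ^ 2) ^ a := by
      intro m
      induction m with
      | zero => simp
      | succ m ih =>
        rw [show 2 * (m + 1) = 2 * m + 1 + 1 by ring, sum_range_succ, sum_range_succ, ih,
          sum_range_succ, if_pos (even_two_mul m), if_neg (Nat.not_even_bit1 m),
          show (2 * m + 1) / 2 = m by omega, ← pow_mul]
        ring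
    rw [hpair]
    have hy : θ ^ 2 < 1 := by nlinarith
    refine (mul_le_mul_of_nonneg_left (sum_mul_geom_le (sq_nonneg θ) hy K) (by positivity)).trans ?_
    have hKpos : (0 : ℝ) < K := by exact_mod_cast (show 0 < K by omega)
    have h1 : θ * (1 - θ) ^ 2 ≤ (1 - θ ^ 2) ^ 2 := by
      rw [show (1 - θ ^ 2) ^ 2 = (1 + θ) ^ 2 * (1 - θ) ^ 2 by ring]
      gcongr
      nlinarith
    rw [div_mul_div_comm, mul_one, div_le_div_iff₀ (by positivity) (by positivity)]
    nlinarith [mul_le_mul_of_nonneg_left h1 hKpos.le]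
  calc ∑ x ∈ Fintype.piFinset S, |arr P Q K x - arr P Q (K - 1) x|
      = ∑ x ∈ Fintype.piFinset S, W x * |∑ U, c U * G U x| :=
        Finset.sum_congr rfl fun x _ => by rw [hexp, abs_mul, abs_of_nonneg (hW0 x)]
    _ ≤ Real.sqrt (4 / (K * (1 - θ) ^ 2)) := by
        refine Real.le_sqrt_of_sq_le ?_
        calc _ ≤ (∑ x ∈ Fintype.piFinset S, W x) *
              ∑ x ∈ Fintype.piFinset S, W x * (∑ U, c U * G U x) ^ 2 := by
              refine sum_sq_le_sum_mul_sum_of_sq_le_mul _ (fun x _ => hW0 x)
                (fun x _ => mul_nonneg (hW0 x) (sq_nonneg _)) fun x _ => le_of_eq ?_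
              rw [mul_pow, sq_abs]; ring
          _ ≤ _ := by rw [hW1, one_mul]; exact hsq.trans hcoef
    _ = 2 / ((1 - θ) * Real.sqrt K) := by
        rw [Real.sqrt_div (by norm_num), Real.sqrt_mul (Nat.cast_nonneg _),
          Real.sqrt_sq (by linarith), show (4 : ℝ) = 2 ^ 2 by norm_num, Real.sqrt_sq zero_le_two,
          mul_comm (Real.sqrt _)]

end Vale.Agent.P321.Super
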