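import Vale.Agent.P321.Super.Basic
import Vale.Agent.P321.Super.UrnBound

/-!
# P321: forgetting of the length of a power

If one step `Z^n₀ → Z^(n₀+1)` does not move the law completely, then `Z^N → Z^(N+1)` moves it by
`O(√(n₀/N))`.
-/

namespace Vale.Agent.P321.Super

open Finset
open MonoidAlgebra (single)

/-- The product of finitely supported measures, as a sum over the product of the supports. -/
theorem prod_ofFn_sum : ∀ (N : ℕ) (S : Fin N → Finset W) (f : Fin N → W → ℝ),
    (List.ofFn fun i => ∑ a ∈ S i, single a (f i a)).prod =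
      ∑ x ∈ Fintype.piFinset S, single (List.ofFn x).prod (∏ i, f i (x i))
  | 0, S, f => by simp [MonoidAlgebra.one_def]
  | N + 1, S, f => by
    rw [List.ofFn_succ, List.prod_cons, prod_ofFn_sum N (fun i => S i.succ) fun i => f i.succ,
      Finset.sum_mul_sum, ← Finset.sum_product']
    refine Finset.sum_nbij' (fun y => Fin.cons y.1 y.2) (fun x => (x 0, Fin.tail x)) ?_ ?_ ?_ ?_ ?_
    · intro y hy
      simp only [mem_product, Fintype.mem_piFinset] at hy ⊢
      intro i
      induction i using Fin.cases with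
      | zero => simpa using hy.1
      | succ i => simpa using hy.2 i
    · intro x hx
      simp only [mem_product, Fintype.mem_piFinset] at hx ⊢
      exact ⟨hx 0, fun i => hx i.succ⟩
    · intro y _; simp
    · intro x _; simp
    · intro y _
      simp [MonoidAlgebra.single_mul_single, List.ofFn_succ, Fin.prod_univ_succ]

theorem prod_ofFn_pow (Z : Msr) : ∀ (N : ℕ) (e : Fin N → ℕ),
    (List.ofFn fun i => Z ^ e i).prod = Z ^ ∑ i, e i
  | 0, e => by simp
  | N + 1, e => by
    rw [List.ofFn_succ, List.prod_cons, prod_ofFn_pow Z N fun i => e i.succ, Fin.sum_univ_succ,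
      pow_add]

theorem l1_pow_sub_le {Z : Msr} (hZ : IsProb Z) {n₀ K : ℕ} (hK : 1 ≤ K) {θ : ℝ} (hθ : θ < 1)
    (hd : l1 (Z ^ (n₀ + 1) - Z ^ n₀) ≤ 2 * θ) :
    l1 (Z ^ ((2 * K - 1) * n₀ + K) - Z ^ ((2 * K - 1) * n₀ + (K - 1))) ≤
      2 / ((1 - θ) * Real.sqrt K) := by
  classical
  have hθ0 : 0 ≤ θ := by linarith [l1_nonneg (Z ^ (n₀ + 1) - Z ^ n₀)]
  set P := (Z ^ n₀).coeff with hP
  set Q := (Z ^ (n₀ + 1)).coeff with hQ
  set S := (Z ^ n₀).coeff.support ∪ (Z ^ (n₀ + 1)).coeff.support with hS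
  have eP : ∑ a ∈ S, single a (P a) = Z ^ n₀ := by
    conv_rhs => rw [expand (Z ^ n₀)]
    exact (Finset.sum_subset subset_union_left fun t _ ht => by
      simp [hP, Finsupp.notMem_support_iff.1 ht]).symm
  have eQ : ∑ a ∈ S, single a (Q a) = Z ^ (n₀ + 1) := by
    conv_rhs => rw [expand (Z ^ (n₀ + 1))]
    exact (Finset.sum_subset subset_union_right fun t _ ht => by
      simp [hQ, Finsupp.notMem_support_iff.1 ht]).symm
  have hbound := urn (N := 2 * K - 1) (fun _ => S) (fun _ => P) (fun _ => Q) (K := K) (by omega)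
    (fun _ a => (hZ.pow n₀).nonneg a) (fun _ a => (hZ.pow (n₀ + 1)).nonneg a)
    (fun _ => by rw [← mass_eq_sum subset_union_left]; exact (hZ.pow n₀).mass_one)
    (fun _ => by rw [← mass_eq_sum subset_union_right]; exact (hZ.pow _).mass_one)
    hθ0 hθ fun _ => by
      refine le_trans (le_of_eq ?_) hd
      have hsub : (Z ^ (n₀ + 1) - Z ^ n₀).coeff.support ⊆ S := by
        rw [MonoidAlgebra.coeff_sub, hS, union_comm]
        exact Finsupp.support_sub
      rw [l1_eq_sum hsub]
      simp [hP, hQ]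
  have hpush : ∀ j ≤ 2 * K - 1, ∑ x ∈ Fintype.piFinset fun _ : Fin (2 * K - 1) => S,
      single (List.ofFn x).prod (arr (fun _ => ⇑P) (fun _ => ⇑Q) j x) =
        Z ^ ((2 * K - 1) * n₀ + j) := by
    intro j hj
    have hT : ∀ T ∈ (univ : Finset (Fin (2 * K - 1))).powersetCard j,
        ∑ x ∈ Fintype.piFinset fun _ : Fin (2 * K - 1) => S,
          single (List.ofFn x).prod (∏ i, if i ∈ T then Q (x i) else P (x i)) =
            Z ^ ((2 * K - 1) * n₀ + j) := by
      intro T hT
      rw [← prod_ofFn_sum _ _ fun i a => if i ∈ T then Q a else P a]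
      have e : (fun i : Fin (2 * K - 1) => ∑ a ∈ S, single a (if i ∈ T then Q a else P a)) =
          fun i => Z ^ (n₀ + if i ∈ T then 1 else 0) := funext fun i => by
        split_ifs
        exacts [eQ, eP]
      rw [e, prod_ofFn_pow, sum_add_distrib, sum_const, card_univ, Fintype.card_fin, smul_eq_mul,
        Finset.sum_boole, Nat.cast_id]
      congr 2
      rw [← (mem_powersetCard.1 hT).2]
      congr 1
      ext i
      simp
    have hsum : ∀ x : Fin (2 * K - 1) → W, single (List.ofFn x).prod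
        (arr (fun _ => ⇑P) (fun _ => ⇑Q) j x) = (((2 * K - 1).choose j : ℕ) : ℝ)⁻¹ •
          ∑ T ∈ (univ : Finset (Fin (2 * K - 1))).powersetCard j,
            single (List.ofFn x).prod (∏ i, if i ∈ T then Q (x i) else P (x i)) := fun x => by
      rw [arr, ← MonoidAlgebra.smul_single']
      congr 1
      exact map_sum (MonoidAlgebra.singleAddHom _) _ _
    rw [Finset.sum_congr rfl fun x _ => hsum x, ← Finset.smul_sum, Finset.sum_comm,
      Finset.sum_congr rfl hT, sum_const, card_powersetCard, card_univ, Fintype.card_fin,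
      ← Nat.cast_smul_eq_nsmul ℝ, smul_smul, inv_mul_cancel₀, one_smul]
    exact_mod_cast (Nat.choose_pos hj).ne'
  rw [← hpush K (by omega), ← hpush (K - 1) (by omega), ← sum_sub_distrib]
  refine ((l1_sum_le _ _).trans (Finset.sum_le_sum fun x _ => le_of_eq ?_)).trans hbound
  rw [← MonoidAlgebra.single_sub, l1_single]

/-- **Length forgetting.** -/
theorem pow_step {θ : ℝ} (hθ : θ < 1) : ∃ C : ℝ, 0 ≤ C ∧ ∀ Z : Msr, IsProb Z → ∀ n₀ : ℕ, 1 ≤ n₀ →
    l1 (Z ^ (n₀ + 1) - Z ^ n₀) ≤ 2 * θ → ∀ N d : ℕ, n₀ ≤ N →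
      l1 (Z ^ (N + d) - Z ^ N) ≤ C * d * Real.sqrt (n₀ / N) := by
  have h1θ : 0 < 1 - θ := by linarith
  refine ⟨2 * Real.sqrt 6 / (1 - θ), by positivity, fun Z hZ n₀ hn₀ hd N d hN => ?_⟩
  set C := 2 * Real.sqrt 6 / (1 - θ) with hC
  have hC0 : 0 ≤ C := by positivity
  have hone : ∀ M, n₀ ≤ M → l1 (Z ^ (M + 1) - Z ^ M) ≤ C * Real.sqrt (n₀ / M) := by
    intro M hM
    set K := (M + n₀ + 1) / (2 * n₀ + 1) with hK
    have hK1 : 1 ≤ K := (Nat.one_le_div_iff (by omega)).2 (by omega)
    have hlo : K * (2 * n₀ + 1) ≤ M + n₀ + 1 := Nat.div_mul_le_self _ _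
    have hhi : M + n₀ + 1 < (K + 1) * (2 * n₀ + 1) := by
      rw [mul_comm]; exact Nat.lt_mul_div_succ _ (by omega)
    have hlen : (2 * K - 1) * n₀ + K ≤ M + 1 := by
      have : (2 * K - 1) * n₀ + n₀ = 2 * K * n₀ := by
        rw [← add_one_mul, Nat.sub_add_cancel (by omega)]
      linarith
    obtain ⟨r, hr⟩ := Nat.exists_eq_add_of_le hlen
    have hM0 : M = r + ((2 * K - 1) * n₀ + (K - 1)) := by omega
    have hsplit : Z ^ (M + 1) - Z ^ M =
        Z ^ r * (Z ^ ((2 * K - 1) * n₀ + K) - Z ^ ((2 * K - 1) * n₀ + (K - 1))) := by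
      rw [mul_sub, ← pow_add, ← pow_add, ← hM0, add_comm r, ← hr]
    rw [hsplit]
    refine (l1_mul_prob_left (hZ.pow r) _).trans ((l1_pow_sub_le hZ hK1 hθ hd).trans ?_)
    have hKle : (M : ℝ) ≤ 6 * n₀ * K := by
      have : M ≤ 6 * n₀ * K := by nlinarith
      exact_mod_cast this
    have hKpos : (0 : ℝ) < K := by exact_mod_cast (show 0 < K by omega)
    have hMpos : (0 : ℝ) < M := by exact_mod_cast (show 0 < M by omega)
    have key : 1 ≤ Real.sqrt 6 * Real.sqrt (n₀ / M) * Real.sqrt K := by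
      rw [← Real.sqrt_mul (by norm_num), ← Real.sqrt_mul (by positivity), Real.one_le_sqrt,
        mul_div_assoc', div_mul_eq_mul_div, one_le_div hMpos]
      exact hKle
    rw [div_le_iff₀ (by positivity), hC]
    field_simp
    nlinarith
  induction d with
  | zero => simp
  | succ d ih =>
    calc l1 (Z ^ (N + (d + 1)) - Z ^ N)
        = l1 ((Z ^ (N + d + 1) - Z ^ (N + d)) + (Z ^ (N + d) - Z ^ N)) := by
          rw [sub_add_sub_cancel, ← add_assoc]
      _ ≤ l1 (Z ^ (N + d + 1) - Z ^ (N + d)) + l1 (Z ^ (N + d) - Z ^ N) := l1_add_le _ _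
      _ ≤ C * Real.sqrt (n₀ / N) + C * d * Real.sqrt (n₀ / N) := by
          refine add_le_add ((hone _ (by omega)).trans ?_) ih
          gcongr
          · exact_mod_cast (show 0 < N by omega)
          · simp
      _ = C * ((d + 1 : ℕ) : ℝ) * Real.sqrt (n₀ / N) := by push_cast; ring

end Vale.Agent.P321.Super
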