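import Vale.Agent.P321.Super.Comb
import Vale.Agent.P321.Super.Urn
import Vale.Agent.P321.Super.Defs

/-!
# P321: the ground blocks of the first level forget their number
-/

namespace Vale.Agent.P321.Super

open Finset

/-- Powers of the ground block of the first level lose one block at rate `√(L / N)`. -/
theorem base_forget {p : ℝ} (h0 : 0 < p) (h1 : p < 1) : ∃ C : ℝ, 0 ≤ C ∧ ∃ L0 : ℕ,
    ∀ S A : ℕ, 1 ≤ S → 1 ≤ A → L0 ≤ (2 * A + 1) * S → ∀ N d : ℕ, (2 * A + 1) * S ≤ N →
      l1 ((base p S A).Z ^ (N + d) - (base p S A).Z ^ N) ≤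
        C * d * Real.sqrt (((2 * A + 1) * S : ℕ) / (N : ℝ)) := by
  obtain ⟨θ, hθ, L0, hL0⟩ := comb_step h0 h1
  obtain ⟨C, hC, hpow⟩ := pow_step hθ
  refine ⟨C, hC, L0, fun S A hS hA hL N d hN => ?_⟩
  have hZ : (base p S A).Z =
      (letter p false * letter p true) ^ (S * A + S / 2) * letter p true *
        (letter p false * letter p true) ^ (S * A + (S - 1 - S / 2)) := by
    simp only [Lev.Z, base, defect, s0, dd, ← pow_mul, pow_add, mul_assoc]
    rw [← pow_add, ← pow_add]
    congr 3
    ring_nf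
  have hsum : (2 * A + 1) * S = 2 * (S * A) + S := by ring
  have hSA : S ≤ S * A := Nat.le_mul_of_pos_right S hA
  have hp : IsProb (base p S A).Z := by
    have s := (isProb_letter h0.le h1.le false).mul (isProb_letter h0.le h1.le true)
    rw [hZ]
    exact ((s.pow _).mul (isProb_letter h0.le h1.le true)).mul (s.pow _)
  refine hpow _ hp _ (by omega) ?_ N d hN
  rw [hZ]
  exact hL0 _ hL _ _ (by omega) (by omega) (by omega)

end Vale.Agent.P321.Super
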