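import Vale.Agent.P321.Super.Words

/-!
# P321: the linear part of a Thue-Morse difference

Each doubling is a commutator with a power of the ground block, so each gains one first difference
of a power of the ground block.
-/

namespace Vale.Agent.P321.Super

open Finset

theorem l1_commutator_le {Z : Msr} (hZ : IsProb Z) (X : Msr) {a₁ a₂ b₁ b₂ n : ℕ} {δ : ℝ}
    (ha : l1 (Z ^ (a₁ + n) - Z ^ a₁) ≤ δ) (hb : l1 (Z ^ (b₁ + n) - Z ^ b₁) ≤ δ) :
    l1 (Z ^ (a₁ + a₂) * (X * Z ^ n - Z ^ n * X) * Z ^ (b₂ + b₁)) ≤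
      2 * δ * l1 (Z ^ a₂ * X * Z ^ b₂) := by
  set M := Z ^ a₂ * X * Z ^ b₂ with hM
  have e : Z ^ (a₁ + a₂) * (X * Z ^ n - Z ^ n * X) * Z ^ (b₂ + b₁) =
      -((Z ^ (a₁ + n) - Z ^ a₁) * M * Z ^ (b₁ + n)) + Z ^ (a₁ + n) * M * (Z ^ (b₁ + n) - Z ^ b₁) := by
    have c : ∀ u w : ℕ, Z ^ u * Z ^ w = Z ^ w * Z ^ u := fun u w => by
      rw [← pow_add, ← pow_add, add_comm]
    simp only [hM, mul_sub, sub_mul, pow_add, mul_assoc]
    rw [← mul_assoc (Z ^ a₂) (Z ^ n), c a₂ n, mul_assoc (Z ^ n) (Z ^ a₂),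
      ← mul_assoc (Z ^ n) (Z ^ b₂), c n b₂, mul_assoc (Z ^ b₂) (Z ^ n), c b₁ n]
    abel
  rw [e]
  refine (l1_add_le _ _).trans ?_
  rw [l1_neg, two_mul δ, add_mul]
  refine add_le_add ?_ ?_
  · refine (l1_mul_prob_right (hZ.pow _) _).trans ((l1_mul_le _ _).trans ?_)
    exact mul_le_mul_of_nonneg_right ha (l1_nonneg _)
  · refine (l1_mul_le _ _).trans ((mul_comm _ _).trans_le ?_)
    exact mul_le_mul hb (l1_mul_prob_left (hZ.pow _) _) (l1_nonneg _) ((l1_nonneg _).trans hb)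

namespace Lev

variable (v : Lev)

/-- The linear part is small between long powers of the ground block. -/
theorem l1_dlin_le (hZ : IsProb v.Z) (hU : IsProb v.U) {δ : ℝ} {a₁ : ℕ} {r : ℕ}
    (h : ∀ j, j < r → ∀ a, a₁ ≤ a → l1 (v.Z ^ (a + 2 ^ j) - v.Z ^ a) ≤ δ)
    {a b : ℕ} (ha : r * a₁ ≤ a) (hb : r * a₁ ≤ b) :
    l1 (v.Z ^ a * v.dlin r * v.Z ^ b) ≤ 2 * (2 * δ) ^ r := by
  induction r generalizing a b with
  | zero =>
    rw [pow_zero, mul_one, dlin_zero]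
    exact (l1_mul_prob_right (hZ.pow b) _).trans
      ((l1_mul_prob_left (hZ.pow a) _).trans (l1_sub_prob_le hU hZ))
  | succ r ih =>
    rw [Nat.succ_mul] at ha hb
    have h0 := h r (Nat.lt_succ_self r) a₁ le_rfl
    have := l1_commutator_le hZ (v.dlin r) (a₁ := a₁) (a₂ := a - a₁) (b₁ := a₁) (b₂ := b - a₁)
      (n := 2 ^ r) h0 h0
    rw [show a₁ + (a - a₁) = a by omega, show b - a₁ + a₁ = b by omega, ← dlin_succ] at this
    refine this.trans ?_
    have hδ : 0 ≤ δ := (l1_nonneg _).trans h0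
    refine (mul_le_mul_of_nonneg_left (ih (fun j hj => h j (by omega)) (a := a - a₁) (b := b - a₁)
      (by omega) (by omega)) (by positivity)).trans_eq ?_
    ring

end Lev

end Vale.Agent.P321.Super
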