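import Vale.Agent.P321.Super.Blocks
import Vale.Agent.P321.Super.Urn

/-!
# P321: forgetting passes to the next level

A power of the ground block is close to a power of the slot, and the latter forgets one block, so
the ground block forgets itself.
-/

namespace Vale.Agent.P321.Super

open Finset

namespace Lev

/-- One step of a power of the ground block moves the law by at most half. -/
theorem Inv.forget {v : Lev} {a : ℕ} {ν δ c κ η : ℝ} (h : v.Inv a ν δ c κ η) {C0 : ℝ} {n ns : ℕ}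
    (hs : ∀ N d, ns ≤ N → l1 (v.s ^ (N + d) - v.s ^ N) ≤ C0 * d * Real.sqrt (ns / N))
    (hns : ns ≤ n * (2 * v.A + 1))
    (hc : Real.sqrt ((1 + c ^ 2) ^ (n + 1) - 1) ≤ 1 / 8) (hη : ((n : ℝ) + 1) * η ≤ 1 / 32)
    (hp : C0 * ((2 * v.A + 1 : ℕ) : ℝ) * Real.sqrt (ns / (n * (2 * v.A + 1) : ℕ)) ≤ 1 / 4) :
    l1 (v.Z ^ (n + 1) - v.Z ^ n) ≤ 1 := by
  have hη0 : 0 ≤ η := h.nonneg.2.2.2.2.1
  have hpure : ∀ m ≤ n + 1, l1 (v.s ^ (m * (2 * v.A + 1)) - v.Z ^ m) ≤ 1 / 4 := by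
    intro m hm
    refine (h.l1_pow_pure m).trans ?_
    have hsq : Real.sqrt ((1 + c ^ 2) ^ m - 1) ≤ 1 / 8 := le_trans (Real.sqrt_le_sqrt
      (sub_le_sub_right (pow_le_pow_right₀ (by linarith [sq_nonneg c]) hm) 1)) hc
    have hm' : (m : ℝ) * (2 * η) ≤ 1 / 16 := by
      have : (m : ℝ) ≤ n + 1 := by exact_mod_cast hm
      nlinarith
    have := mul_le_mul hm' (add_le_add_right hsq 1) (by positivity) (by norm_num)
    linarith
  have hshift := (hs (n * (2 * v.A + 1)) (2 * v.A + 1) hns).trans hp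
  rw [← Nat.succ_mul] at hshift
  have h1 := hpure n (Nat.le_succ n)
  have h2 := hpure (n + 1) le_rfl
  have e : v.Z ^ (n + 1) - v.Z ^ n =
      (v.s ^ ((n + 1) * (2 * v.A + 1)) - v.s ^ (n * (2 * v.A + 1))) -
        (v.s ^ ((n + 1) * (2 * v.A + 1)) - v.Z ^ (n + 1)) +
        (v.s ^ (n * (2 * v.A + 1)) - v.Z ^ n) := by abel
  rw [e]
  have := l1_add_le ((v.s ^ ((n + 1) * (2 * v.A + 1)) - v.s ^ (n * (2 * v.A + 1))) -
    (v.s ^ ((n + 1) * (2 * v.A + 1)) - v.Z ^ (n + 1))) (v.s ^ (n * (2 * v.A + 1)) - v.Z ^ n)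
  have := l1_sub_le (v.s ^ ((n + 1) * (2 * v.A + 1)) - v.s ^ (n * (2 * v.A + 1)))
    (v.s ^ ((n + 1) * (2 * v.A + 1)) - v.Z ^ (n + 1))
  linarith

/-- The ground block forgets its length. -/
theorem forget_pow : ∃ C : ℝ, 0 ≤ C ∧ ∀ {v : Lev} {a : ℕ} {ν δ c κ η : ℝ},
    v.Inv a ν δ c κ η → ∀ {C0 : ℝ} {n ns : ℕ}, 1 ≤ n →
    (∀ N d, ns ≤ N → l1 (v.s ^ (N + d) - v.s ^ N) ≤ C0 * d * Real.sqrt (ns / N)) →
    ns ≤ n * (2 * v.A + 1) →
    Real.sqrt ((1 + c ^ 2) ^ (n + 1) - 1) ≤ 1 / 8 → ((n : ℝ) + 1) * η ≤ 1 / 32 →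
    C0 * ((2 * v.A + 1 : ℕ) : ℝ) * Real.sqrt (ns / (n * (2 * v.A + 1) : ℕ)) ≤ 1 / 4 →
    ∀ N d, n ≤ N → l1 (v.Z ^ (N + d) - v.Z ^ N) ≤ C * d * Real.sqrt (n / N) := by
  obtain ⟨C, hC0, hC⟩ := pow_step (θ := 1 / 2) (by norm_num)
  exact ⟨C, hC0, fun {v a ν δ c κ η} h {C0 n ns} hn hs hns hc hη hp N d hN =>
    hC v.Z h.probZ n hn ((h.forget hs hns hc hη hp).trans_eq (by norm_num)) N d hN⟩

/-- Forgetting of the ground block is forgetting of the next slot. -/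
theorem forget_next {v : Lev} (r A' : ℕ) {C : ℝ} (hC : 0 ≤ C) {n : ℕ}
    (h : ∀ N d, n ≤ N → l1 (v.Z ^ (N + d) - v.Z ^ N) ≤ C * d * Real.sqrt (n / N)) (N d : ℕ)
    (hN : n ≤ N) :
    l1 ((v.next r A').s ^ (N + d) - (v.next r A').s ^ N) ≤
      C * 2 ^ r * d * Real.sqrt (n / N) := by
  have hN' : n ≤ 2 ^ r * N := hN.trans (Nat.le_mul_of_pos_left N (by positivity))
  have hd := h (2 ^ r * N) (2 ^ r * d) hN'
  simp only [next, ← pow_mul, mul_add]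
  refine hd.trans ?_
  push_cast
  rw [← mul_assoc C]
  refine mul_le_mul_of_nonneg_left (Real.sqrt_le_sqrt ?_) (by positivity)
  rcases Nat.eq_zero_or_pos N with rfl | hN0
  · simp
  · exact div_le_div_of_nonneg_left (Nat.cast_nonneg _) (by exact_mod_cast hN0)
      (le_mul_of_one_le_left (Nat.cast_nonneg _) (one_le_pow₀ one_le_two))

end Lev

end Vale.Agent.P321.Super
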