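import Vale.Agent.P321.Super.Levels

/-!
# P321: close pairs at every exponent

The induction over the levels and the lengths of the two words of the last level.
-/

namespace Vale.Agent.P321.Super

open Finset Filter

variable {p : ℝ} {e J r : ℕ} {κ0 : ℝ}

/-- The statement of the centre expansion. -/
def SingleInvStmt (r : ℕ) (κ0 : ℝ) : Prop :=
  ∃ C : ℝ, 1 ≤ C ∧ ∀ (v : Lev) (a : ℕ) (ν δ c κ η : ℝ),
    v.Inv a ν δ c κ η → κ ≤ κ0 → ν * (1 + δ) ≤ 1 → δ ≤ 1 → ∀ (A' n q I : ℕ) (δP : ℝ),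
    0 < I → 4 * (r * (a + 1 + I)) ≤ v.A → r * (a + 1 + I) ≤ q → r * q ≤ n * (2 * v.A + 1) →
    4 * (62 * n * (2 ^ r + 1)) ≤ 2 ^ r * A' → (1 + 4 * c ^ 2) ^ (5 * 2 ^ r * A') ≤ 2 →
    (2 ^ r * A' + 1) * η ≤ 1 →
    (∀ k ≤ a + 1 + I,
      l1 (v.s ^ (q + k) - v.s ^ q) ≤ δP ∧ l1 (v.s ^ (q - k) - v.s ^ q) ≤ δP) →
    ∀ (b : List Bool) (i : ℕ), i < b.length → b.count true ≤ 2 ^ r →
      b.length ≤ 2 ^ r * (4 * A' + 1) → 2 ^ r * A' ≤ 4 * i →
      2 ^ r * A' ≤ 4 * (b.length - 1 - i) →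
      Ap (v.wd b) (v.Z ^ i * (v.U - v.Z) * v.Z ^ (b.length - 1 - i))
        (C * (ν / Real.sqrt I + ν * δ * Real.sqrt ((2 * a + 1 : ℕ) / I : ℝ) +
          ν * Real.sqrt ((1 + 4 * c ^ 2) ^ n - 1) ^ 62))
        (C * ((a + 1) * (2 ^ r * A' + 1) * η + (2 * δP) ^ r))

theorem single_stmt (he8 : 8 ≤ e) (he : J + 5 ≤ e) (hr : gX e J 0 < r) {C0 : ℝ} (hC0 : 0 ≤ C0)
    (hsg : SingleInvStmt r κ0) (hth : ThreshStmt p) : SingleStmt p e J r κ0 C0 := by
  obtain ⟨L1, hL1⟩ := single_num (k0 := κ0) hsg he8 hr hC0 (J := J)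
  obtain ⟨L2, hL2⟩ := hth (2 * e) (by omega) r (gX e J 1 + 1)
  refine ⟨max (max L1 L2) 32, fun l hl j hj hgood b i hi hb hlen hleft hright => ?_⟩
  have hl4 : 32 ≤ l := (le_max_right _ _).trans hl
  rcases j with _ | j
  · simp only [zero_add] at hlen hleft hright ⊢
    have hl1 : 1 ≤ l := by omega
    have hpow : 32 * l ^ (48 * (2 * e)) ≤ 2 ^ r * l ^ aX e 1 :=
      (pow_grow hl1 (show 48 * (2 * e) + 1 ≤ aX e 1 by simp [aX]; omega) hl4).trans
        (Nat.le_mul_of_pos_left _ (by positivity))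
    have h := hL2 l (((le_max_right _ _).trans (le_max_left _ _)).trans hl) b i hi hb (by omega)
      (by omega)
    have e0 : lev p e r l 0 = base p (l ^ (60 * (2 * e))) (l ^ (60 * (2 * e))) := by
      rw [show 60 * (2 * e) = 120 * e by ring]; rfl
    rw [e0]
    exact h.mono (inv_pow_mono hl1 (by simp [cX]; omega)) le_rfl
  · obtain ⟨⟨a, κ, hκκ, ha, hinv⟩, hs⟩ := hgood
    refine hL1 l (((le_max_left _ _).trans (le_max_left _ _)).trans hl) j hj (by omega) _ a κ hinv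
      hκκ (level_A _ _ _ _ _) ha (fun N d hN => (hs N d hN).trans_eq (by push_cast; rfl)) b i hi hb
      hlen hleft hright

theorem forget_zero (h0 : 0 < p) (h1 : p < 1) : ∃ Cb : ℝ, 0 ≤ Cb ∧ ∀ e r : ℕ, 1 ≤ e →
    ∃ L : ℕ, ∀ l ≥ L, ∀ N d, l ^ fX e 0 ≤ N →
      l1 ((lev p e r l 0).Z ^ (N + d) - (lev p e r l 0).Z ^ N) ≤
        Cb * d * Real.sqrt ((l ^ fX e 0 : ℕ) / N) := by
  obtain ⟨Cb, hCb, L0, hb⟩ := base_forget h0 h1
  refine ⟨Cb, hCb, fun e r he => ⟨max L0 3, fun l hl N d hN => ?_⟩⟩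
  have hl3 : 3 ≤ l := (le_max_right _ _).trans hl
  have hl1 : 1 ≤ l := by omega
  set S := l ^ (120 * e) with hS
  have hS1 : 1 ≤ S := Nat.one_le_pow _ _ hl1
  have hlS : l ≤ S := Nat.le_self_pow (by omega) l
  have hup : (2 * S + 1) * S ≤ l ^ fX e 0 :=
    calc (2 * S + 1) * S ≤ 3 * S * S := Nat.mul_le_mul_right _ (by omega)
      _ = 3 * l ^ (120 * e + 120 * e) := by rw [hS, pow_add]; ring
      _ ≤ _ := pow_grow hl1 (by simp [fX, eX]; omega) hl3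
  have hlow : L0 ≤ (2 * S + 1) * S :=
    ((le_max_left _ _).trans hl).trans (hlS.trans (Nat.le_mul_of_pos_left _ (by omega)))
  refine (hb S S hS1 hS1 hlow N d (hup.trans hN)).trans ?_
  gcongr

/-- Every level below the last has the invariant and forgets. -/
theorem exists_good (h0 : 0 < p) (h1 : p < 1) (he8 : 8 ≤ e) (he : J + 5 ≤ e) (hr : gX e J 0 < r)
    (hcs : CentreStmt r) (hsg : ∀ κ0, SingleInvStmt r κ0) (hth : ThreshStmt p) :
    ∃ κ0 C0 : ℝ, ∃ L : ℕ, ∀ l ≥ L, Good p e J r κ0 C0 l J := by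
  obtain ⟨κb, Cp, hκb, hCp, L1, hbase⟩ := good_zero (e := e) h0 h1 he8 r J
  set κ0 := max κb ((2 : ℝ) ^ (2 ^ r)) with hκ0
  obtain ⟨Cg, hCg, hstep⟩ := good_succ (p := p) (κ0 := κ0) he8 he hr (le_max_right _ _) hcs
  obtain ⟨Cb, hCb, hzero⟩ := forget_zero h0 h1
  set Cz := max Cg Cb with hCz
  set C0 := max Cp (Cz * 2 ^ r) with hC0
  obtain ⟨L2, hL2⟩ := hstep Cz C0 (le_max_left _ _) (le_max_right _ _)
    (single_stmt he8 he hr (hCp.trans (le_max_left _ _)) (hsg κ0) hth)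
  obtain ⟨L3, hL3⟩ := hzero e r (by omega)
  refine ⟨κ0, C0, max L1 (max L2 L3), fun l hl => ?_⟩
  simp only [max_le_iff] at hl
  have hmain : ∀ j ≤ J, Good p e J r κ0 C0 l j ∧ ∀ N d, l ^ fX e j ≤ N →
      l1 ((lev p e r l j).Z ^ (N + d) - (lev p e r l j).Z ^ N) ≤
        Cz * d * Real.sqrt ((l ^ fX e j : ℕ) / N) := by
    intro j
    induction j with
    | zero =>
      refine fun _ => ⟨hbase l hl.1 _ _ (le_max_left _ _) (le_max_left _ _), fun N d hN => ?_⟩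
      refine (hL3 l hl.2.2 N d hN).trans ?_
      gcongr
      exact le_max_right _ _
    | succ j ih =>
      intro hj
      obtain ⟨hg, hz⟩ := ih (by omega)
      exact hL2 l hl.2.1 j (by omega) hg hz
  exact (hmain J le_rfl).1

theorem length_bound {e l : ℕ} (he : 1 ≤ e) (r : ℕ) (hl : 6 ≤ l) (hlr : 3 * 2 ^ r ≤ l) : ∀ j,
    (2 * l ^ aX e j + 1) *
        (2 * l ^ (120 * e) * ∏ i ∈ range j, 2 ^ r * (2 * l ^ aX e i + 1)) ≤
      l ^ (eX e j + 2 * j + 4)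
  | 0 => by
    have h1 : 1 ≤ l ^ (120 * e) := Nat.one_le_pow _ _ (by omega)
    calc _ ≤ 3 * l ^ (120 * e) * (2 * l ^ (120 * e) * 1) := by
          simp only [aX, range_zero, prod_empty]
          gcongr
          omega
      _ = 6 * l ^ (120 * e + 120 * e) := by rw [pow_add]; ring
      _ ≤ _ := pow_grow (by omega) (by simp [eX]; omega) hl
  | j + 1 => by
    have hih := length_bound he r hl hlr j
    obtain ⟨-, -, h3, -⟩ := le_eu he j
    obtain ⟨s1, -⟩ := eu_succ e j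
    have h1 : 1 ≤ l ^ aX e (j + 1) := Nat.one_le_pow _ _ (by omega)
    rw [prod_range_succ]
    calc (2 * l ^ aX e (j + 1) + 1) * (2 * l ^ (120 * e) *
          ((∏ i ∈ range j, 2 ^ r * (2 * l ^ aX e i + 1)) * (2 ^ r * (2 * l ^ aX e j + 1))))
        = (2 * l ^ aX e (j + 1) + 1) * 2 ^ r * ((2 * l ^ aX e j + 1) *
          (2 * l ^ (120 * e) * ∏ i ∈ range j, 2 ^ r * (2 * l ^ aX e i + 1))) := by ring
      _ ≤ 3 * l ^ aX e (j + 1) * 2 ^ r * l ^ (eX e j + 2 * j + 4) := by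
          gcongr
          omega
      _ = 3 * 2 ^ r * l ^ (aX e (j + 1) + (eX e j + 2 * j + 4)) := by rw [pow_add]; ring
      _ ≤ _ := pow_grow (by omega) (by simp only [aX, eX, s1]; omega) hlr

/-- Close pairs at every exponent, from the lemmas on the centres. -/
theorem pairs_of (h0 : 0 < p) (h1 : p < 1) (hcs : ∀ r, CentreStmt r)
    (hsg : ∀ r κ0, SingleInvStmt r κ0) (hth : ThreshStmt p) (A : ℕ) :
    ∀ᶠ n : ℕ in atTop, ∃ N ≤ n, ∃ w w' : List Bool, w.length = N ∧ w'.length = N ∧ w ≠ w' ∧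
      tvSum p N w w' * (n : ℝ) ^ (A + 1) ≤ 1 := by
  obtain ⟨J, hJ⟩ : ∃ J, 300 * (A + 1) ≤ J := ⟨_, le_rfl⟩
  set e := J + 8 with he
  set r := gX e J 0 + 1 with hr
  obtain ⟨κ0, C0, L, hgood⟩ := exists_good (e := e) (J := J) (r := r) h0 h1 (by omega) (by omega)
    (by omega) (hcs r) (hsg r) hth
  set E := eX e J + 2 * J + 4 with hE
  have hP : E * (A + 1) + 2 < pX e J := ratio_big (by omega) hJ
  refine pairs_eventually (l₀ := max L (6 * 2 ^ r)) (E := E) (P := E * (A + 1) + 1) (by omega)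
    (Nat.lt_succ_self _) fun l hl => ?_
  have hl6 : 6 * 2 ^ r ≤ l := (le_max_right _ _).trans hl
  have hR : 1 ≤ 2 ^ r := Nat.one_le_two_pow
  have hl1 : 1 ≤ l := by omega
  have hl5 : (5 : ℝ) ≤ l := by exact_mod_cast (show 5 ≤ l by omega)
  obtain ⟨⟨a, κ, -, -, hinv⟩, -⟩ := hgood l ((le_max_left _ _).trans hl)
  have hS : 3 ≤ l ^ (120 * e) := le_trans (by omega) (Nat.le_self_pow (by omega) l)
  obtain ⟨w, w', hlen, hne, hw, hw', hbound⟩ :=
    exists_strings p hS r (fun i => l ^ aX e i) J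
  refine ⟨w, w', hlen, hne, hbound.trans (length_bound (by omega) r (by omega) (by omega) J), ?_⟩
  have hap := (hinv.ap_D (List.mem_cons_self)).l1_le hinv.probZ
  have hsub : l1 (tr p w - tr p w') = l1 ((lev p e r l J).U - (lev p e r l J).Z) := by
    rw [hw, hw', ← l1_neg, neg_sub]
    rfl
  rw [hsub]
  have hd := dW_le (e := e) (by omega) hl1 J
  have hd1 : dW e l J ≤ 1 := hd.2.trans (inv_pow_le_one hl1 _)
  have hη : 1 / (l : ℝ) ^ gX e J J ≤ 1 / (l : ℝ) ^ pX e J :=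
    inv_pow_mono hl1 (by simp only [gX]; omega)
  have hbd : l1 ((lev p e r l J).U - (lev p e r l J).Z) ≤ 5 / (l : ℝ) ^ pX e J := by
    refine hap.trans (le_trans ?_ (le_of_eq (show 1 / (l : ℝ) ^ pX e J * 2 +
      3 * (1 / (l : ℝ) ^ pX e J) = _ by ring)))
    gcongr
    linarith
  refine (mul_le_mul_of_nonneg_right hbd (by positivity)).trans ?_
  rw [div_mul_eq_mul_div, div_le_one (by positivity)]
  exact cmp_pow hl1 hl5 (by omega)

end Vale.Agent.P321.Super
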