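import Mathlib

/-!
# P321: exponents of the scale

Every quantity of level `j` is a constant times a power of the scale `l`; the comparisons used are
of the form `K / l ^ y ≤ 1 / l ^ x` for `x < y` and `K ≤ l`. With `u = 2 ^ j` and a parameter `e`
the exponents are linear in `e u`, `j e u`.
-/

namespace Vale.Agent.P321.Super

open Finset

theorem cmp_pow {l : ℕ} {K : ℝ} (hl : 1 ≤ l) (hK : K ≤ (l : ℝ)) {x y : ℕ} (h : x < y) :
    K * (l : ℝ) ^ x ≤ (l : ℝ) ^ y := by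
  have h1 : (1 : ℝ) ≤ l := by exact_mod_cast hl
  calc K * (l : ℝ) ^ x ≤ l * (l : ℝ) ^ x := mul_le_mul_of_nonneg_right hK (by positivity)
    _ = (l : ℝ) ^ (x + 1) := (pow_succ' _ _).symm
    _ ≤ (l : ℝ) ^ y := pow_le_pow_right₀ h1 h

theorem cmp_inv {l : ℕ} {K : ℝ} (hl : 1 ≤ l) (hK : K ≤ (l : ℝ)) {x y : ℕ} (h : x < y) :
    K / (l : ℝ) ^ y ≤ 1 / (l : ℝ) ^ x := by
  have h1 : (0 : ℝ) < l := by exact_mod_cast hl
  rw [div_le_div_iff₀ (by positivity) (by positivity), one_mul]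
  exact cmp_pow hl hK h

theorem inv_pow_mono {l : ℕ} (hl : 1 ≤ l) {x y : ℕ} (h : x ≤ y) :
    1 / (l : ℝ) ^ y ≤ 1 / (l : ℝ) ^ x := by
  have h1 : (1 : ℝ) ≤ l := by exact_mod_cast hl
  exact one_div_le_one_div_of_le (by positivity) (pow_le_pow_right₀ h1 h)

theorem inv_pow_le_one {l : ℕ} (hl : 1 ≤ l) (x : ℕ) : 1 / (l : ℝ) ^ x ≤ 1 := by
  simpa using inv_pow_mono hl (Nat.zero_le x)

theorem pow_sub_one_le {x : ℝ} {n : ℕ} (hx : 0 ≤ x) (h : (n : ℝ) * x ≤ 1) :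
    (1 + x) ^ n - 1 ≤ 2 * (n * x) := by
  have h1 : (1 + x) ^ n ≤ Real.exp (n * x) := by
    rw [Real.exp_nat_mul]
    exact pow_le_pow_left₀ (by linarith) (by linarith [Real.add_one_le_exp x]) n
  have h0 : 0 ≤ (n : ℝ) * x := by positivity
  have h2 := Real.abs_exp_sub_one_le (x := (n : ℝ) * x) (by rwa [abs_of_nonneg h0])
  rw [abs_of_nonneg h0] at h2
  linarith [le_abs_self (Real.exp ((n : ℝ) * x) - 1)]

/-- A run of `n ≤ K l^(2m)` factors, each `l ^ -x` from its reference, is `3 K l ^ -z` near. -/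
theorem run_small {l n m x z : ℕ} {K : ℝ} (hK1 : 1 ≤ K) (hl : 16 * K ≤ (l : ℝ))
    (hn : (n : ℝ) ≤ K * (l : ℝ) ^ (2 * m)) (hz : m + z ≤ x) (hz1 : 1 ≤ z) {t : ℝ} (ht : 0 ≤ t)
    (ht4 : t ≤ 4) :
    Real.sqrt ((1 + t * (1 / (l : ℝ) ^ x) ^ 2) ^ n - 1) ≤ 3 * K / (l : ℝ) ^ z ∧
      (1 + t * (1 / (l : ℝ) ^ x) ^ 2) ^ n ≤ 2 := by
  have hl1 : (1 : ℝ) ≤ l := by linarith
  have hl0 : (0 : ℝ) < l := by linarith
  have hnx : (n : ℝ) * (t * (1 / (l : ℝ) ^ x) ^ 2) ≤ 4 * K / (l : ℝ) ^ (2 * z) := by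
    rw [div_pow, one_pow, ← pow_mul, mul_one_div, mul_div_assoc',
      div_le_div_iff₀ (by positivity) (by positivity)]
    calc (n : ℝ) * t * (l : ℝ) ^ (2 * z) ≤ K * (l : ℝ) ^ (2 * m) * 4 * (l : ℝ) ^ (2 * z) :=
          mul_le_mul_of_nonneg_right (mul_le_mul hn ht4 ht (by positivity)) (by positivity)
      _ = 4 * K * (l : ℝ) ^ (2 * m + 2 * z) := by rw [pow_add]; ring
      _ ≤ 4 * K * (l : ℝ) ^ (x * 2) :=
          mul_le_mul_of_nonneg_left (pow_le_pow_right₀ hl1 (by omega)) (by positivity)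
  have hsmall : 4 * K / (l : ℝ) ^ (2 * z) ≤ 1 / 4 := by
    rw [div_le_iff₀ (by positivity)]
    have : (l : ℝ) ^ 1 ≤ (l : ℝ) ^ (2 * z) := pow_le_pow_right₀ hl1 (by omega)
    rw [pow_one] at this
    linarith
  have h := pow_sub_one_le (n := n) (x := t * (1 / (l : ℝ) ^ x) ^ 2) (by positivity) (by linarith)
  refine ⟨Real.sqrt_le_iff.2 ⟨by positivity, h.trans ?_⟩, by linarith⟩
  refine (mul_le_mul_of_nonneg_left hnx zero_le_two).trans ?_
  rw [div_pow, ← pow_mul, mul_comm z 2]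
  rw [mul_div_assoc']
  gcongr
  nlinarith

/-- The square root of a ratio of lengths. -/
theorem ratio_small {l ns q z : ℕ} {K : ℝ} (hl : 1 ≤ l) (hK : 1 ≤ K) (hq : 0 < q)
    (h : (ns : ℝ) * (l : ℝ) ^ (2 * z) ≤ K * q) :
    Real.sqrt ((ns : ℝ) / q) ≤ K / (l : ℝ) ^ z := by
  have hl0 : (0 : ℝ) < l := by exact_mod_cast hl
  have hq0 : (0 : ℝ) < q := by exact_mod_cast hq
  refine Real.sqrt_le_iff.2 ⟨by positivity, ?_⟩
  rw [div_pow, ← pow_mul, mul_comm z 2, div_le_div_iff₀ hq0 (by positivity)]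
  exact h.trans (mul_le_mul_of_nonneg_right (by nlinarith) hq0.le)

/-! ### The schedule -/

/-- The exponent of the slot length of level `0` and of the margins. -/
def aX (e : ℕ) : ℕ → ℕ
  | 0 => 120 * e
  | j + 1 => 242 * (e * 2 ^ j)

/-- The total length exponent. -/
def eX (e j : ℕ) : ℕ := 242 * (e * 2 ^ j) - 2 * e

/-- The exponent of the number of blocks after which level `j` forgets. -/
def fX (e j : ℕ) : ℕ := eX e j + 2 * j + 1

/-- The exponent of the number of slots after which level `j` forgets. -/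
def sX (e : ℕ) : ℕ → ℕ
  | 0 => 120 * e
  | j + 1 => fX e j

/-- The exponent of the difference norm. -/
def pX (e j : ℕ) : ℕ := 180 * (e * 2 ^ j) + 5 * (j * (e * 2 ^ j)) + 1 - 4 * 2 ^ j

/-- The exponent of the gain. -/
def hX (e j : ℕ) : ℕ := 10 * (e * 2 ^ j)

/-- Half the exponent of the pieces. -/
def mX (e j : ℕ) : ℕ := 20 * (e * 2 ^ j) + 1

/-- The exponent of the sum of the width and the steps. -/
def dX (e : ℕ) : ℕ → ℕ
  | 0 => 20 * e
  | j + 1 => 2 * mX e j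

/-- The exponent of the width relative to the localised part. -/
def wX (e j : ℕ) : ℕ := 14 * (e * 2 ^ j)

/-- The exponent of the centre norm. -/
def cX (e : ℕ) : ℕ → ℕ
  | 0 => 60 * e - 3
  | j + 1 => 122 * (e * 2 ^ (j + 1))

/-- The exponent of the steps of the centre expansion. -/
def iX (e j : ℕ) : ℕ := e * (121 * 2 ^ j - 1)

/-- The exponent of the negligible part, with `J` the last level. -/
def gX (e J j : ℕ) : ℕ := pX e J + 1 + 800 * (e * (2 ^ (J + 1) - 2 ^ j))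

variable {e : ℕ}

theorem le_eu (he : 1 ≤ e) (j : ℕ) : 2 ^ j ≤ e * 2 ^ j ∧ j + 1 ≤ 2 ^ j ∧ e ≤ e * 2 ^ j ∧
    j * 2 ^ j ≤ j * (e * 2 ^ j) :=
  ⟨Nat.le_mul_of_pos_left _ he, Nat.lt_two_pow_self, Nat.le_mul_of_pos_right _ (by positivity),
    Nat.mul_le_mul_left _ (Nat.le_mul_of_pos_left _ he)⟩

theorem eu_succ (e j : ℕ) : e * 2 ^ (j + 1) = 2 * (e * 2 ^ j) ∧
    (j + 1) * (e * 2 ^ (j + 1)) = 2 * (j * (e * 2 ^ j)) + 2 * (e * 2 ^ j) :=
  ⟨by ring, by ring⟩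

/-- What the step to the next level needs. -/
theorem sched (he : 8 ≤ e) (j : ℕ) (hj : j + 4 ≤ e) :
    2 * hX e j ≤ dX e j ∧ dX e j + 1 < aX e j ∧ 2 * mX e j + 1 < aX e (j + 1) ∧
      fX e j + 2 ≤ aX e (j + 1) ∧ sX e j + 2 * (dX e j + 1) ≤ 2 * mX e j + aX e j ∧
      mX e j + 1 ≤ cX e j ∧ pX e (j + 1) < 2 * pX e j + hX e j ∧
      pX e (j + 1) + wX e (j + 1) + mX e j < 2 * pX e j + cX e j ∧
      cX e (j + 1) < 2 * pX e j ∧ 1 ≤ pX e j ∧ 1 ≤ hX e j := by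
  obtain ⟨h1, h2, h3, h4⟩ := le_eu (show 1 ≤ e by omega) j
  obtain ⟨s1, s2⟩ := eu_succ e j
  have h5 : 8 * 2 ^ j ≤ e * 2 ^ j := Nat.mul_le_mul_right _ he
  have s3 : 2 ^ (j + 1) = 2 * 2 ^ j := by ring
  rcases j with _ | i
  · simp only [hX, dX, aX, mX, fX, eX, sX, cX, pX, wX, pow_zero, mul_one, zero_mul, mul_zero,
      zero_add, add_zero, pow_one, one_mul] at *
    omega
  · obtain ⟨t1, t2⟩ := eu_succ e i
    simp only [hX, dX, aX, mX, fX, eX, sX, cX, pX, wX, s3] at *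
    simp only [t1] at *
    omega

/-- What forgetting at the next level needs. -/
theorem sched_forget (he : 8 ≤ e) (j : ℕ) (hj : j + 4 ≤ e) :
    aX e (j + 1) + sX e (j + 1) + 2 ≤ fX e (j + 1) ∧
      fX e j ≤ fX e (j + 1) + aX e (j + 1) ∧ fX e (j + 1) + 2 ≤ 2 * cX e (j + 1) := by
  obtain ⟨h1, h2, h3, h4⟩ := le_eu (show 1 ≤ e by omega) j
  obtain ⟨s1, s2⟩ := eu_succ e j
  simp only [aX, fX, eX, sX, cX, s1]
  omega

/-- What the centre expansion at levels above the first needs. -/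
theorem sched_single (he : 8 ≤ e) (j : ℕ) (hj : j + 5 ≤ e) :
    2 * mX e j < 2 * iX e j ∧ 2 * iX e j + 1 < aX e (j + 1) ∧
      cX e (j + 2) + 1 < pX e (j + 1) + iX e j ∧
      cX e (j + 2) + 1 + mX e j < pX e (j + 1) + wX e (j + 1) + iX e j ∧
      cX e (j + 2) + 1 < pX e (j + 1) + 62 * (e * 2 ^ (j + 1)) ∧
      242 * (e * 2 ^ (j + 1)) + 1 ≤ 2 * cX e (j + 1) ∧
      sX e (j + 1) + 2 * (2 * iX e j + 1) + 4 ≤ 363 * (e * 2 ^ (j + 1)) := by
  obtain ⟨h1, h2, h3, h4⟩ := le_eu (show 1 ≤ e by omega) j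
  obtain ⟨s1, s2⟩ := eu_succ e j
  obtain ⟨t1, t2⟩ := eu_succ e (j + 1)
  have hi : iX e j + e = 121 * (e * 2 ^ j) := by
    rw [iX, ← Nat.mul_succ, Nat.succ_eq_add_one, Nat.sub_add_cancel
      (by have := Nat.one_le_two_pow (n := j); omega)]
    ring
  have h5 : 8 * 2 ^ j ≤ e * 2 ^ j := Nat.mul_le_mul_right _ he
  have s3 : 2 ^ (j + 1) = 2 * 2 ^ j := by ring
  simp only [mX, aX, cX, pX, wX, sX, fX, eX, s3, t1] at *
  omega

theorem gX_succ (e : ℕ) {J j : ℕ} (hj : j < J) :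
    gX e J j = gX e J (j + 1) + 800 * (e * 2 ^ j) := by
  have h : 2 ^ (j + 1) ≤ 2 ^ (J + 1) := Nat.pow_le_pow_right (by norm_num) (by omega)
  rw [gX, gX, add_assoc _ (800 * _), ← mul_add, ← mul_add]
  congr 3
  rw [pow_succ] at h ⊢
  omega

theorem gX_anti (e J : ℕ) {i j : ℕ} (h : i ≤ j) : gX e J j ≤ gX e J i := by
  have : 2 ^ i ≤ 2 ^ j := Nat.pow_le_pow_right (by norm_num) h
  simp only [gX]
  gcongr

theorem fX_lt_gX (he : 8 ≤ e) {J j : ℕ} (hj : j ≤ J) : fX e j + 1 < gX e J j := by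
  obtain ⟨h1, h2, h3, h4⟩ := le_eu (show 1 ≤ e by omega) j
  have h : 2 * 2 ^ j ≤ 2 ^ (J + 1) := by
    rw [← pow_succ']; exact Nat.pow_le_pow_right (by norm_num) (by omega)
  have : 800 * (e * 2 ^ j) ≤ 800 * (e * (2 ^ (J + 1) - 2 ^ j)) := by gcongr; omega
  simp only [fX, eX, gX]
  omega

/-- The ratio of the exponents grows without bound. -/
theorem ratio_big (he : 8 ≤ e) {A J : ℕ} (hJ : 300 * (A + 1) ≤ J) :
    (eX e J + 2 * J + 4) * (A + 1) + 2 < pX e J := by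
  obtain ⟨h1, h2, h3, h4⟩ := le_eu (show 1 ≤ e by omega) J
  have hE : eX e J + 2 * J + 4 ≤ 300 * (e * 2 ^ J) := by simp only [eX]; omega
  have h5 : 300 * (A + 1) * (e * 2 ^ J) ≤ J * (e * 2 ^ J) := Nat.mul_le_mul_right _ hJ
  have h6 : (eX e J + 2 * J + 4) * (A + 1) ≤ 300 * (A + 1) * (e * 2 ^ J) := by
    refine (Nat.mul_le_mul_right _ hE).trans_eq ?_
    ring
  simp only [pX]
  omega

end Vale.Agent.P321.Super
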