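import Vale.Agent.P321.Super.Inv
import Vale.Agent.P321.Super.Sched

/-!
# P321: the centre expansion at the exponents of the schedule

The hypotheses of the single-difference bound hold with steps `l ^ (2 i)`, runs `l ^ (242 E - 2)`
and margins `l ^ (363 E - 4)`, and its conclusion is below the centre norm of the schedule.
-/

namespace Vale.Agent.P321.Super

open Finset

theorem step_small {s : Msr} {C0 K : ℝ} {l S q k i : ℕ} (hl : 1 ≤ l) (hC0 : 0 ≤ C0)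
    (hs : ∀ N d, l ^ S ≤ N → l1 (s ^ (N + d) - s ^ N) ≤ C0 * d * Real.sqrt ((l : ℝ) ^ S / N))
    (hS : S + 2 * (i + 1) ≤ q) (h2 : 2 ≤ l) (hk : (k : ℝ) ≤ K * (l : ℝ) ^ i)
    (hkq : 2 * k ≤ l ^ q) :
    l1 (s ^ (l ^ q + k) - s ^ (l ^ q)) ≤ C0 * K * 2 / (l : ℝ) ∧
      l1 (s ^ (l ^ q - k) - s ^ (l ^ q)) ≤ C0 * K * 2 / (l : ℝ) := by
  have hl0 : (0 : ℝ) < l := by exact_mod_cast hl
  have hSq : 2 * l ^ S ≤ l ^ q :=
    calc 2 * l ^ S ≤ l * l ^ S := Nat.mul_le_mul_right _ h2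
      _ = l ^ (S + 1) := by ring
      _ ≤ l ^ q := Nat.pow_le_pow_right hl (by omega)
  have hq : 0 < l ^ q := Nat.pow_pos hl
  have key : ∀ m : ℕ, l ^ q ≤ 2 * m →
      C0 * k * Real.sqrt ((l : ℝ) ^ S / m) ≤ C0 * K * 2 / (l : ℝ) := by
    intro m hm
    have h := ratio_small (ns := l ^ S) (q := m) (z := i + 1) (K := 2) hl one_le_two (by omega) (by
      have e1 : ((l ^ q : ℕ) : ℝ) ≤ 2 * (m : ℝ) := by exact_mod_cast hm
      push_cast at e1 ⊢
      rw [← pow_add]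
      exact (pow_le_pow_right₀ (by exact_mod_cast hl) (by omega)).trans e1)
    push_cast at h
    calc C0 * k * Real.sqrt ((l : ℝ) ^ S / m) ≤ C0 * (K * (l : ℝ) ^ i) * (2 / (l : ℝ) ^ (i + 1)) :=
          mul_le_mul (mul_le_mul_of_nonneg_left hk hC0) h (Real.sqrt_nonneg _)
            (mul_nonneg hC0 ((Nat.cast_nonneg k).trans hk))
      _ = C0 * K * 2 / (l : ℝ) := by rw [pow_succ]; field_simp
  refine ⟨(hs _ _ (by omega)).trans (key _ (by omega)), ?_⟩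
  have h := hs (l ^ q - k) k (by omega)
  rw [Nat.sub_add_cancel (by omega), ← l1_neg, neg_sub] at h
  exact h.trans (key _ (by omega))

theorem three_terms {t₁ t₂ t₃ K₁ K₂ K₃ C y : ℝ} (hC : 0 ≤ C) (h₁ : t₁ ≤ K₁ * y)
    (h₂ : t₂ ≤ K₂ * y) (h₃ : t₃ ≤ K₃ * y) : C * (t₁ + t₂ + t₃) ≤ C * (K₁ + K₂ + K₃) * y := by
  rw [mul_assoc]
  exact mul_le_mul_of_nonneg_left (by rw [add_mul, add_mul]; linarith) hC

theorem inv_mul_le {l : ℕ} (hl : 1 ≤ l) {x y z : ℕ} (h : z ≤ x + y) :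
    1 / (l : ℝ) ^ x * (1 / (l : ℝ) ^ y) ≤ 1 / (l : ℝ) ^ z := by
  rw [div_mul_div_comm, one_mul, ← pow_add]
  exact inv_pow_mono hl h

/-- The single-difference bound at the schedule. -/
theorem single_num {e J r : ℕ} {k0 C0 : ℝ}
    (hS : ∃ C : ℝ, 1 ≤ C ∧ ∀ (v : Lev) (a : ℕ) (ν δ c κ η : ℝ),
      v.Inv a ν δ c κ η → κ ≤ k0 → ν * (1 + δ) ≤ 1 → δ ≤ 1 → ∀ (A' n q I : ℕ) (δP : ℝ),
      0 < I → 4 * (r * (a + 1 + I)) ≤ v.A → r * (a + 1 + I) ≤ q → r * q ≤ n * (2 * v.A + 1) →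
      4 * (62 * n * (2 ^ r + 1)) ≤ 2 ^ r * A' → (1 + 4 * c ^ 2) ^ (5 * 2 ^ r * A') ≤ 2 →
      (2 ^ r * A' + 1) * η ≤ 1 →
      (∀ k ≤ a + 1 + I,
        l1 (v.s ^ (q + k) - v.s ^ q) ≤ δP ∧ l1 (v.s ^ (q - k) - v.s ^ q) ≤ δP) →
      ∀ (b : List Bool) (i : ℕ), i < b.length → b.count true ≤ 2 ^ r →
        b.length ≤ 2 ^ r * (4 * A' + 1) → 2 ^ r * A' ≤ 4 * i →
        2 ^ r * A' ≤ 4 * (b.length - 1 - i) →
        Ap (v.wd b) (v.Z ^ i * (v.U - v.Z) * v.Z ^ (b.length - 1 - i))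
          (C * (ν / Real.sqrt I + ν * δ * Real.sqrt ((2 * a + 1 : ℕ) / I : ℝ) +
            ν * Real.sqrt ((1 + 4 * c ^ 2) ^ n - 1) ^ 62))
          (C * ((a + 1) * (2 ^ r * A' + 1) * η + (2 * δP) ^ r)))
    (he : 8 ≤ e) (hr : gX e J 0 < r) (hC0 : 0 ≤ C0) :
    ∃ L : ℕ, ∀ l ≥ L, ∀ j, j + 1 < J → j + 5 ≤ e → ∀ (v : Lev) (a : ℕ) (k : ℝ),
      v.Inv a (1 / (l : ℝ) ^ pX e (j + 1)) (1 / (l : ℝ) ^ wX e (j + 1))
        (1 / (l : ℝ) ^ cX e (j + 1)) k (1 / (l : ℝ) ^ gX e J (j + 1)) → k ≤ k0 →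
      v.A = l ^ aX e (j + 1) → a ≤ r * l ^ (2 * mX e j) →
      (∀ N d, l ^ sX e (j + 1) ≤ N →
        l1 (v.s ^ (N + d) - v.s ^ N) ≤ C0 * d * Real.sqrt ((l : ℝ) ^ sX e (j + 1) / N)) →
      ∀ b i, i < b.length → b.count true ≤ 2 ^ r →
        b.length ≤ 2 ^ r * (4 * l ^ aX e (j + 2) + 1) → 2 ^ r * l ^ aX e (j + 2) ≤ 4 * i →
        2 ^ r * l ^ aX e (j + 2) ≤ 4 * (b.length - 1 - i) →
        Ap (v.wd b) (v.Z ^ i * (v.U - v.Z) * v.Z ^ (b.length - 1 - i))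
          (1 / (l : ℝ) ^ (cX e (j + 2) + 1)) (1 / (l : ℝ) ^ (gX e J (j + 2) + 1)) := by
  obtain ⟨C, hC1, hS⟩ := hS
  set Km : ℝ := C * (1 + (2 * r + 1 : ℕ) + 3 ^ 62) with hKm
  set Ke : ℝ := C * (((r + 1) * (2 ^ r + 1) : ℕ) + (2 * (C0 * (r + 2 : ℕ) * 2)) ^ r) with hKe
  obtain ⟨L, hL⟩ := exists_nat_ge (max (max Km Ke) (((80 * 2 ^ r + 16 * (r + 2) * (r + 2) +
    248 * (2 ^ r + 1) + 2) : ℕ) : ℝ))
  refine ⟨L, fun l hl j hj hje v a k hv hk hA ha hs => ?_⟩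
  have hLl : (L : ℝ) ≤ (l : ℝ) := by exact_mod_cast hl
  have hKm' : Km ≤ (l : ℝ) := ((le_max_left _ _).trans (le_max_left _ _)).trans (hL.trans hLl)
  have hKe' : Ke ≤ (l : ℝ) := ((le_max_right _ _).trans (le_max_left _ _)).trans (hL.trans hLl)
  have hbig : 80 * 2 ^ r + 16 * (r + 2) * (r + 2) + 248 * (2 ^ r + 1) + 2 ≤ l := by
    exact_mod_cast (le_max_right _ _).trans (hL.trans hLl)
  have hc248 : 248 * (2 ^ r + 1) ≤ l := le_trans (Nat.le_add_left _ _)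
    ((Nat.le_add_right _ 2).trans hbig)
  have hl1 : 1 ≤ l := by omega
  have hl2 : 2 ≤ l := by omega
  have hlr : (1 : ℝ) ≤ l := by exact_mod_cast hl1
  have hl0 : (0 : ℝ) < l := by linarith
  obtain ⟨s1, s2, s3, s4, s5, s6, s7⟩ := sched_single he j hje
  have hg1 : gX e J (j + 1) = gX e J (j + 2) + 800 * (e * 2 ^ (j + 1)) :=
    gX_succ e (j := j + 1) hj
  have hg0 := gX_anti e J (show 1 ≤ j + 2 by omega)
  have hg00 : gX e J 0 = gX e J 1 + 800 * (e * 2 ^ 0) := gX_succ e (show 0 < J by omega)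
  have hw : (2 : ℕ) ≤ e * 2 ^ (j + 1) :=
    le_trans (by omega) (Nat.le_mul_of_pos_right e (by positivity))
  have haA : aX e (j + 2) = 242 * (e * 2 ^ (j + 1)) := rfl
  have haV : aX e (j + 1) = 242 * (e * 2 ^ j) := rfl
  have hm2 : 2 * mX e j = 20 * (e * 2 ^ (j + 1)) + 2 := by rw [mX, pow_succ]; ring
  have hEu : e * 2 ^ (j + 1) = 2 * (e * 2 ^ j) := by ring
  have hcc : cX e (j + 1) = 122 * (e * 2 ^ (j + 1)) := rfl
  set E := e * 2 ^ (j + 1) with hE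
  set I := l ^ (2 * iX e j) with hI
  set n := l ^ (242 * E - 2) with hn
  have hmi : l ^ (2 * mX e j) ≤ I := Nat.pow_le_pow_right hl1 s1.le
  have hI0 : 0 < I := Nat.pow_pos hl1
  have hwide : a + 1 + I ≤ (r + 2) * I := by
    have : r * l ^ (2 * mX e j) ≤ r * I := Nat.mul_le_mul_left r hmi
    rw [add_mul, two_mul]
    omega
  have hconst : ∀ c x y : ℕ, c ≤ l → x < y → c * l ^ x ≤ l ^ y := by
    intro c x y hc hxy
    calc c * l ^ x ≤ l * l ^ x := Nat.mul_le_mul_right _ hc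
      _ = l ^ (x + 1) := by ring
      _ ≤ l ^ y := Nat.pow_le_pow_right hl1 hxy
  have hc4 : 4 * r * (r + 2) ≤ l := by
    have : 4 * r * (r + 2) ≤ 16 * (r + 2) * (r + 2) := Nat.mul_le_mul_right _ (by omega)
    omega
  have hc3 : 4 * (r + 2) ≤ l := by
    have : 4 * (r + 2) ≤ 16 * (r + 2) * (r + 2) :=
      (Nat.mul_le_mul_right _ (show 4 ≤ 16 by norm_num)).trans (Nat.le_mul_of_pos_right _ (by omega))
    omega
  have h4 : 4 * (r * (a + 1 + I)) ≤ v.A := by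
    rw [hA, haV]
    refine le_trans ?_ (hconst _ _ _ hc4 (show 2 * iX e j < 242 * (e * 2 ^ j) by omega))
    calc 4 * (r * (a + 1 + I)) ≤ 4 * (r * ((r + 2) * I)) := by gcongr
      _ = 4 * r * (r + 2) * l ^ (2 * iX e j) := by rw [hI]; ring
  have hq5 : r * (a + 1 + I) ≤ l ^ (363 * E - 4) := by
    refine le_trans ?_ (hconst _ _ _ hc4 (show 2 * iX e j < 363 * E - 4 by omega))
    calc r * (a + 1 + I) ≤ 4 * r * ((r + 2) * I) := by gcongr; omega
      _ = 4 * r * (r + 2) * l ^ (2 * iX e j) := by rw [hI]; ring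
  have hk5 : 2 * (a + 1 + I) ≤ l ^ (363 * E - 4) := by
    refine le_trans ?_ (hconst _ _ _ hc3 (show 2 * iX e j < 363 * E - 4 by omega))
    calc 2 * (a + 1 + I) ≤ 4 * ((r + 2) * I) := Nat.mul_le_mul (by omega) hwide
      _ = _ := by rw [hI]; ring
  have hnq : r * l ^ (363 * E - 4) ≤ n * (2 * v.A + 1) := by
    calc r * l ^ (363 * E - 4) ≤ l ^ (363 * E - 2) := hconst _ _ _ (by omega) (by omega)
      _ = n * v.A := by rw [hn, hA, haV, ← pow_add]; congr 1; omega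
      _ ≤ _ := Nat.mul_le_mul_left _ (by omega)
  have hn4 : 4 * (62 * n * (2 ^ r + 1)) ≤ 2 ^ r * l ^ aX e (j + 2) := by
    calc 4 * (62 * n * (2 ^ r + 1)) = 248 * (2 ^ r + 1) * l ^ (242 * E - 2) := by rw [hn]; ring
      _ ≤ l ^ (242 * E) :=
          hconst (248 * (2 ^ r + 1)) (242 * E - 2) (242 * E) hc248 (by omega)
      _ ≤ _ := by rw [haA]; exact Nat.le_mul_of_pos_left _ (by positivity)
  have hrun2 : (1 + 4 * (1 / (l : ℝ) ^ cX e (j + 1)) ^ 2) ^ (5 * 2 ^ r * l ^ aX e (j + 2)) ≤ 2 := by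
    refine (run_small (K := ((5 * 2 ^ r : ℕ) : ℝ)) (m := 121 * E) (z := E)
      (Nat.one_le_cast.2 (by have := Nat.one_le_two_pow (n := r); omega))
      (by exact_mod_cast (show 16 * (5 * 2 ^ r) ≤ l by omega)) ?_ (by omega) (by omega)
      (by norm_num) le_rfl).2
    rw [haA, show 2 * (121 * E) = 242 * E by ring]
    push_cast
    exact le_rfl
  have hrun : Real.sqrt ((1 + 4 * (1 / (l : ℝ) ^ cX e (j + 1)) ^ 2) ^ n - 1) ≤ 3 / (l : ℝ) ^ E := by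
    refine ((run_small (K := 1) (m := 121 * E - 1) (z := E) le_rfl
      (by rw [mul_one]; exact_mod_cast (show 16 ≤ l by omega)) ?_ (by omega) (by omega)
      (by norm_num) le_rfl).1).trans_eq (by rw [mul_one])
    rw [hn, one_mul, show 2 * (121 * E - 1) = 242 * E - 2 by omega]
    push_cast
    exact le_rfl
  have hη : ((2 : ℝ) ^ r * ((l ^ aX e (j + 2) : ℕ) : ℝ) + 1) * (1 / (l : ℝ) ^ gX e J (j + 1)) ≤ 1 := by
    have : 2 ^ r * l ^ aX e (j + 2) + 1 ≤ l ^ gX e J (j + 1) := by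
      have := hconst (2 ^ r + 1) (aX e (j + 2)) (gX e J (j + 1)) (by omega) (by omega)
      rw [add_mul, one_mul] at this
      have := Nat.one_le_pow (aX e (j + 2)) l hl1
      omega
    rw [mul_one_div, div_le_one (by positivity)]
    exact_mod_cast this
  have hstep : ∀ k ≤ a + 1 + I,
      l1 (v.s ^ (l ^ (363 * E - 4) + k) - v.s ^ (l ^ (363 * E - 4))) ≤
          C0 * ((r + 2 : ℕ) : ℝ) * 2 / (l : ℝ) ∧
        l1 (v.s ^ (l ^ (363 * E - 4) - k) - v.s ^ (l ^ (363 * E - 4))) ≤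
          C0 * ((r + 2 : ℕ) : ℝ) * 2 / (l : ℝ) := by
    intro k hk
    refine step_small hl1 hC0 hs (i := 2 * iX e j) (by omega) hl2 ?_ (by omega)
    exact_mod_cast hk.trans hwide
  have hv1 : 1 / (l : ℝ) ^ pX e (j + 1) * (1 + 1 / (l : ℝ) ^ wX e (j + 1)) ≤ 1 := by
    have h1 : 1 / (l : ℝ) ^ pX e (j + 1) ≤ 1 / 2 := by
      refine one_div_le_one_div_of_le two_pos (le_trans ?_ (le_self_pow₀ hlr ?_))
      · exact_mod_cast hl2
      · have := (sched he (j + 1) (by omega)).2.2.2.2.2.2.2.2.2.1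
        omega
    refine (mul_le_mul h1 (add_le_add le_rfl (inv_pow_le_one hl1 _)) (by positivity)
      (by norm_num)).trans ?_
    norm_num
  intro b i hi hcnt hlen hmi' hmi''
  refine (hS v a _ _ _ _ _ hv hk hv1 (inv_pow_le_one hl1 _) (l ^ aX e (j + 2)) n
    (l ^ (363 * E - 4)) I _ hI0 h4 hq5 hnq hn4 hrun2 hη hstep b i hi hcnt hlen hmi' hmi'').mono
    ?_ ?_
  · set Y := 1 / (l : ℝ) ^ (cX e (j + 2) + 1 + 1) with hY
    have hsI : Real.sqrt (I : ℝ) = (l : ℝ) ^ iX e j := by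
      rw [hI, Nat.cast_pow, mul_comm, pow_mul, Real.sqrt_sq (by positivity)]
    have t1 : 1 / (l : ℝ) ^ pX e (j + 1) / Real.sqrt (I : ℝ) ≤ 1 * Y := by
      rw [hsI, div_div, ← pow_add, one_mul]
      exact inv_pow_mono hl1 (by omega)
    have ha' : Real.sqrt (((2 * a + 1 : ℕ) : ℝ) / I) ≤
        ((2 * r + 1 : ℕ) : ℝ) * ((l : ℝ) ^ mX e j / (l : ℝ) ^ iX e j) := by
      rw [Real.sqrt_div (Nat.cast_nonneg _), hsI, ← mul_div_assoc]
      refine div_le_div_of_nonneg_right (Real.sqrt_le_iff.2 ⟨by positivity, ?_⟩) (by positivity)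
      have : 2 * a + 1 ≤ (2 * r + 1) * (2 * r + 1) * l ^ (2 * mX e j) := by
        have h1 : 2 * a + 1 ≤ (2 * r + 1) * l ^ (2 * mX e j) := by
          have := Nat.one_le_pow (2 * mX e j) l hl1
          rw [add_mul, mul_assoc]
          omega
        exact h1.trans (Nat.mul_le_mul_right _ (Nat.le_mul_of_pos_left _ (by omega)))
      refine (Nat.cast_le.2 this).trans_eq ?_
      push_cast
      ring
    have t2 : 1 / (l : ℝ) ^ pX e (j + 1) * (1 / (l : ℝ) ^ wX e (j + 1)) *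
        Real.sqrt (((2 * a + 1 : ℕ) : ℝ) / I) ≤ ((2 * r + 1 : ℕ) : ℝ) * Y := by
      refine (mul_le_mul_of_nonneg_left ha' (by positivity)).trans ?_
      rw [mul_left_comm]
      refine mul_le_mul_of_nonneg_left ?_ (Nat.cast_nonneg _)
      rw [hY, div_mul_div_comm, div_mul_div_comm, one_mul, one_mul, ← pow_add, ← pow_add,
        div_le_div_iff₀ (by positivity) (by positivity), one_mul, ← pow_add]
      exact pow_le_pow_right₀ hlr (by omega)
    have t3 : 1 / (l : ℝ) ^ pX e (j + 1) *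
        Real.sqrt ((1 + 4 * (1 / (l : ℝ) ^ cX e (j + 1)) ^ 2) ^ n - 1) ^ 62 ≤ 3 ^ 62 * Y := by
      refine (mul_le_mul_of_nonneg_left (pow_le_pow_left₀ (Real.sqrt_nonneg _) hrun 62)
        (by positivity)).trans ?_
      rw [div_pow, ← pow_mul, div_mul_div_comm, one_mul, ← pow_add, ← mul_one_div]
      exact mul_le_mul_of_nonneg_left (inv_pow_mono hl1 (by omega)) (by positivity)
    refine (three_terms (by linarith) t1 t2 t3).trans ?_
    rw [hY, mul_one_div]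
    exact cmp_inv hl1 (by rw [hKm] at hKm'; exact hKm') (Nat.lt_succ_self _)
  · set X := gX e J (j + 2) + 1 with hX
    have t1 : ((a : ℝ) + 1) * (2 ^ r * ((l ^ aX e (j + 2) : ℕ) : ℝ) + 1) *
        (1 / (l : ℝ) ^ gX e J (j + 1)) ≤
        (((r + 1) * (2 ^ r + 1) : ℕ) : ℝ) * (1 / (l : ℝ) ^ (X + 1)) := by
      have h : (a + 1) * (2 ^ r * l ^ aX e (j + 2) + 1) * l ^ (X + 1) ≤
          (r + 1) * (2 ^ r + 1) * l ^ gX e J (j + 1) := by
        have h1 : a + 1 ≤ (r + 1) * l ^ (2 * mX e j) := by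
          have := Nat.one_le_pow (2 * mX e j) l hl1
          rw [add_mul, one_mul]
          omega
        have h2 : 2 ^ r * l ^ aX e (j + 2) + 1 ≤ (2 ^ r + 1) * l ^ aX e (j + 2) := by
          have := Nat.one_le_pow (aX e (j + 2)) l hl1
          rw [add_mul, one_mul]
          omega
        refine (Nat.mul_le_mul_right _ (Nat.mul_le_mul h1 h2)).trans ?_
        calc (r + 1) * l ^ (2 * mX e j) * ((2 ^ r + 1) * l ^ aX e (j + 2)) * l ^ (X + 1)
            = (r + 1) * (2 ^ r + 1) * l ^ (2 * mX e j + aX e (j + 2) + (X + 1)) := by ring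
          _ ≤ _ := Nat.mul_le_mul_left _ (Nat.pow_le_pow_right hl1 (by omega))
      rw [mul_one_div, mul_one_div, div_le_div_iff₀ (by positivity) (by positivity)]
      exact_mod_cast h
    have t2 : (2 * (C0 * ((r + 2 : ℕ) : ℝ) * 2 / (l : ℝ))) ^ r ≤
        (2 * (C0 * ((r + 2 : ℕ) : ℝ) * 2)) ^ r * (1 / (l : ℝ) ^ (X + 1)) := by
      rw [mul_div_assoc', div_pow, ← mul_one_div]
      exact mul_le_mul_of_nonneg_left (inv_pow_mono hl1 (by omega)) (by positivity)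
    refine (mul_le_mul_of_nonneg_left (add_le_add t1 t2) (by linarith)).trans ?_
    rw [← add_mul, ← mul_assoc, mul_one_div]
    exact cmp_inv hl1 (by rw [hKe] at hKe'; exact hKe') (Nat.lt_succ_self _)

end Vale.Agent.P321.Super
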