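import Vale.Agent.P321.Super.Defs

/-!
# P321: Thue-Morse words, their expansion and shifts
-/

namespace Vale.Agent.P321.Super

open Finset

namespace Lev

variable (v : Lev)

/-- The word in `Z` and `U` given by a list of letters. -/
noncomputable def wd (b : List Bool) : Msr := (b.map fun x => if x then v.U else v.Z).prod

/-- The word shifted right by `k` slots. -/
noncomputable def wdK (k : ℕ) (b : List Bool) : Msr :=
  (b.map fun x => v.blk (if x then v.o else v.e) k).prod

/-- The two Thue-Morse lists of length `2 ^ r`. -/
def tmw : ℕ → List Bool × List Bool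
  | 0 => ([false], [true])
  | r + 1 => ((tmw r).1 ++ (tmw r).2, (tmw r).2 ++ (tmw r).1)

theorem length_tmw (r : ℕ) : (tmw r).1.length = 2 ^ r ∧ (tmw r).2.length = 2 ^ r := by
  induction r with
  | zero => simp [tmw]
  | succ r ih => simp [tmw, ih.1, ih.2, pow_succ]; omega

theorem wd_append (a b : List Bool) : v.wd (a ++ b) = v.wd a * v.wd b := by simp [wd]

theorem wd_replicate (n : ℕ) : v.wd (List.replicate n false) = v.Z ^ n := by simp [wd]

theorem tm_eq (r : ℕ) : tm v.Z v.U r = (v.wd (tmw r).1, v.wd (tmw r).2) := by
  induction r with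
  | zero => simp [tm, tmw, wd]
  | succ r ih => simp [tm, tmw, ih, wd_append]

theorem blk_zero (x : Msr) : v.blk x 0 = v.s ^ v.A * x * v.s ^ v.A := by simp [blk]

theorem Z_eq : v.Z = v.blk v.e 0 := by simp [Z, blk]

theorem U_eq : v.U = v.blk v.o 0 := by simp [U, blk]

theorem blk_sub (x y : Msr) (k : ℕ) : v.blk (x - y) k = v.blk x k - v.blk y k := by
  simp [blk, mul_sub, sub_mul]

theorem blk_add (x y : Msr) (k : ℕ) : v.blk (x + y) k = v.blk x k + v.blk y k := by
  simp [blk, mul_add, add_mul]

theorem D_eq : v.U - v.Z = v.blk (v.o - v.e) 0 := by rw [blk_sub, Z_eq, U_eq]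

/-- A power of the slot moves a block right. -/
theorem semiconjBy_blk (x : Msr) {i k : ℕ} (h : i + k ≤ v.A) :
    SemiconjBy (v.s ^ k) (v.blk x i) (v.blk x (i + k)) := by
  have e1 : v.A - i = v.A - (i + k) + k := by omega
  simp only [SemiconjBy, blk, ← mul_assoc, ← pow_add]
  rw [mul_assoc _ (v.s ^ (v.A - (i + k))), ← pow_add, e1, show k + (v.A + i) = v.A + (i + k) by omega]

theorem semiconjBy_wdK (b : List Bool) {k : ℕ} (h : k ≤ v.A) :
    SemiconjBy (v.s ^ k) (v.wd b) (v.wdK k b) := by
  induction b with
  | nil => simp [wd, wdK, SemiconjBy.one_right]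
  | cons x b ih =>
    simp only [wd, wdK, List.map_cons, List.prod_cons] at ih ⊢
    refine SemiconjBy.mul_right ?_ ih
    have := v.semiconjBy_blk (if x then v.o else v.e) (i := 0) (k := k) (by omega)
    rw [zero_add] at this
    cases x <;> simpa [Z_eq, U_eq] using this

/-- The part of a word linear in `U - Z`. -/
noncomputable def lin (v : Lev) : List Bool → Msr
  | [] => 0
  | x :: b => (if x then (v.U - v.Z) * v.Z ^ b.length else 0) + v.Z * lin v b

theorem lin_append (a b : List Bool) :
    v.lin (a ++ b) = v.lin a * v.Z ^ b.length + v.Z ^ a.length * v.lin b := by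
  induction a with
  | nil => simp [lin]
  | cons x a ih =>
    rw [List.cons_append, lin, lin, ih, List.length_append, List.length_cons]
    cases x <;> simp [mul_add, add_mul, pow_add, pow_succ', mul_assoc, add_assoc]

/-- The linear part of the difference of the Thue-Morse words. -/
noncomputable def dlin (r : ℕ) : Msr := v.lin (tmw r).2 - v.lin (tmw r).1

theorem dlin_zero : v.dlin 0 = v.U - v.Z := by simp [dlin, tmw, lin]

theorem dlin_succ (r : ℕ) :
    v.dlin (r + 1) = v.dlin r * v.Z ^ 2 ^ r - v.Z ^ 2 ^ r * v.dlin r := by
  simp only [dlin, tmw, lin_append, (length_tmw r).1, (length_tmw r).2, sub_mul, mul_sub]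
  abel

/-- The part of a word of degree at least two in `U - Z`, by the position of the last perturbed
block. -/
noncomputable def high (v : Lev) (b : List Bool) : Msr :=
  ∑ i ∈ range b.length,
    if b[i]? = some true then
      (v.wd (b.take i) - v.Z ^ i) * (v.U - v.Z) * v.Z ^ (b.length - 1 - i) else 0

theorem wd_eq (b : List Bool) : v.wd b = v.Z ^ b.length + v.lin b + v.high b := by
  induction b using List.reverseRecOn with
  | nil => simp [wd, lin, high]
  | append_singleton b x ih =>
    have hh : v.high (b ++ [x]) = v.high b * v.Z +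
        if x then (v.wd b - v.Z ^ b.length) * (v.U - v.Z) else 0 := by
      rw [high, List.length_append, List.length_singleton, Finset.sum_range_succ, high,
        Finset.sum_mul]
      congr 1
      · refine Finset.sum_congr rfl fun i hi => ?_
        rw [mem_range] at hi
        rw [List.getElem?_append_left hi, List.take_append_of_le_length (by omega),
          show b.length + 1 - 1 - i = b.length - 1 - i + 1 by omega, ite_mul, zero_mul, pow_succ]
        simp [mul_assoc]
      · cases x <;> simp
    rw [wd_append, lin_append, hh, List.length_append, List.length_singleton]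
    have hx : v.wd [x] = v.Z + if x then v.U - v.Z else 0 := by cases x <;> simp [wd]
    rw [hx]
    cases x
    · simp [lin, ih, pow_succ, add_mul]
    · have hl : v.lin [true] = v.U - v.Z := by simp [lin]
      simp only [if_true, hl, pow_succ, pow_zero, one_mul]
      rw [ih]
      noncomm_ring

end Lev

end Vale.Agent.P321.Super
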