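import Vale.Agent.P321.Super.Rich
import Vale.Agent.P321.Super.Words

/-!
# P321: words moved by a number of slots

Powers of the slot pass through words of blocks and shift their centres. The nested pieces of the
expansion become offset blocks on both sides of the shifted content.
-/

namespace Vale.Agent.P321.Super

open Finset

namespace Lev

variable (v : Lev)

theorem wdK_cons (k : ℕ) (x : Bool) (b : List Bool) :
    v.wdK k (x :: b) = v.blk (if x then v.o else v.e) k * v.wdK k b := by simp [wdK]

theorem wdK_replicate (k n : ℕ) : v.wdK k (List.replicate n false) = v.blk v.e k ^ n := by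
  simp [wdK]

theorem semiconjBy_wdK_add (b : List Bool) {i k : ℕ} (h : i + k ≤ v.A) :
    SemiconjBy (v.s ^ k) (v.wdK i b) (v.wdK (i + k) b) := by
  induction b with
  | nil => simp [wdK, SemiconjBy.one_right]
  | cons x b ih =>
    rw [wdK_cons, wdK_cons]
    exact (v.semiconjBy_blk _ h).mul_right ih

/-- The part of degree at least two, shifted by `k` slots. -/
noncomputable def highK (v : Lev) (k : ℕ) (b : List Bool) : Msr :=
  ∑ i ∈ range b.length,
    if b[i]? = some true then
      (v.wdK k (b.take i) - v.blk v.e k ^ i) * v.blk (v.o - v.e) k *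
        v.blk v.e k ^ (b.length - 1 - i) else 0

theorem highK_zero (b : List Bool) : v.highK 0 b = v.high b := by
  have hw : ∀ l, v.wdK 0 l = v.wd l := fun l => by
    simp only [wdK, wd, Z_eq, U_eq]
    congr 1
    exact List.map_congr_left fun x _ => by cases x <;> simp
  simp only [highK, high, hw, ← Z_eq, ← D_eq]

theorem semiconjBy_highK (b : List Bool) {i k : ℕ} (h : i + k ≤ v.A) :
    SemiconjBy (v.s ^ k) (v.highK i b) (v.highK (i + k) b) := by
  rw [SemiconjBy, highK, highK, Finset.mul_sum, Finset.sum_mul]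
  refine Finset.sum_congr rfl fun j _ => ?_
  split_ifs
  · exact (((v.semiconjBy_wdK_add _ h).sub_right ((v.semiconjBy_blk _ h).pow_right j)).mul_right
      (v.semiconjBy_blk _ h)).mul_right ((v.semiconjBy_blk _ h).pow_right _)
  · simp

/-- The product of ground blocks with the given offsets. -/
noncomputable def offs (v : Lev) (l : List ℕ) : Msr := (l.map fun o => v.blk v.e o).prod

theorem offs_append (l l' : List ℕ) : v.offs (l ++ l') = v.offs l * v.offs l' := by simp [offs]

theorem offs_replicate (o n : ℕ) : v.offs (List.replicate n o) = v.blk v.e o ^ n := by simp [offs]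

theorem semiconjBy_offs {k : ℕ} : ∀ {l : List ℕ}, (∀ o ∈ l, o + k ≤ v.A) →
    SemiconjBy (v.s ^ k) (v.offs l) (v.offs (l.map (· + k)))
  | [], _ => by simp [offs, SemiconjBy.one_right]
  | o :: l, h => by
    simp only [offs, List.map_cons, List.prod_cons]
    exact (v.semiconjBy_blk v.e (h o (by simp))).mul_right
      (semiconjBy_offs fun x hx => h x (by simp [hx]))

/-- The left piece of one step. -/
noncomputable def pL (v : Lev) (n k : ℕ) : Msr := v.Z ^ n * v.s ^ k

/-- The right piece of one step. -/
noncomputable def pR (v : Lev) (n k : ℕ) : Msr :=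
  v.Z ^ (n - 1) * (v.s ^ v.A * v.e * v.s ^ (v.A - k))

theorem pR_zero {n : ℕ} (hn : 1 ≤ n) : v.pR n 0 = v.Z ^ n := by
  rw [pR, Nat.sub_zero, ← Z, ← pow_succ, Nat.sub_add_cancel hn]

theorem pow_mul_pR {n k : ℕ} (hn : 1 ≤ n) (hk : k ≤ v.A) :
    v.s ^ k * v.pR n k = v.blk v.e k ^ n := by
  have h1 : SemiconjBy (v.s ^ k) (v.Z ^ (n - 1)) (v.blk v.e k ^ (n - 1)) := by
    have := v.semiconjBy_blk v.e (i := 0) (k := k) (by omega)
    rw [← Z_eq, zero_add] at this
    exact this.pow_right _
  rw [pR, ← mul_assoc, h1.eq, mul_assoc, ← mul_assoc (v.s ^ k), ← mul_assoc (v.s ^ k),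
    ← pow_add, add_comm k, ← blk, ← pow_succ, Nat.sub_add_cancel hn]

/-- The nested pieces are offset blocks around the shifted content. -/
theorem exists_pc_eq {n : ℕ} (hn : 1 ≤ n) (X : ℕ → Msr)
    (hX : ∀ i k, i + k ≤ v.A → SemiconjBy (v.s ^ k) (X i) (X (i + k))) :
    ∀ (r : ℕ) (t : Fin r → ℕ) (m : Fin r → Bool), ksum t m ≤ v.A →
      ∃ L L' : List ℕ, L.length = r * n ∧ L'.length = r * n ∧
        (∀ o ∈ L ++ L', o ≤ ksum t m) ∧
        pc (v.pL n) (v.pR n) (X 0) r t m = v.offs L * X (ksum t m) * v.offs L' := by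
  intro r
  induction r with
  | zero => exact fun t m _ => ⟨[], [], by simp, by simp, by simp, by simp [pc, ksum, offs]⟩
  | succ r ih =>
    intro t m hA
    set k0 := if m 0 then t 0 else 0 with hk0
    have hks : ksum t m = k0 + ksum (fun i => t i.succ) (fun i => m i.succ) := by
      simp [ksum, Fin.sum_univ_succ, hk0]
    obtain ⟨L, L', hL, hL', ho, e⟩ := ih (fun i => t i.succ) (fun i => m i.succ) (by omega)
    refine ⟨List.replicate n 0 ++ L.map (· + k0), L'.map (· + k0) ++ List.replicate n k0,
      by simp [hL, Nat.succ_mul, add_comm], by simp [hL', Nat.succ_mul], ?_, ?_⟩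
    · intro o hmem
      simp only [List.mem_append, List.mem_replicate, List.mem_map] at hmem
      rcases hmem with (⟨-, rfl⟩ | ⟨x, hx, rfl⟩) | (⟨x, hx, rfl⟩ | ⟨-, rfl⟩)
      · omega
      · have := ho x (by simp [hx]); omega
      · have := ho x (by simp [hx]); omega
      · omega
    · have hb : ∀ l : List ℕ, (∀ o ∈ l, o ≤ ksum (fun i => t i.succ) (fun i => m i.succ)) →
          SemiconjBy (v.s ^ k0) (v.offs l) (v.offs (l.map (· + k0))) := fun l hl =>
        v.semiconjBy_offs fun o hmem => by have := hl o hmem; omega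
      have h3 := ((hb L fun o h => ho o (by simp [h])).mul_right
        (hX (ksum (fun i => t i.succ) fun i => m i.succ) k0 (by omega))).mul_right
        (hb L' fun o h => ho o (by simp [h]))
      rw [pc, e, ← hk0, pL, mul_assoc (v.Z ^ n), h3.eq, mul_assoc (v.Z ^ n), mul_assoc _ (v.s ^ k0),
        v.pow_mul_pR hn (by omega), offs_append, offs_append, offs_replicate, offs_replicate,
        ← Z_eq, add_comm _ k0, ← hks]
      simp only [mul_assoc]

end Lev

end Vale.Agent.P321.Super
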