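import Vale.Agent.P321.Super.Blocks
import Vale.Agent.P321.Super.Orth
import Vale.Agent.P321.Super.Shift

/-!
# P321: the shifted degree two part against a word of blocks

An average over positions of the shifted degree two part has norm `ν² (√W + δ)`: the localised
content of the last perturbed block is orthogonal at different positions.
-/

namespace Vale.Agent.P321.Super

open Finset

/-- A product with all errors in units of `η`. -/
theorem Ap.mul' {R S μ ν : Msr} (hR : IsProb R) (hS : IsProb S) {x x' y y' η : ℝ}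
    (h : Ap R μ x (y * η)) (h' : Ap S ν x' (y' * η)) (hη : 0 ≤ η) (hη1 : η ≤ 1) (hy : 0 ≤ y)
    (hy' : 0 ≤ y') : Ap (R * S) (μ * ν) (x * x') ((x + y) * (x' + y') * η) := by
  refine (h.mul hR hS h').mono le_rfl ?_
  have hx := h.nonneg.1
  have hx' := h'.nonneg.1
  nlinarith [mul_le_mul_of_nonneg_left hη1 (mul_nonneg (mul_nonneg hy hy') hη),
    mul_nonneg (mul_nonneg hx hx') hη]

theorem mul_sub_le {a e b f η : ℝ} (_ha : 0 ≤ a) (he : 0 ≤ e) (_hb : 0 ≤ b) (hf : 0 ≤ f) (hη : 0 ≤ η)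
    (hη1 : η ≤ 1) : (a + e * η) * (b + f * η) ≤ a * b + ((a + e) * (b + f) - a * b) * η := by
  nlinarith [mul_le_mul_of_nonneg_left hη1 (mul_nonneg (mul_nonneg he hf) hη)]

theorem mul_sub_le₄ {a e b f c g d h η : ℝ} (ha : 0 ≤ a) (he : 0 ≤ e) (hb : 0 ≤ b) (hf : 0 ≤ f)
    (hc : 0 ≤ c) (hg : 0 ≤ g) (hd : 0 ≤ d) (hh : 0 ≤ h) (hη : 0 ≤ η) (hη1 : η ≤ 1) :
    (a + e * η) * (b + f * η) * (c + g * η) * (d + h * η) - a * b * c * d ≤
      (a + e) * (b + f) * (c + g) * (d + h) * η := by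
  have nn : ∀ {x y u w : ℝ}, 0 ≤ x → 0 ≤ y → 0 ≤ u → 0 ≤ w → 0 ≤ (x + y) * (u + w) - x * u :=
    fun hx hy hu hw => by nlinarith [mul_nonneg hx hw, mul_nonneg hy hu, mul_nonneg hy hw]
  have h1 := mul_sub_le ha he hb hf hη hη1
  have h2 := mul_sub_le hc hg hd hh hη hη1
  have h3 := mul_sub_le (mul_nonneg ha hb) (nn ha he hb hf) (mul_nonneg hc hd) (nn hc hg hd hh)
    hη hη1
  have h4 := (mul_le_mul h1 h2 (by positivity)
    (add_nonneg (mul_nonneg ha hb) (mul_nonneg (nn ha he hb hf) hη))).trans h3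
  have h5 : 0 ≤ a * b * c * d := mul_nonneg (mul_nonneg (mul_nonneg ha hb) hc) hd
  nlinarith [mul_nonneg h5 hη]

namespace Lev

variable {v : Lev} {a : ℕ} {ν δ c κ η : ℝ}

/-- The constant for one block. -/
def blkC (κ0 : ℝ) : ℝ := 10 * (κ0 + 1) ^ 2

theorem one_le_blkC {κ0 : ℝ} (h : 0 ≤ κ0) : 1 ≤ blkC κ0 := by rw [blkC]; nlinarith

variable {κ0 : ℝ}

theorem Inv.block_x (h : v.Inv a ν δ c κ η) (hκ : κ ≤ κ0) {k : ℕ} (h0 : 0 < k) (hk : k ≤ v.A)
    (y x : Bool) : Ap (if y then v.U else v.Z) (v.blk (if x then v.o else v.e) k) (blkC κ0)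
      (blkC κ0 * η) := by
  obtain ⟨-, -, -, hκ1, hη, -⟩ := h.nonneg
  have he : (if y then v.U else v.Z) = v.s ^ v.A * (if y then v.o else v.e) * v.s ^ v.A := by
    cases y <;> rfl
  rw [he]
  refine (h.ap_blk (ρ := if y then v.o else v.e) (x := if x then v.o else v.e)
    (by cases y <;> simp) (by cases x <;> simp) h0 hk).mono ?_
    (mul_le_mul_of_nonneg_right ?_ hη) <;> rw [blkC] <;> nlinarith

theorem Inv.block_D (h : v.Inv a ν δ c κ η) (hκ : κ ≤ κ0) (hν : ν * (1 + δ) ≤ 1) (hδ : δ ≤ 1)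
    {k : ℕ} (h0 : a < k) (hk : 2 * k ≤ v.A) (y : Bool) :
    Ap (if y then v.U else v.Z) (v.blk (v.o - v.e) k) (blkC κ0 * ν) (blkC κ0 * η) := by
  obtain ⟨hν0, hδ0, -, hκ1, hη, -⟩ := h.nonneg
  have he : (if y then v.U else v.Z) = v.s ^ v.A * (if y then v.o else v.e) * v.s ^ v.A := by
    cases y <;> rfl
  rw [he]
  refine (h.ap_blkD (ρ := if y then v.o else v.e) (by cases y <;> simp) h0 hk).mono ?_
    (mul_le_mul_of_nonneg_right ?_ hη)
  · rw [show κ * (ν * (1 + δ)) = κ * (1 + δ) * ν by ring]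
    refine mul_le_mul_of_nonneg_right ?_ hν0
    rw [blkC]
    nlinarith
  · rw [blkC]
    nlinarith

theorem prob_ite (h : v.Inv a ν δ c κ η) (x : Bool) : IsProb (if x then v.U else v.Z) := by
  cases x <;> simp [h.probU, h.probZ]

theorem wd_cons' (v : Lev) (x : Bool) (b : List Bool) :
    v.wd (x :: b) = (if x then v.U else v.Z) * v.wd b := by simp [wd]

/-- Shifted words against words. -/
theorem Inv.ap_wdK (h : v.Inv a ν δ c κ η) (hκ : κ ≤ κ0) {k : ℕ} (h0 : 0 < k) (hk : k ≤ v.A) :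
    ∀ {b l : List Bool}, b.length = l.length →
      Ap (v.wd b) (v.wdK k l) (blkC κ0 ^ l.length) ((4 * blkC κ0) ^ l.length * η)
  | [], [], _ => by simpa [wd, wdK] using (Ap.self isProb_one).mono le_rfl h.nonneg.2.2.2.2.1
  | [], _ :: _, hl => absurd hl (by simp)
  | _ :: _, [], hl => absurd hl (by simp)
  | y :: b, x :: l, hl => by
    obtain ⟨-, -, -, hκ1, hη, hη1⟩ := h.nonneg
    set M := blkC κ0 with hMdef
    have hM : 1 ≤ M := one_le_blkC (by linarith)
    have ih := Inv.ap_wdK h hκ h0 hk (b := b) (l := l) (by simpa using hl)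
    rw [wd_cons', wdK_cons, List.length_cons, pow_succ', pow_succ']
    refine ((h.block_x hκ h0 hk y x).mul' (prob_ite h y) (h.probWd b) ih hη hη1 (by linarith)
      (by positivity)).mono le_rfl (mul_le_mul_of_nonneg_right ?_ hη)
    have h4 : M ^ l.length ≤ (4 * M) ^ l.length :=
      pow_le_pow_left₀ (by linarith) (by linarith) _
    nlinarith [mul_le_mul_of_nonneg_left h4 (by linarith : (0 : ℝ) ≤ M)]

/-- Shifted words minus shifted pure ground words. -/
theorem Inv.ap_wdK_sub (h : v.Inv a ν δ c κ η) (hκ : κ ≤ κ0) (hν : ν * (1 + δ) ≤ 1) (hδ : δ ≤ 1)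
    {k : ℕ} (h0 : a < k) (hk : 2 * k ≤ v.A) :
    ∀ {b l : List Bool}, b.length = l.length →
      Ap (v.wd b) (v.wdK k l - v.blk v.e k ^ l.length) (l.length * blkC κ0 ^ l.length * ν)
        ((8 * blkC κ0) ^ l.length * η)
  | [], [], _ => by simpa [wd, wdK] using (Ap.zero (1 : Msr)).mono le_rfl h.nonneg.2.2.2.2.1
  | [], _ :: _, hl => absurd hl (by simp)
  | _ :: _, [], hl => absurd hl (by simp)
  | y :: b, x :: l, hl => by
    obtain ⟨hν0, hδ0, -, hκ1, hη, hη1⟩ := h.nonneg
    set M := blkC κ0 with hMdef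
    have hM : 1 ≤ M := one_le_blkC (by linarith)
    have hν1 : ν ≤ 1 := le_trans (by nlinarith) hν
    have hl' : b.length = l.length := by simpa using hl
    have ih := Inv.ap_wdK_sub h hκ hν hδ h0 hk hl'
    have hD : Ap (if y then v.U else v.Z) (v.blk (if x then v.o else v.e) k - v.blk v.e k)
        (M * ν) (M * η) := by
      cases x
      · simpa using (Ap.zero _).mono (mul_nonneg (by linarith) hν0) (mul_nonneg (by linarith) hη)
      · have := h.block_D hκ hν hδ h0 hk y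
        rw [Lev.blk_sub v] at this
        simpa using this
    have hB : Ap (if y then v.U else v.Z) (v.blk v.e k) M (M * η) := by
      simpa using h.block_x hκ (x := false) (by omega) (by omega) y
    have h1 := (hD.mul' (prob_ite h y) (h.probWd b) (h.ap_wdK hκ (k := k) (by omega) (by omega) hl') hη hη1
      (by linarith) (by positivity)).add ((prob_ite h y).mul (h.probWd b))
      (hB.mul' (prob_ite h y) (h.probWd b) ih hη hη1 (by linarith) (by positivity))
    rw [wd_cons', wdK_cons, List.length_cons]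
    refine (h1.congr (by rw [pow_succ' (v.blk v.e k), sub_mul, mul_sub]; abel)).mono
      (le_of_eq ?_) ?_
    · push_cast; ring
    · rw [← add_mul]
      refine mul_le_mul_of_nonneg_right ?_ hη
      have h4 : M ^ l.length ≤ (4 * M) ^ l.length :=
        pow_le_pow_left₀ (by linarith) (by linarith) _
      have h8 : (4 * M) ^ l.length ≤ (8 * M) ^ l.length :=
        pow_le_pow_left₀ (by linarith) (by linarith) _
      have h2 : (l.length : ℝ) * M ^ l.length ≤ (8 * M) ^ l.length := by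
        rw [mul_pow]
        refine mul_le_mul_of_nonneg_right ?_ (by positivity)
        have : ((l.length : ℕ) : ℝ) ≤ ((8 ^ l.length : ℕ) : ℝ) :=
          Nat.cast_le.2 (Nat.lt_pow_self (by norm_num)).le
        simpa using this
      have h5 : (l.length : ℝ) * M ^ l.length * ν ≤ (8 * M) ^ l.length :=
        (mul_le_of_le_one_right (by positivity) hν1).trans h2
      have h6 : M * ν + M ≤ 2 * M := by nlinarith
      rw [pow_succ' (8 * M)]
      nlinarith [mul_le_mul h6 (add_le_add (h4.trans h8) h8) (by positivity) (by linarith),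
        mul_le_mul_of_nonneg_left (add_le_add h5 (le_refl ((8 * M) ^ l.length)))
          (by linarith : (0 : ℝ) ≤ 2 * M)]

/-- The constant for one term of the degree two part. -/
def termC (κ0 : ℝ) (R : ℕ) : ℝ := 30 * (κ0 + 1) * (8 * blkC κ0) ^ (2 * R) * (R + 1)

theorem Inv.ap_term (h : v.Inv a ν δ c κ η) (hκ : κ ≤ κ0) (hν : ν * (1 + δ) ≤ 1) (hδ : δ ≤ 1)
    {R : ℕ} {b1 b2 l : List Bool} (hl : b1.length = l.length) (hR : b1.length + b2.length < R)
    (y : Bool) {K : Finset ℕ} (hK : ∀ k ∈ K, a < k ∧ 4 * k ≤ v.A) {w : ℕ → ℝ}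
    (hw0 : ∀ k ∈ K, 0 ≤ w k) (hw1 : ∑ k ∈ K, w k ≤ 1) {W : ℝ} (hW : ∑ k ∈ K, w k ^ 2 ≤ W) :
    Ap (v.wd (b1 ++ y :: b2))
      (∑ k ∈ K, w k • ((v.wdK k l - v.blk v.e k ^ l.length) * v.blk (v.o - v.e) k *
        v.blk v.e k ^ b2.length))
      (termC κ0 R * (ν ^ 2 * (Real.sqrt W + δ))) (termC κ0 R * η) := by
  obtain ⟨hν0, hδ0, -, hκ1, hη, hη1⟩ := h.nonneg
  obtain ⟨g, r, hg0, -, hgs, hrs, -, hrep⟩ := h.rep
  set M := blkC κ0 with hMdef
  have hM : 1 ≤ M := one_le_blkC (by linarith)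
  have hν1 : ν ≤ 1 := le_trans (by nlinarith) hν
  set T := (8 * M) ^ R with hT
  have hT1 : 1 ≤ T := one_le_pow₀ (by linarith)
  have hT2 : (8 * M) ^ (2 * R) = T * T := by rw [hT, ← pow_add, two_mul]
  have hpb : ∀ n, n ≤ R → M ^ n ≤ T ∧ (4 * M) ^ n ≤ T ∧ (8 * M) ^ n ≤ T := fun n hn => by
    have h8 : (8 * M) ^ n ≤ T := pow_le_pow_right₀ (by linarith) hn
    exact ⟨(pow_le_pow_left₀ (by linarith) (by linarith) _).trans h8,
      (pow_le_pow_left₀ (by linarith) (by linarith) _).trans h8, h8⟩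
  set ax := (R : ℝ) * T * ν with hax
  set X : ℕ → Msr := fun k => v.wdK k l - v.blk v.e k ^ l.length with hX
  set Y : ℕ → Msr := fun k => v.blk v.e k ^ b2.length with hY
  have hXk : ∀ k ∈ K, Ap (v.wd b1) (X k) ax (T * η) := fun k hk => by
    obtain ⟨h0, h4⟩ := hK k hk
    refine (h.ap_wdK_sub hκ hν hδ h0 (by omega) hl).mono ?_
      (mul_le_mul_of_nonneg_right (hpb _ (by omega)).2.2 hη)
    refine mul_le_mul_of_nonneg_right (mul_le_mul ?_ (hpb _ (by omega)).1 (by positivity)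
      (by positivity)) hν0
    exact_mod_cast (by omega : l.length ≤ R)
  have hYk : ∀ k ∈ K, Ap (v.wd b2) (Y k) T (T * η) := fun k hk => by
    obtain ⟨h0, h4⟩ := hK k hk
    have := h.ap_wdK hκ (k := k) (by omega) (by omega) (b := b2)
      (l := List.replicate b2.length false) (by simp)
    rw [wdK_replicate, List.length_replicate] at this
    exact this.mono (hpb _ (by omega)).1 (mul_le_mul_of_nonneg_right (hpb _ (by omega)).2.1 hη)
  set ρ := (if y then v.o else v.e) with hρdef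
  have hρ : ρ ∈ [v.e, v.o] := by rw [hρdef]; cases y <;> simp
  have eref : v.wd (b1 ++ y :: b2) = v.wd b1 * (v.s ^ v.A * ρ * v.s ^ v.A) * v.wd b2 := by
    rw [wd_append, wd_cons', mul_assoc, hρdef]
    cases y <;> rfl
  rw [eref]
  have hP1 := h.probWd b1
  have hP2 := h.probWd b2
  have hPm : IsProb (v.s ^ v.A * ρ * v.s ^ v.A) :=
    ((h.probS.pow _).mul (h.prob_ref hρ)).mul (h.probS.pow _)
  have hPall := (hP1.mul hPm).mul hP2
  have hax0 : 0 ≤ ax := by positivity
  -- the localised part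
  have hg := ap_orth (s := v.s) (σ := v.s) (ρ := ρ) h.probS (h.prob_ref hρ) hP1 hP2 (A := v.A)
    (K := K) (fun k hk => by have := hK k hk; omega) hw0 hw1 hW hg0 hXk hYk (h.crossS ρ hρ).1 hgs
    hax0 (by linarith) (by positivity) (by positivity)
  -- the wide part
  have hr' : ∀ k ∈ K, Ap (v.wd b1 * (v.s ^ v.A * ρ * v.s ^ v.A) * v.wd b2)
      (w k • (X k * (v.s ^ (v.A - a + k) * r * v.s ^ (v.A - a - k)) * Y k))
      (w k * (ax * (κ * (ν * δ)) * T))
      (w k * (((ax * (κ * (ν * δ))) + (ax + T) * (κ * (ν * δ) + 3 * (κ + 1))) * (T + T) * η)) :=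
      fun k hk => by
    obtain ⟨h0, h4⟩ := hK k hk
    have hm : Ap (v.s ^ v.A * ρ * v.s ^ v.A) (v.s ^ (v.A - a + k) * r * v.s ^ (v.A - a - k))
        (κ * (ν * δ)) (3 * (κ + 1) * η) :=
      (h.ap_moved hρ h0 (by omega) hrs).mono le_rfl (by
        nlinarith [mul_le_mul_of_nonneg_left hη1 hη, mul_le_mul_of_nonneg_left hν1 (mul_nonneg hδ0 hη),
          mul_le_mul_of_nonneg_left hδ hη])
    have := ((hXk k hk).mul' hP1 hPm hm hη hη1 (by linarith) (by linarith)).mul' (hP1.mul hPm) hP2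
      (hYk k hk) hη hη1 (mul_nonneg (add_nonneg hax0 (by linarith))
        (add_nonneg (by positivity) (by linarith))) (by linarith)
    simpa [abs_of_nonneg (hw0 k hk)] using this.smul (w k)
  have hr := Ap.sum hPall K _ _ _ hr'
  rw [← Finset.sum_mul, ← Finset.sum_mul] at hr
  -- the remainder
  have he : l1 (∑ k ∈ K, w k • (X k * (v.blk (v.o - v.e) k - (v.blk g k +
      v.s ^ (v.A - a + k) * r * v.s ^ (v.A - a - k))) * Y k)) ≤
      (ax + T * η) * (T + T * η) * η := by
    refine (l1_sum_le _ _).trans ((Finset.sum_le_sum fun k hk => ?_).trans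
      ((Finset.sum_mul _ _ _).symm.le.trans (mul_le_of_le_one_left (by positivity) hw1)))
    obtain ⟨h0, h4⟩ := hK k hk
    rw [l1_smul, abs_of_nonneg (hw0 k hk)]
    refine mul_le_mul_of_nonneg_left ?_ (hw0 k hk)
    have hd : l1 (v.blk (v.o - v.e) k -
        (v.blk g k + v.s ^ (v.A - a + k) * r * v.s ^ (v.A - a - k))) ≤ η := by
      refine le_trans (le_of_eq (congrArg l1 ?_)) (hrep k (by omega))
      rw [Lev.blk_sub v (v.o - v.e) g k, sub_add_eq_sub_sub]
    calc _ ≤ l1 (X k) * l1 (v.blk (v.o - v.e) k -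
          (v.blk g k + v.s ^ (v.A - a + k) * r * v.s ^ (v.A - a - k))) * l1 (Y k) :=
          (l1_mul_le _ _).trans (mul_le_mul_of_nonneg_right (l1_mul_le _ _) (l1_nonneg _))
      _ ≤ (ax + T * η) * η * (T + T * η) := mul_le_mul (mul_le_mul ((hXk k hk).l1_le hP1) hd
          (l1_nonneg _) (by positivity)) ((hYk k hk).l1_le hP2) (l1_nonneg _) (by positivity)
      _ = (ax + T * η) * (T + T * η) * η := by ring
  have hsum := (hg.add hPall hr).of_near (ν := ∑ k ∈ K, w k • (X k * v.blk (v.o - v.e) k * Y k))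
    (δ := (ax + T * η) * (T + T * η) * η) (le_trans (le_of_eq (congrArg l1 (by
      rw [← Finset.sum_add_distrib, ← Finset.sum_sub_distrib]
      refine Finset.sum_congr rfl fun k hk => ?_
      rw [← smul_add, ← smul_sub]
      congr 1
      rw [← shift_eq v.s g (A := v.A) (k := k) (by have := hK k hk; omega), ← blk]
      noncomm_ring))) he)
  rw [termC, ← hMdef, hT2]
  have hR0 : (0 : ℝ) ≤ R := Nat.cast_nonneg R
  have hT0 : (0 : ℝ) ≤ T := by linarith
  have hκ00 : (0 : ℝ) ≤ κ0 + 1 := by linarith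
  have hax1 : ax + T ≤ (R + 1) * T := by
    rw [add_mul, one_mul]
    exact add_le_add (mul_le_of_le_one_right (by positivity) hν1) le_rfl
  have hνδ : ν * δ ≤ 1 := by nlinarith
  refine hsum.mono ?_ ?_
  · calc _ ≤ ax * T * κ * ν * Real.sqrt W + ax * (κ * (ν * δ)) * T := by
          refine add_le_add le_rfl ?_
          exact mul_le_of_le_one_left (by positivity) hw1
      _ = (R : ℝ) * κ * (T * T) * (ν ^ 2 * (Real.sqrt W + δ)) := by rw [hax]; ring
      _ ≤ (R + 1) * (30 * (κ0 + 1)) * (T * T) * (ν ^ 2 * (Real.sqrt W + δ)) := by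
          refine mul_le_mul_of_nonneg_right (mul_le_mul_of_nonneg_right ?_ (by positivity))
            (by positivity)
          exact mul_le_mul (by linarith) (by linarith) (by linarith) (by linarith)
      _ = _ := by ring
  · have h1 : (ax + T * η) * (κ + η) * (ν + 2 * η) * (T + T * η) - ax * κ * ν * T ≤
        6 * ((R + 1) * T * (κ0 + 1) * T) * η := by
      have h := mul_sub_le₄ hax0 hT0 (by linarith : 0 ≤ κ) zero_le_one hν0
        (by norm_num : (0 : ℝ) ≤ 2) hT0 hT0 hη hη1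
      rw [one_mul] at h
      refine h.trans (mul_le_mul_of_nonneg_right ?_ hη)
      calc _ ≤ (R + 1) * T * (κ0 + 1) * 3 * (T + T) := by gcongr; linarith
        _ = _ := by ring
    have h3 : (∑ k ∈ K, w k) * (((ax * (κ * (ν * δ))) + (ax + T) * (κ * (ν * δ) + 3 * (κ + 1))) *
        (T + T) * η) ≤ 10 * ((R + 1) * T * (κ0 + 1) * T) * η := by
      refine (mul_le_of_le_one_left (by positivity) hw1).trans (mul_le_mul_of_nonneg_right ?_ hη)
      have hκν : κ * (ν * δ) ≤ κ0 + 1 :=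
        (mul_le_of_le_one_right (by linarith) hνδ).trans (by linarith)
      calc _ ≤ ((ax + T) * (κ0 + 1) + (ax + T) * ((κ0 + 1) + 3 * (κ0 + 1))) * (T + T) := by
            gcongr; linarith
        _ ≤ ((R + 1) * T * (κ0 + 1) + (R + 1) * T * ((κ0 + 1) + 3 * (κ0 + 1))) * (T + T) := by
            gcongr
        _ = _ := by ring
    have h2 : (ax + T * η) * (T + T * η) * η ≤ 2 * ((R + 1) * T * (κ0 + 1) * T) * η := by
      refine mul_le_mul_of_nonneg_right ?_ hη
      have hTη : T * η ≤ T := mul_le_of_le_one_right hT0 hη1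
      calc _ ≤ (R + 1) * T * (T + T) := mul_le_mul (by linarith) (by linarith) (by positivity)
            (by positivity)
        _ = 2 * ((R + 1) * T * 1 * T) := by ring
        _ ≤ _ := by gcongr; linarith
    have hnn : 0 ≤ (R + 1) * T * (κ0 + 1) * T * η := by positivity
    linarith

end Lev

end Vale.Agent.P321.Super
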