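import Vale.Agent.P321.Super.Degree1
import Vale.Agent.P321.Super.StepTerm

/-!
# P321: the step from one level to the next

The degree two part of the Thue-Morse difference is expanded by random shifts. The shifted copies
give the new localised part, the offset blocks left by the shifts give the new wide part, and the
alternating sum and the linear part are negligible.
-/

namespace Vale.Agent.P321.Super

open Finset

namespace Lev

variable {v : Lev} {a : ℕ} {ν δ c κ η κ0 : ℝ}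

/-- The shifted degree two part of the difference of the Thue-Morse words. -/
noncomputable def dhighK (v : Lev) (r k : ℕ) : Msr :=
  v.highK k (tmw r).2 - v.highK k (tmw r).1

theorem semiconjBy_dhighK (v : Lev) (r : ℕ) {i k : ℕ} (h : i + k ≤ v.A) :
    SemiconjBy (v.s ^ k) (v.dhighK r i) (v.dhighK r (i + k)) :=
  (v.semiconjBy_highK _ h).sub_right (v.semiconjBy_highK _ h)

theorem Inv.ap_highK (h : v.Inv a ν δ c κ η) (hκ : κ ≤ κ0) (hν : ν * (1 + δ) ≤ 1) (hδ : δ ≤ 1)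
    {b b' : List Bool} (hl : b'.length = b.length) {K : Finset ℕ}
    (hK : ∀ k ∈ K, a < k ∧ 4 * k ≤ v.A) {w : ℕ → ℝ} (hw0 : ∀ k ∈ K, 0 ≤ w k)
    (hw1 : ∑ k ∈ K, w k ≤ 1) {W : ℝ} (hW : ∑ k ∈ K, w k ^ 2 ≤ W) :
    Ap (v.wd b') (∑ k ∈ K, w k • v.highK k b)
      (b.length * (termC κ0 b.length * (ν ^ 2 * (Real.sqrt W + δ))))
      (b.length * (termC κ0 b.length * η)) := by
  obtain ⟨hν0, hδ0, -, hκ1, hη, -⟩ := h.nonneg
  have hκ0 : 0 ≤ κ0 := by linarith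
  have hT : 0 ≤ termC κ0 b.length := by rw [termC, blkC]; positivity
  refine ((Ap.sum (h.probWd b') (range b.length)
    (fun i => ∑ k ∈ K, w k • if b[i]? = some true then
      (v.wdK k (b.take i) - v.blk v.e k ^ i) * v.blk (v.o - v.e) k *
        v.blk v.e k ^ (b.length - 1 - i) else 0)
    (fun _ => termC κ0 b.length * (ν ^ 2 * (Real.sqrt W + δ))) (fun _ => termC κ0 b.length * η)
    fun i hi => ?_).congr ?_).mono (le_of_eq (by simp)) (le_of_eq (by simp))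
  · rw [mem_range] at hi
    by_cases hb : b[i]? = some true
    · simp only [hb, if_true]
      have hi' : i < b'.length := by omega
      have e : b' = b'.take i ++ b'[i] :: b'.drop (i + 1) := by
        rw [← List.drop_eq_getElem_cons hi', List.take_append_drop]
      have := h.ap_term hκ hν hδ (R := b.length) (b1 := b'.take i) (b2 := b'.drop (i + 1))
        (l := b.take i) (by simp [hl]) (by simp; omega) b'[i] hK hw0 hw1 hW
      rw [← e, List.length_drop, List.length_take, min_eq_left hi.le,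
        show b'.length - (i + 1) = b.length - 1 - i by omega] at this
      exact this
    · simp only [hb, if_false, smul_zero, sum_const_zero]
      exact (Ap.zero _).mono (by positivity) (by positivity)
  · simp only [highK, Finset.smul_sum]
    exact Finset.sum_comm

/-- The constant for the degree two part of the difference. -/
def dC (κ0 : ℝ) (r : ℕ) : ℝ := 2 * (2 ^ r : ℕ) * termC κ0 (2 ^ r)

theorem Inv.ap_dhighK (h : v.Inv a ν δ c κ η) (hκ : κ ≤ κ0) (hν : ν * (1 + δ) ≤ 1) (hδ : δ ≤ 1)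
    {r : ℕ} {b' : List Bool} (hl : b'.length = 2 ^ r) {K : Finset ℕ}
    (hK : ∀ k ∈ K, a < k ∧ 4 * k ≤ v.A) {w : ℕ → ℝ} (hw0 : ∀ k ∈ K, 0 ≤ w k)
    (hw1 : ∑ k ∈ K, w k ≤ 1) {W : ℝ} (hW : ∑ k ∈ K, w k ^ 2 ≤ W) :
    Ap (v.wd b') (∑ k ∈ K, w k • v.dhighK r k) (dC κ0 r * (ν ^ 2 * (Real.sqrt W + δ)))
      (dC κ0 r * η) := by
  obtain ⟨h1, h2⟩ := length_tmw r
  have a1 := h.ap_highK hκ hν hδ (b := (tmw r).2) (hl.trans h2.symm) hK hw0 hw1 hW
  have a2 := h.ap_highK hκ hν hδ (b := (tmw r).1) (hl.trans h1.symm) hK hw0 hw1 hW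
  rw [h2] at a1
  rw [h1] at a2
  refine ((a1.sub (h.probWd b') a2).congr ?_).mono (le_of_eq (by rw [dC]; ring))
    (le_of_eq (by rw [dC]; ring))
  simp [dhighK, smul_sub]

theorem mass_dhighK (h : v.Inv a ν δ c κ η) (r k : ℕ) : mass (v.dhighK r k) = 0 := by
  have hD : mass (v.blk (v.o - v.e) k) = 0 := by
    rw [blk, map_mul, map_mul, map_sub, h.probO.mass_one, h.probE.mass_one, sub_self, mul_zero,
      zero_mul]
  have : ∀ b, mass (v.highK k b) = 0 := fun b => by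
    rw [highK, map_sum]
    refine Finset.sum_eq_zero fun i _ => ?_
    split_ifs
    · rw [map_mul, map_mul, hD, mul_zero, zero_mul]
    · simp
  rw [dhighK, map_sub, this, this, sub_self]

theorem l1_high_le (h : v.Inv a ν δ c κ η) (b : List Bool) : l1 (v.high b) ≤ 4 * b.length := by
  refine (l1_sum_le _ _).trans ((Finset.sum_le_sum (g := fun _ => (4 : ℝ)) fun i _ => ?_).trans_eq
    (by simp [mul_comm]))
  split_ifs
  · refine (l1_mul_prob_right (h.probZ.pow _) _).trans ((l1_mul_le _ _).trans ?_)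
    refine (mul_le_mul (l1_sub_prob_le (h.probWd _) (h.probZ.pow i))
      (l1_sub_prob_le h.probU h.probZ) (l1_nonneg _) (by norm_num)).trans (by norm_num)
  · simp

theorem Inv.ap_offs (h : v.Inv a ν δ c κ η) {N : ℕ} {L : List ℕ} (hL : L.length = N)
    (ho : ∀ o ∈ L, 4 * o ≤ v.A) (hN : (1 + 4 * c ^ 2) ^ N ≤ 2) :
    Ap (v.Z ^ N) (v.offs L - v.Z ^ N) (Real.sqrt ((1 + 4 * c ^ 2) ^ N - 1))
      ((8 * N + 1 : ℝ) * η) := by
  obtain ⟨-, -, -, -, hη, -⟩ := h.nonneg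
  have := prod_near (c := 2 * c) (η := 2 * η) (L.map fun o => (v.Z, v.blk v.e o)) fun x hx => by
    obtain ⟨o, ho', rfl⟩ := List.mem_map.1 hx
    exact ⟨h.probZ, h.probBlk h.probE o, h.blk_sub (ho o ho')⟩
  simp only [List.map_map, Function.comp_def, List.length_map, hL, List.map_const',
    List.prod_replicate] at this
  rw [show (2 * c) ^ 2 = 4 * c ^ 2 by ring] at this
  refine (this.congr (by simp [offs])).mono le_rfl ?_
  have : Real.sqrt ((1 + 4 * c ^ 2) ^ N - 1) ≤ 1 := Real.sqrt_le_one.2 (by linarith)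
  have : (0 : ℝ) ≤ N * η := by positivity
  nlinarith

theorem Inv.l1_piece (h : v.Inv a ν δ c κ η) {n k : ℕ} (hn : 1 ≤ n) (hk : 2 * k ≤ v.A)
    (hN : (1 + 4 * c ^ 2) ^ n ≤ 2) {δS : ℝ}
    (h1 : l1 (v.s ^ (n * (2 * v.A + 1) + k) - v.s ^ (n * (2 * v.A + 1))) ≤ δS)
    (h2 : l1 (v.s ^ (n * (2 * v.A + 1) - k) - v.s ^ (n * (2 * v.A + 1))) ≤ δS) :
    l1 (v.pL n k - v.pL n 0) ≤
        δS + 4 * Real.sqrt ((1 + 4 * c ^ 2) ^ n - 1) + c + 10 * ((n + 1 : ℕ) : ℝ) * η ∧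
      l1 (v.pR n k - v.pR n 0) ≤
        δS + 4 * Real.sqrt ((1 + 4 * c ^ 2) ^ n - 1) + c + 10 * ((n + 1 : ℕ) : ℝ) * η := by
  obtain ⟨-, -, hc, -, hη, -⟩ := h.nonneg
  have hp := h.probS
  set σ := Real.sqrt ((1 + 4 * c ^ 2) ^ n - 1) with hσ
  have hσ0 : 0 ≤ σ := Real.sqrt_nonneg _
  have hσ1 : σ ≤ 1 := Real.sqrt_le_one.2 (by linarith)
  set L := n * (2 * v.A + 1) with hL
  have hpure : ∀ i ≤ n, l1 (v.s ^ (i * (2 * v.A + 1)) - v.Z ^ i) ≤ σ + 4 * n * η := fun i hi => by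
    refine (h.l1_pow_pure i).trans ?_
    have hs : Real.sqrt ((1 + c ^ 2) ^ i - 1) ≤ σ := Real.sqrt_le_sqrt (sub_le_sub_right
      ((pow_le_pow_right₀ (by linarith [sq_nonneg c]) hi).trans
        (pow_le_pow_left₀ (by positivity) (by linarith [sq_nonneg c]) n)) 1)
    have hi' : (i : ℝ) ≤ n := by exact_mod_cast hi
    have := mul_le_mul (mul_le_mul_of_nonneg_right hi' (by linarith : (0 : ℝ) ≤ 2 * η))
      (show 1 + Real.sqrt ((1 + c ^ 2) ^ i - 1) ≤ 2 by linarith) (by positivity) (by positivity)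
    linarith
  have hfin : ∀ X, X ≤ δS + (2 * (σ + 4 * n * η) + (c + η)) →
      X ≤ δS + 4 * σ + c + 10 * ((n + 1 : ℕ) : ℝ) * η := fun X hX => by
    have : (0 : ℝ) ≤ n * η := by positivity
    push_cast
    nlinarith
  have hn' := hpure n le_rfl
  constructor
  · refine hfin _ ?_
    rw [pL, pL, pow_zero, mul_one, show v.Z ^ n * v.s ^ k - v.Z ^ n =
      ((v.s ^ (L + k) - v.s ^ L) + (v.s ^ L - v.Z ^ n)) - (v.s ^ L - v.Z ^ n) * v.s ^ k by
        rw [sub_mul, pow_add]; abel]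
    refine (l1_sub_le _ _).trans ?_
    have := (l1_add_le (v.s ^ (L + k) - v.s ^ L) (v.s ^ L - v.Z ^ n)).trans (add_le_add h1 hn')
    have := (l1_mul_prob_right (hp.pow k) (v.s ^ L - v.Z ^ n)).trans hn'
    linarith
  · refine hfin _ ?_
    rw [v.pR_zero hn, pR]
    set Y := v.s ^ v.A * v.e * v.s ^ (v.A - k) with hY
    have hYp : IsProb Y := ((hp.pow _).mul h.probE).mul (hp.pow _)
    have hc' : l1 (Y - v.s ^ (2 * v.A + 1 - k)) ≤ c + η := by
      have := h.centre v.A (v.A - k) 0 (by omega) (by omega) (by omega) (by omega) (by omega)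
      rw [add_zero, Nat.sub_zero, show v.A + (v.A - k) + 1 = 2 * v.A + 1 - k by omega] at this
      exact this.l1_le hYp
    have hn1 := hpure (n - 1) (by omega)
    have e : v.s ^ ((n - 1) * (2 * v.A + 1)) * v.s ^ (2 * v.A + 1 - k) = v.s ^ (L - k) := by
      rw [← pow_add, hL]
      congr 1
      obtain ⟨n', rfl⟩ := Nat.exists_eq_add_of_le hn
      rw [Nat.add_sub_cancel_left, add_mul, one_mul]
      omega
    rw [show v.Z ^ (n - 1) * Y - v.Z ^ n =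
      ((v.Z ^ (n - 1) * (Y - v.s ^ (2 * v.A + 1 - k)) -
        (v.s ^ ((n - 1) * (2 * v.A + 1)) - v.Z ^ (n - 1)) * v.s ^ (2 * v.A + 1 - k)) +
        (v.s ^ (L - k) - v.s ^ L)) + (v.s ^ L - v.Z ^ n) by
      rw [mul_sub, sub_mul, e]; abel]
    have b1 := (l1_mul_prob_left (h.probZ.pow (n - 1)) (Y - v.s ^ (2 * v.A + 1 - k))).trans hc'
    have b2 := (l1_mul_prob_right (hp.pow (2 * v.A + 1 - k))
      (v.s ^ ((n - 1) * (2 * v.A + 1)) - v.Z ^ (n - 1))).trans hn1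
    refine (l1_add_le _ _).trans ?_
    refine (add_le_add ((l1_add_le _ _).trans (add_le_add ((l1_sub_le _ _).trans
      (add_le_add b1 b2)) h2)) hn').trans ?_
    linarith

/-- Offset blocks around a content, against exact blocks around it. -/
theorem Inv.ap_offs_sub (h : v.Inv a ν δ c κ η) {N : ℕ} {L L' : List ℕ} (hL : L.length = N)
    (hL' : L'.length = N) (ho : ∀ o ∈ L ++ L', 4 * o ≤ v.A) (hN : (1 + 4 * c ^ 2) ^ N ≤ 2)
    (hη : (8 * N + 1 : ℝ) * η ≤ 1) {b : List Bool} {X : Msr} {x y : ℝ}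
    (hX : Ap (v.wd b) X x (y * η)) (hy : 0 ≤ y) (hxy : x ≤ 2 * y) :
    Ap (v.Z ^ N * v.wd b * v.Z ^ N) (v.Z ^ N * X * v.Z ^ N - v.offs L * X * v.offs L')
      (3 * (x * Real.sqrt ((1 + 4 * c ^ 2) ^ N - 1))) (34 * y * ((8 * N + 1 : ℝ) * η)) := by
  obtain ⟨-, -, -, -, hη0, -⟩ := h.nonneg
  set σ := Real.sqrt ((1 + 4 * c ^ 2) ^ N - 1) with hσ
  have hσ0 : 0 ≤ σ := Real.sqrt_nonneg _
  have hσ1 : σ ≤ 1 := Real.sqrt_le_one.2 (by linarith)
  set η1 := (8 * N + 1 : ℝ) * η with hη1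
  have hηle : η ≤ η1 := le_mul_of_one_le_left hη0 (by simp)
  have h0 : 0 ≤ η1 := hη0.trans hηle
  have hx := hX.nonneg.1
  have hP := h.probZ.pow N
  have hW := h.probWd b
  have hR := (hP.mul hW).mul hP
  have oL : Ap (v.Z ^ N) (v.offs L - v.Z ^ N) σ (1 * η1) := by
    rw [one_mul]; exact h.ap_offs hL (fun o h => ho o (by simp [h])) hN
  have oR : Ap (v.Z ^ N) (v.offs L' - v.Z ^ N) σ (1 * η1) := by
    rw [one_mul]; exact h.ap_offs hL' (fun o h => ho o (by simp [h])) hN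
  have oR' : Ap (v.Z ^ N) (v.offs L') 2 (1 * η1) := by
    refine (((Ap.self hP).add hP oR).congr (by abel)).mono (by linarith) (by linarith)
  have oZ : Ap (v.Z ^ N) (v.Z ^ N) 1 (0 * η1) := by simpa using Ap.self hP
  have hX' := hX.mono (le_refl x) (mul_le_mul_of_nonneg_left hηle hy)
  have t1 := (oL.mul' hP hW hX' h0 hη zero_le_one hy).mul' (hP.mul hW) hP oR' h0 hη
    (by positivity) zero_le_one
  have t2 := (oZ.mul' hP hW hX' h0 hη le_rfl hy).mul' (hP.mul hW) hP oR h0 hη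
    (by positivity) zero_le_one
  refine (((t1.add hR t2).neg).congr ?_).mono (le_of_eq (by ring)) ?_
  · noncomm_ring
  · rw [← add_mul]
    refine mul_le_mul_of_nonneg_right ?_ h0
    calc (σ * x + (σ + 1) * (x + y)) * (2 + 1) + (1 * x + (1 + 0) * (x + y)) * (σ + 1)
        ≤ (1 * (2 * y) + (1 + 1) * (2 * y + y)) * (2 + 1) +
          (1 * (2 * y) + (1 + 0) * (2 * y + y)) * (1 + 1) := by gcongr
      _ = 34 * y := by ring

/-- The shifted content in exact ground blocks. -/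
noncomputable def stepF (v : Lev) (r N k : ℕ) : Msr := v.Z ^ N * v.dhighK r k * v.Z ^ N

/-- The new localised part. -/
noncomputable def stepG (v : Lev) (r a I : ℕ) : Msr :=
  ∑ m ∈ univ.erase (mask0 r), (-sgn m) • avg r (a + 1) I fun t => v.dhighK r (ksum t m)

/-- The new wide part: exact blocks against offset blocks. -/
noncomputable def stepR (v : Lev) (r a I n : ℕ) : Msr :=
  ∑ m ∈ univ.erase (mask0 r), sgn m • avg r (a + 1) I fun t =>
    v.stepF r (r * n) (ksum t m) - pc (v.pL n) (v.pR n) (v.dhighK r 0) r t m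

theorem card_masks (r : ℕ) : (#(univ.erase (mask0 r)) : ℝ) ≤ 2 ^ r := by
  have : #(univ.erase (mask0 r)) ≤ 2 ^ r := (Finset.card_erase_le).trans_eq (by simp)
  exact_mod_cast this

theorem dC_nonneg (h : v.Inv a ν δ c κ η) (hκ : κ ≤ κ0) (r : ℕ) : 0 ≤ dC κ0 r := by
  have : 0 ≤ κ0 + 1 := by linarith [h.nonneg.2.2.2.1]
  rw [dC, termC, blkC]
  positivity

theorem ksum_steps_le {r I : ℕ} (hIA : 4 * (r * (a + 1 + I)) ≤ v.A) {t : Fin r → ℕ}
    (ht : t ∈ steps r (a + 1) I) (m : Fin r → Bool) : 4 * ksum t m ≤ v.A := by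
  have hb : ksum t m ≤ r * (a + 1 + I) := ksum_le (fun i => ((mem_steps.1 ht) i).2.le) m
  omega

theorem Inv.ap_stepG (h : v.Inv a ν δ c κ η) (hκ : κ ≤ κ0) (hν : ν * (1 + δ) ≤ 1) (hδ : δ ≤ 1)
    {r I : ℕ} (hI : 0 < I) (hIA : 4 * (r * (a + 1 + I)) ≤ v.A) {b : List Bool}
    (hb : b.length = 2 ^ r) :
    Ap (v.wd b) (v.stepG r a I) (2 ^ r * dC κ0 r * (ν ^ 2 * (1 / Real.sqrt I + δ)))
      (2 ^ r * dC κ0 r * η) := by
  obtain ⟨hν0, hδ0, -, -, hη, -⟩ := h.nonneg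
  have hD := dC_nonneg h hκ r
  have key : ∀ m ∈ univ.erase (mask0 r),
      Ap (v.wd b) ((-sgn m) • avg r (a + 1) I fun t => v.dhighK r (ksum t m))
        (dC κ0 r * (ν ^ 2 * (Real.sqrt (1 / I : ℝ) + δ))) (dC κ0 r * η) := by
    intro m hm
    have := h.ap_dhighK hκ hν hδ (r := r) hb
      (K := (steps r (a + 1) I).image fun t => ksum t m) (fun k hk => by
        obtain ⟨t, ht, rfl⟩ := mem_image.1 hk
        exact ⟨le_ksum (fun i => ((mem_steps.1 ht) i).1) (Finset.ne_of_mem_erase hm),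
          ksum_steps_le hIA ht m⟩)
      (w := wt r (a + 1) I m) (fun k _ => wt_nonneg _ _ _ _ _) (sum_wt hI m).le
      (sum_wt_sq hI (Finset.ne_of_mem_erase hm))
    rw [← avg_eq_sum_wt r (a + 1) I m fun k => v.dhighK r k] at this
    exact (this.smul (-sgn m)).mono (by rw [abs_neg, abs_sgn, one_mul])
      (by rw [abs_neg, abs_sgn, one_mul])
  refine (Ap.sum (h.probWd b) _ _ _ _ key).mono ?_ ?_ <;>
    simp only [Finset.sum_const, nsmul_eq_mul]
  · rw [Real.sqrt_div' 1 (Nat.cast_nonneg I), Real.sqrt_one, ← mul_assoc]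
    exact mul_le_mul_of_nonneg_right (mul_le_mul_of_nonneg_right (card_masks r) hD) (by positivity)
  · rw [← mul_assoc]
    exact mul_le_mul_of_nonneg_right (mul_le_mul_of_nonneg_right (card_masks r) hD) hη

theorem Inv.exists_offs (v : Lev) {r I n : ℕ} (hn : 1 ≤ n) (hIA : 4 * (r * (a + 1 + I)) ≤ v.A)
    {t : Fin r → ℕ} (ht : t ∈ steps r (a + 1) I) (m : Fin r → Bool) :
    ∃ L L' : List ℕ, L.length = r * n ∧ L'.length = r * n ∧ (∀ o ∈ L ++ L', o ≤ ksum t m) ∧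
      pc (v.pL n) (v.pR n) (v.dhighK r 0) r t m =
        v.offs L * v.dhighK r (ksum t m) * v.offs L' :=
  v.exists_pc_eq hn (v.dhighK r) (fun _ _ hik => v.semiconjBy_dhighK r hik) r t m
    (by have := ksum_steps_le (v := v) hIA ht m; omega)

theorem Inv.ap_stepR (h : v.Inv a ν δ c κ η) (hκ : κ ≤ κ0) (hν : ν * (1 + δ) ≤ 1) (hδ : δ ≤ 1)
    {r I n : ℕ} (hn : 1 ≤ n) (hI : 0 < I) (hIA : 4 * (r * (a + 1 + I)) ≤ v.A)
    (hN : (1 + 4 * c ^ 2) ^ (r * n) ≤ 2) (hη8 : (8 * (r * n : ℕ) + 1 : ℝ) * η ≤ 1)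
    {b : List Bool} (hb : b.length = 2 ^ r) :
    Ap (v.Z ^ (r * n) * v.wd b * v.Z ^ (r * n)) (v.stepR r a I n)
      (2 ^ r * (6 * dC κ0 r) * (ν ^ 2 * Real.sqrt ((1 + 4 * c ^ 2) ^ (r * n) - 1)))
      (2 ^ r * (34 * dC κ0 r) * ((8 * (r * n : ℕ) + 1 : ℝ) * η)) := by
  obtain ⟨hν0, hδ0, -, -, hη, -⟩ := h.nonneg
  have hν1 : ν ≤ 1 := le_trans (by nlinarith) hν
  have hD := dC_nonneg h hκ r
  set D := dC κ0 r
  set σ := Real.sqrt ((1 + 4 * c ^ 2) ^ (r * n) - 1) with hσ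
  have hPr := ((h.probZ.pow (r * n)).mul (h.probWd b)).mul (h.probZ.pow (r * n))
  have key : ∀ m ∈ univ.erase (mask0 r), Ap (v.Z ^ (r * n) * v.wd b * v.Z ^ (r * n))
      (sgn m • avg r (a + 1) I fun t =>
        v.stepF r (r * n) (ksum t m) - pc (v.pL n) (v.pR n) (v.dhighK r 0) r t m)
      (6 * D * (ν ^ 2 * σ)) (34 * D * ((8 * (r * n : ℕ) + 1 : ℝ) * η)) := by
    intro m hm
    refine ((Ap.avg hPr hI fun t ht => ?_).smul (sgn m)).mono (by rw [abs_sgn, one_mul])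
      (by rw [abs_sgn, one_mul])
    obtain ⟨L, L', h1, h2, h3, e⟩ := Inv.exists_offs v hn hIA ht m
    rw [e, stepF]
    have hX := h.ap_dhighK hκ hν hδ (r := r) hb (K := {ksum t m}) (w := fun _ => 1) (fun k hk => by
        rw [mem_singleton] at hk
        subst hk
        exact ⟨le_ksum (fun i => ((mem_steps.1 ht) i).1) (Finset.ne_of_mem_erase hm),
          ksum_steps_le hIA ht m⟩)
      (fun _ _ => zero_le_one) (by simp) (W := 1) (by simp)
    simp only [Finset.sum_singleton, one_smul] at hX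
    have hν2 : ν ^ 2 ≤ 1 := pow_le_one₀ hν0 hν1
    have hxy : D * (ν ^ 2 * (Real.sqrt 1 + δ)) ≤ 2 * D * ν ^ 2 := by
      rw [Real.sqrt_one]
      nlinarith [mul_le_mul_of_nonneg_left hδ (mul_nonneg hD (sq_nonneg ν))]
    refine (h.ap_offs_sub h1 h2 (fun o ho => by
      have := h3 o ho; have := ksum_steps_le (v := v) hIA ht m; omega) hN hη8 (hX.mono hxy le_rfl)
      hD (mul_le_of_le_one_right (by positivity) hν2)).mono (le_of_eq ?_) le_rfl
    ring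
  refine (Ap.sum hPr _ _ _ _ key).mono ?_ ?_ <;> simp only [Finset.sum_const, nsmul_eq_mul]
  · rw [← mul_assoc]
    exact mul_le_mul_of_nonneg_right (mul_le_mul_of_nonneg_right (card_masks r) (by positivity))
      (by positivity)
  · rw [← mul_assoc]
    exact mul_le_mul_of_nonneg_right (mul_le_mul_of_nonneg_right (card_masks r) (by positivity))
      (by positivity)

theorem Inv.mass_step (h : v.Inv a ν δ c κ η) {r I n : ℕ} (hn : 1 ≤ n)
    (hIA : 4 * (r * (a + 1 + I)) ≤ v.A) :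
    mass (v.stepG r a I) = 0 ∧ mass (v.stepR r a I n) = 0 := by
  constructor
  · simp [stepG, map_sum, map_smul, avg, mass_dhighK h]
  · simp only [stepR, map_sum, map_smul, avg]
    refine Finset.sum_eq_zero fun m _ => ?_
    rw [Finset.sum_eq_zero fun t ht => ?_]
    · simp
    obtain ⟨L, L', -, -, -, e⟩ := Inv.exists_offs v hn hIA ht m
    simp [stepF, e, mass_dhighK h]

/-- What is left after the localised and the wide part. -/
theorem Inv.l1_alt (h : v.Inv a ν δ c κ η) {r I n : ℕ} (hn : 1 ≤ n) (hI : 0 < I)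
    (hIA : 4 * (r * (a + 1 + I)) ≤ v.A) (hN : (1 + 4 * c ^ 2) ^ (r * n) ≤ 2) {δS : ℝ}
    (hS : ∀ d ≤ a + 1 + I, l1 (v.s ^ (n * (2 * v.A + 1) + d) - v.s ^ (n * (2 * v.A + 1))) ≤ δS ∧
      l1 (v.s ^ (n * (2 * v.A + 1) - d) - v.s ^ (n * (2 * v.A + 1))) ≤ δS) :
    l1 (v.Z ^ (r * n) * v.dhighK r 0 * v.Z ^ (r * n) -
      (v.Z ^ (r * n) * v.stepG r a I * v.Z ^ (r * n) + v.stepR r a I n)) ≤
      (2 * (δS + 4 * Real.sqrt ((1 + 4 * c ^ 2) ^ n - 1) + c + 10 * ((n + 1 : ℕ) : ℝ) * η)) ^ r *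
        (8 * (2 ^ r : ℕ)) := by
  obtain ⟨-, -, hc, -, hη, -⟩ := h.nonneg
  set G := fun (t : Fin r → ℕ) m => pc (v.pL n) (v.pR n) (v.dhighK r 0) r t m with hGdef
  have hG0 : ∀ t ∈ steps r (a + 1) I, G t (mask0 r) = v.stepF r (r * n) 0 := fun t ht => by
    obtain ⟨L, L', h1, h2, h3, e⟩ := Inv.exists_offs v hn hIA ht (mask0 r)
    rw [ksum_mask0] at h3 e
    have hz : ∀ {l : List ℕ}, l.length = r * n → (∀ o ∈ l, o ≤ 0) → v.offs l = v.Z ^ (r * n) := by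
      intro l hl hl0
      rw [List.eq_replicate_iff.2 ⟨hl, fun o ho => Nat.le_zero.1 (hl0 o ho)⟩, offs_replicate, ← Z_eq]
    simp only [hGdef]
    rw [e, hz h1 fun o ho => h3 o (by simp [ho]), hz h2 fun o ho => h3 o (by simp [ho]), stepF]
  have hrich := rich (r := r) (I₀ := a + 1) hI (v.stepF r (r * n)) G hG0
  have hmul : v.Z ^ (r * n) * v.stepG r a I * v.Z ^ (r * n) = ∑ m ∈ univ.erase (mask0 r),
      (-sgn m) • avg r (a + 1) I fun t => v.stepF r (r * n) (ksum t m) := by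
    rw [stepG, Finset.mul_sum, Finset.sum_mul]
    exact Finset.sum_congr rfl fun m _ => by
      rw [mul_smul_comm, smul_mul_assoc, mul_avg_mul]
      rfl
  rw [show v.Z ^ (r * n) * v.dhighK r 0 * v.Z ^ (r * n) = v.stepF r (r * n) 0 from rfl, hrich,
    ← hmul, stepR, hGdef, add_sub_cancel_left]
  refine l1_avg_le hI fun t ht => ?_
  refine (l1_alt_pc_le _ _ ?_ _ r t fun i => ?_).trans (mul_le_mul_of_nonneg_left ?_ ?_)
  · exact (h.probZ.pow n).mul (h.probS.pow 0)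
  · have hti := (mem_steps.1 ht) i
    obtain ⟨h1, h2⟩ := hS (t i) hti.2.le
    refine ⟨(h.probZ.pow _).mul (((h.probS.pow _).mul h.probE).mul (h.probS.pow _)),
      h.l1_piece hn ?_ ?_ h1 h2⟩
    · have : 1 * (a + 1 + I) ≤ r * (a + 1 + I) := Nat.mul_le_mul_right _ i.pos
      omega
    · refine (pow_le_pow_right₀ (by linarith [sq_nonneg c]) ?_).trans hN
      exact Nat.le_mul_of_pos_left _ i.pos
  · rw [dhighK, highK_zero, highK_zero]
    refine (l1_sub_le _ _).trans ((add_le_add (l1_high_le h _) (l1_high_le h _)).trans_eq ?_)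
    rw [(length_tmw r).1, (length_tmw r).2]
    ring
  · have : 0 ≤ δS := (l1_nonneg _).trans (hS 0 (Nat.zero_le _)).1
    positivity

theorem Inv.ap_cross (h : v.Inv a ν δ c κ η) (hν : ν * (1 + δ) ≤ 1) {R : ℕ} {b : List Bool}
    (hb : b.length = R) :
    Ap (v.wd b) (v.Z ^ R) (2 ^ R) (8 ^ R * η) ∧ Ap (v.Z ^ R) (v.wd b) (2 ^ R) (8 ^ R * η) := by
  have hη := h.nonneg.2.2.2.2.1
  have hcnt : b.count true + (List.replicate R false).count true ≤ R := by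
    simp [List.count_replicate]
    exact hb ▸ List.count_le_length
  have e1 := h.ap_wd hν (b := b) (b' := List.replicate R false) (by simpa using hb)
  have e2 := h.ap_wd hν (b := List.replicate R false) (b' := b) (by simpa using hb.symm)
  rw [wd_replicate] at e1 e2
  rw [add_comm] at e2
  exact ⟨e1.mono (pow_le_pow_right₀ (by norm_num) hcnt)
      (mul_le_mul_of_nonneg_right (pow_le_pow_right₀ (by norm_num) hcnt) hη),
    e2.mono (pow_le_pow_right₀ (by norm_num) hcnt)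
      (mul_le_mul_of_nonneg_right (pow_le_pow_right₀ (by norm_num) hcnt) hη)⟩

/-- The identity behind the new decomposition. -/
theorem Inv.step_eq (v : Lev) (r a I n0 : ℕ) {A' k : ℕ} (hA' : 4 * (r * n0) ≤ A')
    (hk : 2 * k ≤ A') :
    (v.next r A').blk ((v.next r A').o - (v.next r A').e - v.stepG r a I) k -
      (v.next r A').s ^ (A' - r * n0 + k) * v.stepR r a I (2 ^ r * n0) *
        (v.next r A').s ^ (A' - r * n0 - k) =
    v.Z ^ (2 ^ r * (A' + k)) * v.dlin r * v.Z ^ (2 ^ r * (A' - k)) +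
      v.Z ^ (2 ^ r * (A' - r * n0 + k)) *
        (v.Z ^ (r * (2 ^ r * n0)) * v.dhighK r 0 * v.Z ^ (r * (2 ^ r * n0)) -
          (v.Z ^ (r * (2 ^ r * n0)) * v.stepG r a I * v.Z ^ (r * (2 ^ r * n0)) +
            v.stepR r a I (2 ^ r * n0))) *
        v.Z ^ (2 ^ r * (A' - r * n0 - k)) := by
  have es : (v.next r A').s = v.Z ^ (2 ^ r) := rfl
  have ee : (v.next r A').e = v.wd (tmw r).1 := congrArg Prod.fst (v.tm_eq r)
  have eo : (v.next r A').o = v.wd (tmw r).2 := congrArg Prod.snd (v.tm_eq r)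
  simp only [blk, es, ee, eo, show (v.next r A').A = A' from rfl, ← pow_mul]
  have hsplit : v.wd (tmw r).2 - v.wd (tmw r).1 = v.dlin r + v.dhighK r 0 := by
    rw [v.wd_eq, v.wd_eq, (length_tmw r).1, (length_tmw r).2, dlin, dhighK, highK_zero, highK_zero]
    abel
  have e3 : r * (2 ^ r * n0) = 2 ^ r * (r * n0) := by ring
  have hp1 : v.Z ^ (2 ^ r * (A' + k)) =
      v.Z ^ (2 ^ r * (A' - r * n0 + k)) * v.Z ^ (r * (2 ^ r * n0)) := by
    rw [← pow_add, e3, ← mul_add]; congr 2; omega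
  have hp2 : v.Z ^ (2 ^ r * (A' - k)) =
      v.Z ^ (r * (2 ^ r * n0)) * v.Z ^ (2 ^ r * (A' - r * n0 - k)) := by
    rw [← pow_add, e3, ← mul_add]; congr 2; omega
  rw [hsplit, hp1, hp2]
  noncomm_ring

/-- One step of the hierarchy. -/
theorem Inv.next_level (r : ℕ) (κ0 : ℝ) : ∃ C : ℝ, 1 ≤ C ∧ ∀ (v : Lev) (a : ℕ) (ν δ c κ η : ℝ),
    v.Inv a ν δ c κ η → κ ≤ κ0 → ν * (1 + δ) ≤ 1 → δ ≤ 1 →
    ∀ (A' n0 I a₁ : ℕ) (δS δF ν' δ' c' κ' η' : ℝ),
    1 ≤ n0 → 0 < I → 4 * (r * (a + 1 + I)) ≤ v.A → 4 * (r * n0) ≤ A' → 2 * (r * a₁) ≤ 2 ^ r * A' →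
    (1 + 4 * c ^ 2) ^ (r * (2 ^ r * n0)) ≤ 2 → (8 * (r * (2 ^ r * n0) : ℕ) + 1 : ℝ) * η ≤ 1 →
    (∀ d ≤ a + 1 + I, d ≤ 2 ^ r * n0 * (2 * v.A + 1) ∧
      l1 (v.s ^ (2 ^ r * n0 * (2 * v.A + 1) + d) - v.s ^ (2 ^ r * n0 * (2 * v.A + 1))) ≤ δS ∧
      l1 (v.s ^ (2 ^ r * n0 * (2 * v.A + 1) - d) - v.s ^ (2 ^ r * n0 * (2 * v.A + 1))) ≤ δS) →
    (∀ j < r, ∀ m, a₁ ≤ m → l1 (v.Z ^ (m + 2 ^ j) - v.Z ^ m) ≤ δF) →
    0 ≤ δ' → C * (ν ^ 2 * (1 / Real.sqrt I + δ)) ≤ ν' →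
    C * (ν ^ 2 * Real.sqrt ((1 + 4 * c ^ 2) ^ (r * (2 ^ r * n0)) - 1)) ≤ ν' * δ' →
    0 ≤ c' → (2 : ℝ) ^ (2 ^ r) ≤ κ' →
    C * ((r * (2 ^ r * n0) + 1 : ℕ) * η +
      (2 * (δS + 4 * Real.sqrt ((1 + 4 * c ^ 2) ^ (2 ^ r * n0) - 1) + c +
        10 * (2 ^ r * n0 + 1 : ℕ) * η)) ^ r + (2 * δF) ^ r) ≤ η' → η' ≤ 1 →
    (∀ x y k, A' ≤ 2 * x → x ≤ 2 * A' → A' ≤ 2 * y → y ≤ 2 * A' → 4 * k ≤ A' →
      Ap ((v.next r A').s ^ x * (v.next r A').e * (v.next r A').s ^ y)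
        ((v.next r A').s ^ (x + k) * (v.next r A').e * (v.next r A').s ^ (y - k) -
          (v.next r A').s ^ (x + y + 1)) c' η') →
    (v.next r A').Inv (r * n0) ν' δ' c' κ' η' := by
  set κ1 := max κ0 0 with hκ1def
  refine ⟨(8 : ℝ) ^ (2 ^ r) + 2 ^ r * (300 * dC κ1 r) + 8 * (2 ^ r : ℕ) + 2, ?_, ?_⟩
  · have : 0 ≤ κ1 := le_max_right _ _
    have : 0 ≤ dC κ1 r := by rw [dC, termC, blkC]; positivity
    have h8 : (1 : ℝ) ≤ 8 ^ (2 ^ r) := one_le_pow₀ (by norm_num)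
    have : (0 : ℝ) ≤ 2 ^ r * (300 * dC κ1 r) + 8 * (2 ^ r : ℕ) := by positivity
    linarith
  intro v a ν δ c κ η h hκ hν hδ A' n0 I a₁ δS δF ν' δ' c' κ' η' hn0 hI hIA hA' ha₁ hN hη8 hS hF
    hδ' hν' hνδ' hc' hκ' hη' hη'1 hcentre
  obtain ⟨hν0, hδ0, hc, -, hη, -⟩ := h.nonneg
  replace hκ : κ ≤ κ1 := hκ.trans (le_max_left _ _)
  have hD := dC_nonneg h hκ r
  set D := dC κ1 r with hDdef
  set C := (8 : ℝ) ^ (2 ^ r) + 2 ^ r * (300 * D) + 8 * (2 ^ r : ℕ) + 2 with hCdef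
  have hC : 0 ≤ C := by positivity
  have hcoef : ∀ {x : ℝ}, x ≤ 300 * D → 2 ^ r * x ≤ C := fun {x} hx => by
    have : 2 ^ r * x ≤ 2 ^ r * (300 * D) := mul_le_mul_of_nonneg_left hx (by positivity)
    have : (0 : ℝ) ≤ 8 ^ (2 ^ r) + 8 * (2 ^ r : ℕ) := by positivity
    linarith
  have hn1 : 1 ≤ 2 ^ r * n0 := Nat.one_le_iff_ne_zero.2 (by positivity)
  set N := r * (2 ^ r * n0) with hNdef
  set σ := Real.sqrt ((1 + 4 * c ^ 2) ^ N - 1) with hσ
  set δP := δS + 4 * Real.sqrt ((1 + 4 * c ^ 2) ^ (2 ^ r * n0) - 1) + c +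
    10 * ((2 ^ r * n0 + 1 : ℕ) : ℝ) * η with hδP
  have hδS : 0 ≤ δS := (l1_nonneg _).trans (hS 0 (Nat.zero_le _)).2.1
  have hP0 : 0 ≤ (2 * δP) ^ r := by positivity
  have hF0 : 0 ≤ (2 * δF) ^ r := by
    rcases Nat.eq_zero_or_pos r with hr0 | hrpos
    · simp [hr0]
    · have : 0 ≤ δF := (l1_nonneg _).trans (hF 0 hrpos a₁ le_rfl)
      positivity
  have hx0 : 0 ≤ ((N + 1 : ℕ) : ℝ) * η := by positivity
  have hη'' : ∀ {x : ℝ}, x ≤ C * (((N + 1 : ℕ) : ℝ) * η) → x ≤ η' := fun {x} hx =>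
    hx.trans (le_trans (mul_le_mul_of_nonneg_left (by linarith) hC) hη')
  have hηN : η ≤ ((N + 1 : ℕ) : ℝ) * η :=
    le_mul_of_one_le_left hη (by exact_mod_cast Nat.le_add_left 1 N)
  have hη'0 : 0 ≤ η' := hη'' (by positivity)
  have hν'0 : 0 ≤ ν' := le_trans (by positivity) hν'
  have hg : ∀ b : List Bool, b.length = 2 ^ r → Ap (v.wd b) (v.stepG r a I) ν' η' := fun b hb => by
    refine (h.ap_stepG hκ hν hδ hI hIA hb).mono ?_ (hη'' ?_)
    · exact le_trans (mul_le_mul_of_nonneg_right (hcoef (by linarith)) (by positivity)) hν'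
    · exact mul_le_mul (hcoef (by linarith)) hηN hη hC
  have hr : ∀ b : List Bool, b.length = 2 ^ r →
      Ap (v.Z ^ N * v.wd b * v.Z ^ N) (v.stepR r a I (2 ^ r * n0)) (ν' * δ') η' := fun b hb => by
    refine (h.ap_stepR hκ hν hδ hn1 hI hIA hN hη8 hb).mono ?_ (hη'' ?_)
    · exact le_trans (mul_le_mul_of_nonneg_right (hcoef (by linarith)) (by positivity)) hνδ'
    · calc _ ≤ 2 ^ r * (34 * D) * (8 * (((N + 1 : ℕ) : ℝ) * η)) := by
            refine mul_le_mul_of_nonneg_left ?_ (by positivity)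
            show (8 * (N : ℝ) + 1) * η ≤ _
            rw [Nat.cast_succ]
            nlinarith
        _ = 2 ^ r * (272 * D) * (((N + 1 : ℕ) : ℝ) * η) := by ring
        _ ≤ _ := mul_le_mul_of_nonneg_right (hcoef (by linarith)) hx0
  have es : (v.next r A').s = v.Z ^ (2 ^ r) := rfl
  have ee : (v.next r A').e = v.wd (tmw r).1 := congrArg Prod.fst (v.tm_eq r)
  have eo : (v.next r A').o = v.wd (tmw r).2 := congrArg Prod.snd (v.tm_eq r)
  have eN : (v.Z ^ (2 ^ r)) ^ (r * n0) = v.Z ^ N := by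
    rw [← pow_mul, hNdef]; congr 1; ring
  have hrefs : ∀ ρ ∈ [(v.next r A').e, (v.next r A').o],
      ∃ b : List Bool, b.length = 2 ^ r ∧ ρ = v.wd b := by
    intro ρ hρ
    simp only [List.mem_cons, List.not_mem_nil, or_false] at hρ
    rcases hρ with rfl | rfl
    exacts [⟨_, (length_tmw r).1, ee⟩, ⟨_, (length_tmw r).2, eo⟩]
  refine ⟨by rw [es]; exact h.probZ.pow _, by rw [ee]; exact h.probWd _,
    by rw [eo]; exact h.probWd _, hA', ⟨hν'0, hδ', hc', ?_, hη'0, hη'1⟩, ?_, ?_, hcentre⟩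
  · exact le_trans (one_le_pow₀ (by norm_num)) hκ'
  · intro ρ hρ
    obtain ⟨b, hb, rfl⟩ := hrefs ρ hρ
    obtain ⟨c1, c2⟩ := h.ap_cross hν hb
    have h8 : (8 : ℝ) ^ (2 ^ r) * η ≤ η' := hη'' (mul_le_mul (by
      have : (0 : ℝ) ≤ 2 ^ r * (300 * D) + 8 * (2 ^ r : ℕ) := by positivity
      linarith) hηN hη hC)
    rw [es]
    exact ⟨c1.mono hκ' h8, c2.mono hκ' h8⟩
  obtain ⟨hmg, hmr⟩ := h.mass_step (n := 2 ^ r * n0) hn1 hIA
  refine ⟨v.stepG r a I, v.stepR r a I (2 ^ r * n0), hmg, hmr, ?_, ?_, ?_, fun k hk => ?_⟩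
  · rw [es, ← wd_replicate]
    exact hg _ (by simp)
  · have : (v.Z ^ (2 ^ r)) ^ (2 * (r * n0) + 1) =
        v.Z ^ N * v.wd (List.replicate (2 ^ r) false) * v.Z ^ N := by
      rw [wd_replicate, ← eN, ← pow_succ, ← pow_add]; congr 1; ring
    rw [es, this]
    exact hr _ (by simp)
  · intro ρ hρ
    obtain ⟨b, hb, rfl⟩ := hrefs ρ hρ
    exact ⟨hg b hb, by rw [es, eN]; exact hr b hb⟩
  refine le_trans (le_of_eq (congrArg l1 (Inv.step_eq v r a I n0 hA' hk))) ?_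
  have hk' : 2 * k ≤ A' := hk
  have hl : l1 (v.Z ^ (2 ^ r * (A' + k)) * v.dlin r * v.Z ^ (2 ^ r * (A' - k))) ≤
      2 * (2 * δF) ^ r := by
    refine v.l1_dlin_le h.probZ h.probU hF ?_ ?_
    · have := Nat.mul_le_mul_left (2 ^ r) (show A' ≤ 2 * (A' + k) by omega)
      rw [mul_left_comm (2 ^ r) 2] at this
      omega
    · have := Nat.mul_le_mul_left (2 ^ r) (show A' ≤ 2 * (A' - k) by omega)
      rw [mul_left_comm (2 ^ r) 2] at this
      omega
  have ha : l1 (v.Z ^ (2 ^ r * (A' - r * n0 + k)) *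
      (v.Z ^ N * v.dhighK r 0 * v.Z ^ N -
        (v.Z ^ N * v.stepG r a I * v.Z ^ N + v.stepR r a I (2 ^ r * n0))) *
      v.Z ^ (2 ^ r * (A' - r * n0 - k))) ≤ (2 * δP) ^ r * (8 * (2 ^ r : ℕ)) := by
    refine (l1_mul_prob_right (h.probZ.pow _) _).trans
      ((l1_mul_prob_left (h.probZ.pow _) _).trans ?_)
    exact h.l1_alt hn1 hI hIA hN fun d hd => (hS d hd).2
  refine (l1_add_le _ _).trans ((add_le_add hl ha).trans (le_trans ?_ hη'))
  have hc1 : (2 : ℝ) ≤ C := by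
    have : (0 : ℝ) ≤ 8 ^ (2 ^ r) + 2 ^ r * (300 * D) + 8 * (2 ^ r : ℕ) := by positivity
    linarith
  have hc2 : 8 * ((2 ^ r : ℕ) : ℝ) ≤ C := by
    have : (0 : ℝ) ≤ 8 ^ (2 ^ r) + 2 ^ r * (300 * D) + 2 := by positivity
    linarith
  linarith [mul_le_mul_of_nonneg_right hc1 hF0, mul_le_mul_of_nonneg_right hc2 hP0,
    mul_nonneg hC hx0, mul_add C (((N + 1 : ℕ) : ℝ) * η + (2 * δP) ^ r) ((2 * δF) ^ r),
    mul_add C (((N + 1 : ℕ) : ℝ) * η) ((2 * δP) ^ r)]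

end Lev

end Vale.Agent.P321.Super
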