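import Vale.Agent.P321.Super.Words

/-!
# P321: the words behind the levels

Every law of a level is the trace law of an explicit word, the two blocks come from two different
words of equal length, and the lengths grow at most like the products of the block counts.
-/

namespace Vale.Agent.P321.Super

open Finset

/-- `A` copies of a word. -/
def rep (A : ℕ) (w : List Bool) : List Bool := (List.replicate A w).flatten

theorem tr_rep (p : ℝ) (A : ℕ) (w : List Bool) : tr p (rep A w) = tr p w ^ A := by
  induction A with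
  | zero => simp [rep, tr]
  | succ A ih =>
    rw [pow_succ', ← ih]
    simp only [rep, List.replicate_succ, List.flatten_cons, tr_append]

theorem length_rep (A : ℕ) (w : List Bool) : (rep A w).length = A * w.length := by
  simp [rep]

/-- The laws of a level come from words of length at most `m`, with different centres. -/
def Strs (p : ℝ) (v : Lev) (m : ℕ) : Prop :=
  ∃ s e o : List Bool, tr p s = v.s ∧ tr p e = v.e ∧ tr p o = v.o ∧ e.length = o.length ∧ e ≠ o ∧
    s.length ≤ m ∧ e.length ≤ m

theorem strs_base (p : ℝ) {S : ℕ} (hS : 3 ≤ S) (A : ℕ) : Strs p (base p S A) (2 * S) := by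
  have hd : ∀ u, tr p (rep u [false, true] ++ true :: rep (S - 1 - u) [false, true]) =
      defect p S u := fun u => by
    rw [tr_append, show true :: rep (S - 1 - u) [false, true] =
      [true] ++ rep (S - 1 - u) [false, true] from rfl, tr_append, tr_rep, tr_rep]
    simp [tr, defect, s0, dd, mul_assoc]
  refine ⟨rep S [false, true], _, _, ?_, hd (S / 2), hd (S / 2 + 1), ?_, ?_, ?_, ?_⟩
  · rw [tr_rep]
    simp [tr, base, s0]
  · simp [length_rep]
    omega
  · have e1 : rep (S / 2 + 1) [false, true] = rep (S / 2) [false, true] ++ [false, true] := by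
      simp only [rep, List.replicate_succ', List.flatten_concat]
    rw [e1, List.append_assoc]
    intro h
    simpa using List.append_cancel_left h
  · simp [length_rep]
    omega
  · simp [length_rep]
    omega

/-- The two words of the blocks. -/
theorem Strs.block {p : ℝ} {v : Lev} {m : ℕ} (h : Strs p v m) :
    ∃ w w' : List Bool, w.length = w'.length ∧ w ≠ w' ∧ tr p w = v.Z ∧ tr p w' = v.U ∧
      w.length ≤ (2 * v.A + 1) * m := by
  obtain ⟨s, e, o, hs, he, ho, hl, hne, hsm, hem⟩ := h
  refine ⟨rep v.A s ++ e ++ rep v.A s, rep v.A s ++ o ++ rep v.A s, by simp [hl],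
    fun heq => hne (List.append_cancel_left (List.append_cancel_right heq)), ?_, ?_, ?_⟩
  · rw [tr_append, tr_append, tr_rep, hs, he]; rfl
  · rw [tr_append, tr_append, tr_rep, hs, ho]; rfl
  · simp only [List.length_append, length_rep]
    calc v.A * s.length + e.length + v.A * s.length ≤ v.A * m + m + v.A * m := by gcongr
      _ = _ := by ring

theorem exists_tm (p : ℝ) {x y : Msr} {w w' : List Bool} (hl : w.length = w'.length) (hne : w ≠ w')
    (hx : tr p w = x) (hy : tr p w' = y) : ∀ r, ∃ a b : List Bool, a.length = 2 ^ r * w.length ∧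
      b.length = a.length ∧ a ≠ b ∧ tr p a = (Lev.tm x y r).1 ∧ tr p b = (Lev.tm x y r).2
  | 0 => ⟨w, w', by simp, hl.symm, hne, hx, hy⟩
  | r + 1 => by
    obtain ⟨a, b, ha, hb, hab, hta, htb⟩ := exists_tm p hl hne hx hy r
    refine ⟨a ++ b, b ++ a, ?_, by simp [add_comm],
      fun h => hab (List.append_inj h hb.symm).1, ?_, ?_⟩
    · simp only [List.length_append, hb, ha, pow_succ]
      ring
    · rw [tr_append, hta, htb]; rfl
    · rw [tr_append, hta, htb]; rfl

theorem Strs.next {p : ℝ} {v : Lev} {m : ℕ} (h : Strs p v m) (r A' : ℕ) :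
    Strs p (v.next r A') (2 ^ r * ((2 * v.A + 1) * m)) := by
  obtain ⟨w, w', hl, hne, hw, hw', hlen⟩ := h.block
  obtain ⟨a, b, ha, hb, hab, hta, htb⟩ := exists_tm p hl hne hw hw' r
  exact ⟨rep (2 ^ r) w, a, b, by rw [tr_rep, hw]; rfl, hta, htb, hb.symm, hab,
    by rw [length_rep]; gcongr, by rw [ha]; gcongr⟩

theorem strs_level (p : ℝ) {S : ℕ} (hS : 3 ≤ S) (r : ℕ) (A : ℕ → ℕ) : ∀ j,
    Strs p (level p r S A j) (2 * S * ∏ i ∈ range j, 2 ^ r * (2 * A i + 1))
  | 0 => by simpa [level] using strs_base p hS (A 0)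
  | j + 1 => by
    have hA : (level p r S A j).A = A j := by cases j <;> rfl
    have h := (strs_level p hS r A j).next r (A (j + 1))
    rw [hA] at h
    rw [prod_range_succ]
    exact (show 2 ^ r * ((2 * A j + 1) * (2 * S * ∏ i ∈ range j, 2 ^ r * (2 * A i + 1))) =
      2 * S * ((∏ i ∈ range j, 2 ^ r * (2 * A i + 1)) * (2 ^ r * (2 * A j + 1))) by ring) ▸ h

/-- The two words behind the blocks of a level. -/
theorem exists_strings (p : ℝ) {S : ℕ} (hS : 3 ≤ S) (r : ℕ) (A : ℕ → ℕ) (j : ℕ) :
    ∃ w w' : List Bool, w.length = w'.length ∧ w ≠ w' ∧ tr p w = (level p r S A j).Z ∧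
      tr p w' = (level p r S A j).U ∧
      w.length ≤ (2 * A j + 1) * (2 * S * ∏ i ∈ range j, 2 ^ r * (2 * A i + 1)) := by
  have hA : (level p r S A j).A = A j := by cases j <;> rfl
  simpa [hA] using (strs_level p hS r A j).block

end Vale.Agent.P321.Super
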