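import Vale.Agent.P321.Super.BaseInv
import Vale.Agent.P321.Super.CombForget
import Vale.Agent.P321.Super.Forget
import Vale.Agent.P321.Super.Sched
import Vale.Agent.P321.Super.SingleNum
import Vale.Agent.P321.Super.Step
import Vale.Agent.P321.Super.Strings
import Vale.Agent.P321.Super.Assemble

/-!
# P321: the induction over the levels

With every constant fixed before the scale `l`, one level passes its properties and its forgetting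
to the next, so the blocks of the last level are two words whose trace laws are polynomially close
of an arbitrary order compared to their length.
-/

namespace Vale.Agent.P321.Super

open Finset Filter

variable {p : ℝ} {e J r : ℕ} {κ0 : ℝ}

theorem slot_shift {s : Msr} {C0 : ℝ} {ns N0 d D : ℕ} (hC : 0 ≤ C0)
    (h : ∀ N k, ns ≤ N → l1 (s ^ (N + k) - s ^ N) ≤ C0 * k * Real.sqrt (ns / N)) (hd : d ≤ D)
    (hD : 2 * D ≤ N0) (hns : 2 * ns ≤ N0) (hN : 0 < N0) {B : ℝ}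
    (hB : ∀ N, N0 ≤ 2 * N → C0 * D * Real.sqrt (ns / N) ≤ B) :
    l1 (s ^ (N0 + d) - s ^ N0) ≤ B ∧ l1 (s ^ (N0 - d) - s ^ N0) ≤ B := by
  refine ⟨(h N0 d (by omega)).trans (le_trans ?_ (hB N0 (by omega))), ?_⟩
  · gcongr
  · have h' := h (N0 - d) d (by omega)
    rw [Nat.sub_add_cancel (by omega)] at h'
    rw [← l1_neg, neg_sub]
    exact h'.trans (le_trans (by gcongr) (hB (N0 - d) (by omega)))

theorem pow_grow {l : ℕ} (hl : 1 ≤ l) {i j c : ℕ} (hij : i + 1 ≤ j) (hc : c ≤ l) :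
    c * l ^ i ≤ l ^ j :=
  (Nat.mul_le_mul_right _ hc).trans
    (by rw [← pow_succ']; exact Nat.pow_le_pow_right hl hij)

theorem shift_num {v : Lev} {C0 : ℝ} {l r R D α σ m b : ℕ} (hC0 : 0 ≤ C0) (hR : 1 ≤ R)
    (hl : 2 * (r + 2) ≤ l) (hl2 : 2 ≤ l) (hA : v.A = l ^ α) (hb : b ≤ (r + 2) * l ^ D)
    (hs : ∀ N d, l ^ σ ≤ N → l1 (v.s ^ (N + d) - v.s ^ N) ≤
      C0 * d * Real.sqrt ((l ^ σ : ℕ) / N))
    (e : σ + 2 * (D + 1) ≤ 2 * m + α) (e' : D + 1 ≤ 2 * m + α) (d : ℕ) (hd : d ≤ b) :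
    d ≤ R * l ^ (2 * m) * (2 * v.A + 1) ∧
      l1 (v.s ^ (R * l ^ (2 * m) * (2 * v.A + 1) + d) - v.s ^ (R * l ^ (2 * m) * (2 * v.A + 1))) ≤
        C0 * (r + 2) * 2 / l ∧
      l1 (v.s ^ (R * l ^ (2 * m) * (2 * v.A + 1) - d) - v.s ^ (R * l ^ (2 * m) * (2 * v.A + 1))) ≤
        C0 * (r + 2) * 2 / l := by
  have hl1 : 1 ≤ l := by omega
  set N0 := R * l ^ (2 * m) * (2 * v.A + 1) with hN0
  have hN0' : l ^ (2 * m + α) ≤ N0 := by
    rw [hN0, hA, pow_add]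
    exact Nat.mul_le_mul (Nat.le_mul_of_pos_left _ hR) (by omega)
  have hDD2 : 2 * ((r + 2) * l ^ D) ≤ N0 := by
    rw [← mul_assoc]
    exact (pow_grow hl1 e' hl).trans hN0'
  have hns2 : 2 * l ^ σ ≤ N0 := (pow_grow hl1 (by omega) hl2).trans hN0'
  have hN0p : 0 < N0 := lt_of_lt_of_le (Nat.pow_pos (by omega)) hN0'
  refine ⟨by omega, slot_shift hC0 hs (hd.trans hb) hDD2 hns2 hN0p fun N hN => ?_⟩
  have hrs := ratio_small (K := 2) (z := D + 1) hl1 (by norm_num) (show 0 < N by omega)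
    (ns := l ^ σ) (by
      have : l ^ σ * l ^ (2 * (D + 1)) ≤ 2 * N := by
        rw [← pow_add]
        exact ((Nat.pow_le_pow_right hl1 e).trans hN0').trans hN
      exact_mod_cast this)
  refine (mul_le_mul_of_nonneg_left hrs (by positivity)).trans_eq ?_
  rw [pow_succ]
  push_cast
  field_simp

theorem forget_num {Z : Msr} {Cf : ℝ} {l r R α φ : ℕ} (hCf : 0 ≤ Cf) (hr : 1 ≤ r) (hR : 2 ^ r ≤ R)
    (hl : 4 * r ≤ l) (hZ : ∀ N d, l ^ φ ≤ N → l1 (Z ^ (N + d) - Z ^ N) ≤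
      Cf * d * Real.sqrt ((l ^ φ : ℕ) / N)) (e : φ + 2 ≤ α) (j : ℕ) (hj : j < r) (M : ℕ)
    (hM : R * l ^ α / (2 * r) ≤ M) : l1 (Z ^ (M + 2 ^ j) - Z ^ M) ≤ Cf * R * (4 * r) / l := by
  have hl1 : 1 ≤ l := by omega
  have hR1 : 1 ≤ R := (Nat.one_le_two_pow).trans hR
  have h1 := Nat.lt_mul_div_succ (R * l ^ α) (show 0 < 2 * r by omega)
  have h2 : 4 * r ≤ l ^ α := hl.trans (Nat.le_self_pow (by omega) l)
  have h3 : l ^ α ≤ R * l ^ α := Nat.le_mul_of_pos_left _ hR1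
  have ha : l ^ α ≤ 4 * r * (R * l ^ α / (2 * r)) := by nlinarith
  have h5 : l ^ φ * l ^ 2 ≤ 4 * r * M := by
    rw [← pow_add]
    exact (Nat.pow_le_pow_right hl1 e).trans (ha.trans (Nat.mul_le_mul_left _ hM))
  have h6 : l ^ φ ≤ M := by
    refine Nat.le_of_mul_le_mul_left (h5.trans' ?_) (show 0 < 4 * r by omega)
    rw [mul_comm (l ^ φ)]
    exact Nat.mul_le_mul_right _ (hl.trans (Nat.le_self_pow (by norm_num) l))
  have hr1 : (1 : ℝ) ≤ r := by exact_mod_cast hr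
  have hrs := ratio_small (K := 4 * r) (z := 1) (q := M) (ns := l ^ φ) hl1 (by linarith)
    (lt_of_lt_of_le (Nat.pow_pos (by omega)) h6) (by exact_mod_cast h5)
  rw [pow_one] at hrs
  refine (hZ M (2 ^ j) h6).trans ((mul_le_mul_of_nonneg_left hrs (by positivity)).trans ?_)
  rw [mul_div_assoc']
  gcongr
  exact_mod_cast (Nat.pow_le_pow_right (by norm_num) hj.le).trans hR

theorem eta_num {l r m x G G' : ℕ} {C K δS δF u R B1 B2 : ℝ} (hl : 1 ≤ l) (hC : 1 ≤ C) (hK : 1 ≤ K)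
    (hR : 1 ≤ R) (hx : 1 ≤ x) (hu : 0 ≤ u) (hu' : u ≤ 3 * K / l) (hδS : 0 ≤ δS) (hδF : 0 ≤ δF)
    (hB1 : δS * l + 12 * K + 1 + 20 * R ≤ B1) (hB2 : δF * l ≤ B2)
    (e : G' + 2 * m + 1 < G) (e' : G' < r)
    (hBl : C * (2 * K + (2 * B1) ^ r + (2 * B2) ^ r) ≤ l) {N N' : ℕ}
    (hN : (N : ℝ) ≤ K * (l : ℝ) ^ (2 * m)) (hN' : (N' : ℝ) ≤ R * (l : ℝ) ^ (2 * m)) :
    C * ((N + 1 : ℕ) * (1 / (l : ℝ) ^ G) +
      (2 * (δS + 4 * u + 1 / (l : ℝ) ^ x + 10 * (N' + 1 : ℕ) * (1 / (l : ℝ) ^ G))) ^ r +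
        (2 * δF) ^ r) ≤ 1 / (l : ℝ) ^ G' := by
  have hl0 : (0 : ℝ) < l := by exact_mod_cast (show 0 < l by omega)
  have hlR : (1 : ℝ) ≤ l := by exact_mod_cast hl
  have hB1' : 0 ≤ B1 := le_trans (by positivity) hB1
  have hB2' : 0 ≤ B2 := le_trans (mul_nonneg hδF hl0.le) hB2
  have hgen : ∀ {M : ℕ} {W : ℝ}, 1 ≤ W → (M : ℝ) ≤ W * (l : ℝ) ^ (2 * m) → ∀ i, i + 2 * m ≤ G →
      ((M + 1 : ℕ) : ℝ) * (1 / (l : ℝ) ^ G) ≤ 2 * W / (l : ℝ) ^ i := by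
    intro M W hW hM i hi
    have t : (1 : ℝ) ≤ W * (l : ℝ) ^ (2 * m) := one_le_mul_of_one_le_of_one_le hW (one_le_pow₀ hlR)
    push_cast
    rw [mul_one_div, div_le_div_iff₀ (by positivity) (by positivity)]
    calc ((M : ℝ) + 1) * (l : ℝ) ^ i ≤ 2 * (W * (l : ℝ) ^ (2 * m)) * (l : ℝ) ^ i := by
          gcongr; linarith
      _ = 2 * W * (l : ℝ) ^ (2 * m + i) := by rw [pow_add]; ring
      _ ≤ _ := mul_le_mul_of_nonneg_left (pow_le_pow_right₀ hlR (by omega)) (by positivity)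
  have t2 := hgen hR hN' 1 (by omega)
  rw [pow_one] at t2
  have t1 : 1 / (l : ℝ) ^ x ≤ 1 / l := by simpa using inv_pow_mono hl hx
  have hb1 : 2 * (δS + 4 * u + 1 / (l : ℝ) ^ x + 10 * (N' + 1 : ℕ) * (1 / (l : ℝ) ^ G)) ≤
      2 * B1 / l := by
    have h1 : δS + 4 * (3 * K / l) + 1 / l + 10 * (2 * R / l) ≤ B1 / l := by
      rw [le_div_iff₀ hl0]
      refine le_trans (le_of_eq ?_) hB1
      field_simp
      ring
    rw [mul_assoc (10 : ℝ), mul_div_assoc]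
    linarith
  have hb2 : 2 * δF ≤ 2 * B2 / l := by
    rw [le_div_iff₀ hl0]; linarith
  have hp : ∀ {y B' : ℝ}, 0 ≤ y → y ≤ B' / l → 0 ≤ B' → y ^ r ≤ B' ^ r / (l : ℝ) ^ (G' + 1) :=
    fun hy hy' hB' => (pow_le_pow_left₀ hy hy' r).trans (by
      rw [div_pow]
      gcongr
      exact e')
  calc _ ≤ C * (2 * K / (l : ℝ) ^ (G' + 1) + (2 * B1) ^ r / (l : ℝ) ^ (G' + 1) +
        (2 * B2) ^ r / (l : ℝ) ^ (G' + 1)) := by
        gcongr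
        · exact hgen hK hN _ (by omega)
        · exact hp (by positivity) hb1 (by positivity)
        · exact hp (by positivity) hb2 (by positivity)
    _ = C * (2 * K + (2 * B1) ^ r + (2 * B2) ^ r) / (l : ℝ) ^ (G' + 1) := by ring
    _ ≤ _ := cmp_inv hl hBl (Nat.lt_succ_self G')

/-- The numerical side of one step. -/
theorem next_gen (hr : 1 ≤ r) (hκ : (2 : ℝ) ^ (2 ^ r) ≤ κ0) {C0 Cf : ℝ}
    (hC0 : 0 ≤ C0) (hCf : 0 ≤ Cf) : ∃ L : ℕ, ∀ l ≥ L, ∀ (v : Lev) (a : ℕ) (δ κ : ℝ)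
      (P x h m D G α α' σ φ P' h' x' G' : ℕ),
    v.Inv a (1 / (l : ℝ) ^ P) δ (1 / (l : ℝ) ^ x) κ (1 / (l : ℝ) ^ G) → κ ≤ κ0 →
    δ ≤ 1 / (l : ℝ) ^ h → v.A = l ^ α → a ≤ r * l ^ D →
    (∀ N d, l ^ σ ≤ N → l1 (v.s ^ (N + d) - v.s ^ N) ≤
      C0 * d * Real.sqrt ((l ^ σ : ℕ) / N)) →
    (∀ N d, l ^ φ ≤ N → l1 (v.Z ^ (N + d) - v.Z ^ N) ≤
      Cf * d * Real.sqrt ((l ^ φ : ℕ) / N)) →
    2 * h ≤ D → D + 1 < α → 2 * m + 1 < α' → φ + 2 ≤ α' → σ + 2 * (D + 1) ≤ 2 * m + α →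
    m + 1 ≤ x → P' < 2 * P + h → P' + h' + m < 2 * P + x → 1 ≤ P → 1 ≤ h →
    G' + 2 * m + 1 < G → G' < r →
    (∀ x₁ y k, l ^ α' ≤ 2 * x₁ → x₁ ≤ 2 * l ^ α' → l ^ α' ≤ 2 * y → y ≤ 2 * l ^ α' →
      4 * k ≤ l ^ α' →
      Ap ((v.next r (l ^ α')).s ^ x₁ * (v.next r (l ^ α')).e * (v.next r (l ^ α')).s ^ y)
        ((v.next r (l ^ α')).s ^ (x₁ + k) * (v.next r (l ^ α')).e *
          (v.next r (l ^ α')).s ^ (y - k) - (v.next r (l ^ α')).s ^ (x₁ + y + 1))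
        (1 / (l : ℝ) ^ x') (1 / (l : ℝ) ^ G')) →
    (v.next r (l ^ α')).Inv (r * l ^ (2 * m)) (1 / (l : ℝ) ^ P') (1 / (l : ℝ) ^ h')
      (1 / (l : ℝ) ^ x') κ0 (1 / (l : ℝ) ^ G') := by
  obtain ⟨C, hC, hstep⟩ := Lev.Inv.next_level r κ0
  set R : ℕ := 2 ^ r with hRdef
  set K : ℝ := (r : ℝ) * R with hKdef
  have hR1 : 1 ≤ R := Nat.one_le_two_pow
  have hr1 : (1 : ℝ) ≤ r := by exact_mod_cast hr
  have hRr : (1 : ℝ) ≤ R := by exact_mod_cast hR1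
  have hK : 1 ≤ K := one_le_mul_of_one_le_of_one_le hr1 hRr
  set B1 : ℝ := C0 * (r + 2) * 2 + 12 * K + 1 + 20 * R with hB1
  set B2 : ℝ := Cf * R * (4 * r) with hB2
  set B : ℝ := C * (2 * K + (2 * B1) ^ r + (2 * B2) ^ r) + 16 * K + 2 * C + 3 * C * K + 4 * r * (r + 2) + 9 * K
    with hB
  refine ⟨max ⌈B⌉₊ 2, fun l hl v a δ κ P x h m D G α α' σ φ P' h' x' G' hv hκκ hδ hA ha hs hZ
    e1 e2 e3 e4 e5 e6 e7 e8 e9 e10 e11 e12 hcentre => ?_⟩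
  have hl2 : 2 ≤ l := (le_max_right _ _).trans hl
  have hl1 : 1 ≤ l := by omega
  have hl0 : (0 : ℝ) < l := by exact_mod_cast (show 0 < l by omega)
  have hlR : (1 : ℝ) ≤ l := by exact_mod_cast hl1
  have hBl : B ≤ l := (Nat.le_ceil B).trans (by exact_mod_cast (le_max_left _ _).trans hl)
  have p1 : 0 ≤ C * (2 * K + (2 * B1) ^ r + (2 * B2) ^ r) :=
    mul_nonneg (by linarith) (by positivity)
  have p2 : 0 ≤ 3 * C * K := by positivity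
  have p3 : (0 : ℝ) ≤ 4 * r * (r + 2) := by positivity
  obtain ⟨hν0, hδ0, hc0, hκ1, hη0, hη1⟩ := hv.nonneg
  have hδ1 : δ ≤ 1 := hδ.trans (inv_pow_le_one hl1 h)
  have hν1 : 1 / (l : ℝ) ^ P * (1 + δ) ≤ 1 := by
    refine le_trans (mul_le_mul_of_nonneg_left (show 1 + δ ≤ 2 by linarith) hν0) ?_
    rw [one_div_mul_eq_div]
    exact (cmp_inv hl1 (by exact_mod_cast hl2) (show 0 < P by omega)).trans (by simp)
  have hln : 4 * (r * (r + 2)) ≤ l := by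
    have : ((4 * (r * (r + 2)) : ℕ) : ℝ) ≤ l := by push_cast; linarith
    exact_mod_cast this
  have h4r : 4 * r ≤ l :=
    (Nat.mul_le_mul_left 4 (Nat.le_mul_of_pos_right r (by omega))).trans hln
  have hD : a + 1 + l ^ (2 * h) ≤ (r + 2) * l ^ D := by
    have : 1 ≤ l ^ D := Nat.one_le_pow _ _ hl1
    have : l ^ (2 * h) ≤ l ^ D := Nat.pow_le_pow_right hl1 e1
    rw [add_mul]
    omega
  have hn : ((r * (R * l ^ (2 * m)) : ℕ) : ℝ) ≤ K * (l : ℝ) ^ (2 * m) := by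
    push_cast; rw [hKdef]; linarith
  have hn' : ((R * l ^ (2 * m) : ℕ) : ℝ) ≤ K * (l : ℝ) ^ (2 * m) := le_trans
    (by exact_mod_cast Nat.le_mul_of_pos_left _ hr) hn
  have h16 : 16 * K ≤ (l : ℝ) := by linarith
  obtain ⟨hrun, hrun2⟩ := run_small hK h16 hn (show m + (x - m) ≤ x by omega)
    (show 1 ≤ x - m by omega) (by norm_num : (0 : ℝ) ≤ 4) le_rfl
  have hrun' := (run_small hK h16 hn' (show m + 1 ≤ x from e6) le_rfl
    (by norm_num : (0 : ℝ) ≤ 4) le_rfl).1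
  rw [pow_one] at hrun'
  have hsqrtI : Real.sqrt ((l ^ (2 * h) : ℕ) : ℝ) = (l : ℝ) ^ h := by
    push_cast
    rw [mul_comm, pow_mul, Real.sqrt_sq (by positivity)]
  refine hstep v a _ δ _ κ _ hv hκκ hν1 hδ1 (l ^ α') (l ^ (2 * m)) (l ^ (2 * h)) (R * l ^ α' / (2 * r))
    (C0 * (r + 2) * 2 / l) (Cf * R * (4 * r) / l) _ _ _ _ _
    (Nat.one_le_pow _ _ hl1) (by positivity) ?_ ?_ (by
      rw [← mul_assoc]
      exact Nat.mul_div_le _ _) hrun2 ?_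
    (shift_num hC0 hR1 ((Nat.mul_le_mul (by norm_num) (Nat.le_mul_of_pos_left _ hr)).trans hln) hl2 hA hD hs e5 (by omega))
    (forget_num hCf hr le_rfl h4r hZ e4)
    (by positivity) ?_ ?_ (by positivity) hκ ?_ (inv_pow_le_one hl1 G') hcentre
  · rw [hA]
    calc 4 * (r * (a + 1 + l ^ (2 * h))) ≤ 4 * (r * ((r + 2) * l ^ D)) := by gcongr
      _ = 4 * (r * (r + 2)) * l ^ D := by ring
      _ ≤ _ := pow_grow hl1 e2.le hln
  · rw [← mul_assoc]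
    exact pow_grow hl1 (by omega) h4r
  · calc _ ≤ 9 * K * (l : ℝ) ^ (2 * m) * (1 / (l : ℝ) ^ G) := by
          refine mul_le_mul_of_nonneg_right ?_ hη0
          have : (1 : ℝ) ≤ K * (l : ℝ) ^ (2 * m) := one_le_mul_of_one_le_of_one_le hK (one_le_pow₀ hlR)
          linarith
      _ ≤ 1 := by
          rw [mul_one_div, div_le_one (by positivity)]
          exact cmp_pow hl1 (by linarith) (by omega)
  · rw [hsqrtI]
    calc C * ((1 / (l : ℝ) ^ P) ^ 2 * (1 / (l : ℝ) ^ h + δ))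
        ≤ C * ((1 / (l : ℝ) ^ P) ^ 2 * (2 * (1 / (l : ℝ) ^ h))) := by
          gcongr; linarith
      _ = 2 * C / (l : ℝ) ^ (2 * P + h) := by
          rw [pow_add, mul_comm 2 P, pow_mul]; field_simp
      _ ≤ _ := cmp_inv hl1 (by linarith) e7
  · calc C * ((1 / (l : ℝ) ^ P) ^ 2 * _) ≤
        C * ((1 / (l : ℝ) ^ P) ^ 2 * (3 * K / (l : ℝ) ^ (x - m))) := by gcongr
      _ = 3 * C * K / (l : ℝ) ^ (2 * P + (x - m)) := by
          rw [pow_add, mul_comm 2 P, pow_mul]; field_simp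
      _ ≤ 1 / (l : ℝ) ^ (P' + h') := cmp_inv hl1 (by linarith) (by omega)
      _ = _ := by rw [pow_add, one_div_mul_one_div]
  · refine eta_num (R := (R : ℝ)) (B1 := B1) (B2 := B2) hl1 hC hK hRr (by omega) (Real.sqrt_nonneg _)
      hrun' (by positivity) (by positivity) (le_of_eq ?_) (le_of_eq ?_) e11 e12 (by linarith) hn
      (by push_cast; exact le_rfl)
    · rw [hB1, div_mul_cancel₀ _ hl0.ne']
    · rw [hB2, div_mul_cancel₀ _ hl0.ne']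

/-- The numerical side of forgetting at the next level. -/
theorem forget_gen {C0 : ℝ} (hC0 : 0 ≤ C0) : ∃ L : ℕ, ∀ l ≥ L, ∀ (v : Lev) (a : ℕ) (ν δ κ : ℝ)
      (x G α σ φ : ℕ),
    v.Inv a ν δ (1 / (l : ℝ) ^ x) κ (1 / (l : ℝ) ^ G) → v.A = l ^ α →
    (∀ N d, l ^ σ ≤ N → l1 (v.s ^ (N + d) - v.s ^ N) ≤
      C0 * d * Real.sqrt ((l ^ σ : ℕ) / N)) →
    α + σ + 2 ≤ φ → φ + 2 ≤ 2 * x → φ + 1 < G →
    1 ≤ l ^ φ ∧ l ^ σ ≤ l ^ φ * (2 * v.A + 1) ∧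
      Real.sqrt ((1 + (1 / (l : ℝ) ^ x) ^ 2) ^ (l ^ φ + 1) - 1) ≤ 1 / 8 ∧
      ((l ^ φ : ℕ) + 1 : ℝ) * (1 / (l : ℝ) ^ G) ≤ 1 / 32 ∧
      C0 * ((2 * v.A + 1 : ℕ) : ℝ) *
        Real.sqrt ((l ^ σ : ℕ) / (l ^ φ * (2 * v.A + 1) : ℕ)) ≤ 1 / 4 := by
  refine ⟨max ⌈12 * C0⌉₊ 64, fun l hl v a ν δ κ x G α σ φ hv hA hs e1 e2 e3 => ?_⟩
  have hl64 : 64 ≤ l := (le_max_right _ _).trans hl
  have hl1 : 1 ≤ l := by omega
  have hl0 : (0 : ℝ) < l := by exact_mod_cast (show 0 < l by omega)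
  have hlR : (64 : ℝ) ≤ l := by exact_mod_cast hl64
  have hCl : 12 * C0 ≤ l := (Nat.le_ceil _).trans (by exact_mod_cast (le_max_left _ _).trans hl)
  have h1 : (1 : ℝ) ≤ l := by linarith
  refine ⟨Nat.one_le_pow _ _ hl1, ?_, ?_, ?_, ?_⟩
  · exact (Nat.pow_le_pow_right hl1 (by omega)).trans (Nat.le_mul_of_pos_right _ (by omega))
  · have hn : ((l ^ φ + 1 : ℕ) : ℝ) ≤ 2 * (l : ℝ) ^ (2 * ((φ + 1) / 2)) := by
      push_cast
      have : (1 : ℝ) ≤ (l : ℝ) ^ φ := one_le_pow₀ h1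
      linarith [pow_le_pow_right₀ h1 (show φ ≤ 2 * ((φ + 1) / 2) by omega)]
    have h := (run_small (K := 2) (by norm_num) (by linarith) hn (z := 1)
      (show (φ + 1) / 2 + 1 ≤ x by omega) le_rfl zero_le_one (by norm_num)).1
    rw [one_mul, pow_one] at h
    refine h.trans ?_
    rw [div_le_iff₀ hl0]
    linarith
  · push_cast
    rw [mul_one_div, div_le_iff₀ (by positivity)]
    have : (1 : ℝ) ≤ (l : ℝ) ^ φ := one_le_pow₀ h1
    have := cmp_pow (K := 64) hl1 hlR (show φ < G by omega)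
    linarith
  · have hrs := ratio_small (K := 1) (z := α + 1) (ns := l ^ σ) (q := l ^ φ * (2 * v.A + 1)) hl1
      le_rfl (by positivity) (by
        have : l ^ σ * l ^ (2 * (α + 1)) ≤ l ^ φ * (2 * v.A + 1) :=
          calc l ^ σ * l ^ (2 * (α + 1)) ≤ l ^ (φ + α) := by
                rw [← pow_add]; exact Nat.pow_le_pow_right hl1 (by omega)
            _ ≤ _ := by rw [pow_add, hA]; exact Nat.mul_le_mul_left _ (by omega)
        rw [one_mul]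
        exact_mod_cast this)
    have hM : ((2 * v.A + 1 : ℕ) : ℝ) ≤ 3 * (l : ℝ) ^ α := by
      rw [hA]
      push_cast
      have : (1 : ℝ) ≤ (l : ℝ) ^ α := one_le_pow₀ h1
      linarith
    refine (mul_le_mul (mul_le_mul_of_nonneg_left hM hC0) hrs (Real.sqrt_nonneg _)
      (by positivity)).trans ?_
    rw [pow_succ, mul_one_div, div_le_iff₀ (by positivity)]
    nlinarith [pow_pos hl0 α]

theorem level_A (p : ℝ) (r S : ℕ) (A : ℕ → ℕ) (j : ℕ) : (level p r S A j).A = A j := by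
  cases j <;> rfl

/-- The hierarchy at the scale `l`. -/
noncomputable def lev (p : ℝ) (e r l : ℕ) (j : ℕ) : Lev :=
  level p r (l ^ (120 * e)) (fun i => l ^ aX e i) j

theorem lev_succ (p : ℝ) (e r l j : ℕ) :
    lev p e r l (j + 1) = (lev p e r l j).next r (l ^ aX e (j + 1)) := rfl

/-- The width exponent: there is no wide part at the first level. -/
noncomputable def dW (e l : ℕ) : ℕ → ℝ
  | 0 => 0
  | j + 1 => 1 / (l : ℝ) ^ wX e (j + 1)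

/-- What is passed from level to level. -/
def Good (p : ℝ) (e J r : ℕ) (κ0 C0 : ℝ) (l j : ℕ) : Prop :=
  (∃ (a : ℕ) (κ : ℝ), κ ≤ κ0 ∧ a ≤ r * l ^ dX e j ∧
    (lev p e r l j).Inv a (1 / (l : ℝ) ^ pX e j) (dW e l j) (1 / (l : ℝ) ^ cX e j) κ
      (1 / (l : ℝ) ^ gX e J j)) ∧
  ∀ N d, l ^ sX e j ≤ N → l1 ((lev p e r l j).s ^ (N + d) - (lev p e r l j).s ^ N) ≤
    C0 * d * Real.sqrt ((l ^ sX e j : ℕ) / N)

theorem dW_le (_he : 8 ≤ e) {l : ℕ} (hl : 1 ≤ l) (j : ℕ) :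
    0 ≤ dW e l j ∧ dW e l j ≤ 1 / (l : ℝ) ^ hX e j := by
  rcases j with _ | j
  · exact ⟨le_rfl, by simp [dW]⟩
  · exact ⟨by simp [dW], inv_pow_mono hl (by simp only [wX, hX]; omega)⟩

theorem good_zero (h0 : 0 < p) (h1 : p < 1) (he : 8 ≤ e) (r J : ℕ) :
    ∃ κb Cp : ℝ, 1 ≤ κb ∧ 0 ≤ Cp ∧ ∃ L : ℕ, ∀ l ≥ L, ∀ κ0 C0 : ℝ, κb ≤ κ0 → Cp ≤ C0 →
      Good p e J r κ0 C0 l 0 := by
  obtain ⟨κb, hκb, hbase⟩ := base_inv h0 h1
  obtain ⟨Cp, hCp, hp⟩ := exists_pure_step h0 h1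
  obtain ⟨l₀, hl₀⟩ := hbase (2 * e) (by omega) (gX e J 0)
  refine ⟨κb, Cp, hκb, hCp, max l₀ 1, fun l hl κ0 C0 hκ hC => ?_⟩
  have hl1 : 1 ≤ l := (le_max_right _ _).trans hl
  have e0 : aX e 0 = 120 * e := rfl
  refine ⟨⟨0, κb, hκ, Nat.zero_le _, ?_⟩, fun N d hN => ?_⟩
  · have h := hl₀ l ((le_max_left _ _).trans hl)
    rw [show 60 * (2 * e) = 120 * e by ring, show 90 * (2 * e) - 3 = pX e 0 by simp [pX]; omega,
      show 30 * (2 * e) - 3 = cX e 0 by simp [cX]; omega] at h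
    simpa [lev, level, e0, dW] using h
  · have hS : 0 < l ^ (120 * e) := by positivity
    rw [show sX e 0 = 120 * e from rfl] at hN ⊢
    have hN0 : 0 < N := lt_of_lt_of_le hS hN
    have h := hp (l ^ (120 * e) * N) (l ^ (120 * e) * d) (Nat.mul_pos hS hN0)
    simp only [lev, level, base, ← pow_mul, mul_add] at h ⊢
    refine h.trans ?_
    have hk : ((l ^ (120 * e) : ℕ) : ℝ) * Real.sqrt (1 / ((l ^ (120 * e) * N : ℕ) : ℝ)) =
        Real.sqrt ((l ^ (120 * e) : ℕ) / N) := by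
      have hS' : (0 : ℝ) < (l ^ (120 * e) : ℕ) := by exact_mod_cast hS
      conv_lhs => arg 1; rw [← Real.sqrt_sq hS'.le]
      rw [← Real.sqrt_mul (sq_nonneg _)]
      congr 1
      push_cast
      field_simp
    calc Cp * ((l ^ (120 * e) * d : ℕ) : ℝ) *
          Real.sqrt (1 / ((l ^ (120 * e) * N : ℕ) : ℝ))
        = Cp * d * Real.sqrt ((l ^ (120 * e) : ℕ) / N) := by
          rw [← hk]; push_cast; ring
      _ ≤ _ := by gcongr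

/-- The statement of the comparison at the first level. -/
def ThreshStmt (p : ℝ) : Prop := ∀ d : ℕ, 4 ≤ d → ∀ r Γ : ℕ, ∃ l₀ : ℕ, ∀ l ≥ l₀,
  let v := base p (l ^ (60 * d)) (l ^ (60 * d))
  ∀ (b : List Bool) (i : ℕ), i < b.length → b.count true ≤ 2 ^ r → 8 * l ^ (48 * d) ≤ i →
    8 * l ^ (48 * d) ≤ b.length - 1 - i →
    Ap (v.wd b) (v.Z ^ i * (v.U - v.Z) * v.Z ^ (b.length - 1 - i)) (1 / (l : ℝ) ^ (123 * d))
      (1 / (l : ℝ) ^ Γ)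

/-- The statement of the centre step. -/
def CentreStmt (r : ℕ) : Prop := ∃ C : ℝ, 1 ≤ C ∧ ∀ (v : Lev) (a : ℕ) (ν δ c κ η : ℝ),
    v.Inv a ν δ c κ η → ν * (1 + δ) ≤ 1 → δ ≤ 1 → ∀ (A' : ℕ) (c1 η1 : ℝ), 0 ≤ c1 → 0 ≤ η1 → η1 ≤ 1 →
    (∀ (b : List Bool) (i : ℕ), i < b.length → b.count true ≤ 2 ^ r →
      b.length ≤ 2 ^ r * (4 * A' + 1) → 2 ^ r * A' ≤ 4 * i → 2 ^ r * A' ≤ 4 * (b.length - 1 - i) →
      Ap (v.wd b) (v.Z ^ i * (v.U - v.Z) * v.Z ^ (b.length - 1 - i)) c1 η1) →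
    ∀ x y k, A' ≤ 2 * x → x ≤ 2 * A' → A' ≤ 2 * y → y ≤ 2 * A' → 4 * k ≤ A' →
      Ap ((v.next r A').s ^ x * (v.next r A').e * (v.next r A').s ^ y)
        ((v.next r A').s ^ (x + k) * (v.next r A').e * (v.next r A').s ^ (y - k) -
          (v.next r A').s ^ (x + y + 1)) (C * (ν ^ 2 + c1)) (C * (η + η1))

/-- The words of the centre expansion at every level. -/
def SingleStmt (p : ℝ) (e J r : ℕ) (κ0 C0 : ℝ) : Prop := ∃ L : ℕ, ∀ l ≥ L, ∀ j, j < J →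
  Good p e J r κ0 C0 l j → ∀ b i, i < b.length → b.count true ≤ 2 ^ r →
    b.length ≤ 2 ^ r * (4 * l ^ aX e (j + 1) + 1) → 2 ^ r * l ^ aX e (j + 1) ≤ 4 * i →
    2 ^ r * l ^ aX e (j + 1) ≤ 4 * (b.length - 1 - i) →
    Ap ((lev p e r l j).wd b)
      ((lev p e r l j).Z ^ i * ((lev p e r l j).U - (lev p e r l j).Z) *
        (lev p e r l j).Z ^ (b.length - 1 - i))
      (1 / (l : ℝ) ^ (cX e (j + 1) + 1)) (1 / (l : ℝ) ^ (gX e J (j + 1) + 1))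

/-- One level to the next. -/
theorem good_succ (he8 : 8 ≤ e) (he : J + 5 ≤ e) (hr : gX e J 0 < r)
    (hκ : (2 : ℝ) ^ (2 ^ r) ≤ κ0) (hcs : CentreStmt r) :
    ∃ Cg : ℝ, 0 ≤ Cg ∧ ∀ Cz C0 : ℝ, Cg ≤ Cz → Cz * 2 ^ r ≤ C0 → SingleStmt p e J r κ0 C0 →
      ∃ L : ℕ, ∀ l ≥ L, ∀ j, j < J →
        Good p e J r κ0 C0 l j →
        (∀ N d, l ^ fX e j ≤ N →
          l1 ((lev p e r l j).Z ^ (N + d) - (lev p e r l j).Z ^ N) ≤
            Cz * d * Real.sqrt ((l ^ fX e j : ℕ) / N)) →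
        Good p e J r κ0 C0 l (j + 1) ∧ ∀ N d, l ^ fX e (j + 1) ≤ N →
          l1 ((lev p e r l (j + 1)).Z ^ (N + d) - (lev p e r l (j + 1)).Z ^ N) ≤
            Cz * d * Real.sqrt ((l ^ fX e (j + 1) : ℕ) / N) := by
  obtain ⟨Cg, hCg, hforget⟩ := Lev.forget_pow
  obtain ⟨Cn, hCn, hcn⟩ := hcs
  refine ⟨Cg, hCg, fun Cz C0 hgz hz0 hsingle => ?_⟩
  have hCz : 0 ≤ Cz := hCg.trans hgz
  have hC0 : 0 ≤ C0 := le_trans (by positivity) hz0
  obtain ⟨L1, hL1⟩ := next_gen (C0 := C0) (Cf := Cz) (show 1 ≤ r by omega) hκ hC0 hCz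
  obtain ⟨L2, hL2⟩ := forget_gen (C0 := C0) hC0
  obtain ⟨L3, hL3⟩ := hsingle
  refine ⟨max (max L1 L2) (max L3 (max ⌈2 * Cn⌉₊ 2)), fun l hl j hj hgood hZ => ?_⟩
  simp only [max_le_iff] at hl
  obtain ⟨⟨hl1', hl2'⟩, hl3', hlC, hl2⟩ := hl
  have hl1 : 1 ≤ l := by omega
  have hCl : 2 * Cn ≤ (l : ℝ) := (Nat.le_ceil _).trans (by exact_mod_cast hlC)
  obtain ⟨⟨a, κ, hκκ, ha, hinv⟩, hs⟩ := id hgood
  set v := lev p e r l j with hv
  have hA : v.A = l ^ aX e j := level_A _ _ _ _ _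
  obtain ⟨s1, s2, s3, s4, s5, s6, s7, s8, s9, s10, s11⟩ := sched he8 j (by omega)
  obtain ⟨f1, f2, f3⟩ := sched_forget he8 j (by omega)
  obtain ⟨hdW0, hdW⟩ := dW_le he8 hl1 j
  have hν1 : 1 / (l : ℝ) ^ pX e j * (1 + dW e l j) ≤ 1 := by
    refine le_trans (mul_le_mul_of_nonneg_left
      (show 1 + dW e l j ≤ 2 by linarith [hdW.trans (inv_pow_le_one hl1 _)]) (by positivity)) ?_
    rw [one_div_mul_eq_div]
    exact (cmp_inv hl1 (by exact_mod_cast hl2) (show 0 < pX e j by omega)).trans (by simp)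
  have hg := gX_succ e hj
  have hgm : gX e J (j + 1) + 2 * mX e j + 1 < gX e J j := by
    have := (le_eu (show 1 ≤ e by omega) j).2.2.1
    simp only [mX]; omega
  have hcentre := hcn v a _ _ _ κ _ hinv hν1 (hdW.trans (inv_pow_le_one hl1 _))
    (l ^ aX e (j + 1)) _ _ (by positivity) (by positivity) (inv_pow_le_one hl1 _)
    (hL3 l hl3' j hj hgood)
  have hfold : ∀ i k : ℕ, i + 1 ≤ k →
      Cn * (1 / (l : ℝ) ^ k + 1 / (l : ℝ) ^ (i + 1)) ≤ 1 / (l : ℝ) ^ i := fun i k hik =>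
    le_trans (le_of_le_of_eq (mul_le_mul_of_nonneg_left
      (add_le_add_left (inv_pow_mono hl1 hik) _) (by linarith))
      (show _ = 2 * Cn / (l : ℝ) ^ (i + 1) by ring)) (cmp_inv hl1 hCl (Nat.lt_succ_self i))
  have hnext := hL1 l hl1' v a (dW e l j) κ (pX e j) (cX e j) (hX e j) (mX e j) (dX e j) (gX e J j)
    (aX e j) (aX e (j + 1)) (sX e j) (fX e j) (pX e (j + 1)) (wX e (j + 1)) (cX e (j + 1))
    (gX e J (j + 1)) hinv hκκ hdW hA ha hs hZ s1 s2 s3 s4 s5 s6 s7 s8 s10 s11 hgm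
    (lt_of_le_of_lt (gX_anti e J (Nat.zero_le (j + 1))) hr)
    fun x₁ y k h₁ h₂ h₃ h₄ h₅ => (hcentre x₁ y k h₁ h₂ h₃ h₄ h₅).mono
      (by rw [div_pow, one_pow, ← pow_mul]; exact hfold _ _ (by omega))
      (hfold _ _ (by omega))
  have hslot : ∀ N d, l ^ sX e (j + 1) ≤ N →
      l1 ((lev p e r l (j + 1)).s ^ (N + d) - (lev p e r l (j + 1)).s ^ N) ≤
        C0 * d * Real.sqrt ((l ^ sX e (j + 1) : ℕ) / N) := fun N d hN =>
    (Lev.forget_next r _ hCz hZ N d hN).trans (by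
      rw [show sX e (j + 1) = fX e j from rfl]
      gcongr)
  refine ⟨⟨⟨_, κ0, le_rfl, le_rfl, hnext⟩, hslot⟩, ?_⟩
  obtain ⟨g1, g2, g3, g4, g5⟩ := hL2 l hl2' (lev p e r l (j + 1)) _ _ _ _ _ _ _ _ _ hnext
    (level_A _ _ _ _ _) hslot f1 f3 (fX_lt_gX he8 hj)
  intro N d hN
  refine (hforget hnext g1 hslot g2 g3 g4 g5 N d hN).trans ?_
  gcongr

end Vale.Agent.P321.Super
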