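import Vale.Agent.P321.Super.Twin
import Vale.Agent.P321.Super.Basic

/-!
# P321: lifted traces of a list of units

A unit is kept with probability `θ`; a kept unit of type `t` shows a letter of law `ν t`, and a
letter stands for a word `ψ c`. The law of the resulting word is compared with the one of plain
units through the second moment of the lifted likelihood ratio.
-/

namespace Vale.Agent.P321.Super

open Finset
open MonoidAlgebra (single)

variable {α ι : Type*} [Fintype ι] {M : Type*} [AddCommGroup M] [Module ℝ M] {θ : ℝ}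

/-- The sum over the lists of length `n`. -/
def tup : ℕ → (List ι → M) → M
  | 0, F => F []
  | n + 1, F => ∑ c, tup n fun y => F (c :: y)

/-- The likelihood of the letters `y` given the types `τ`. -/
def lik (ν : α → ι → ℝ) : List α → List ι → ℝ
  | [], [] => 1
  | t :: τ, c :: y => ν t c * lik ν τ y
  | _, _ => 0

omit [Module ℝ M] in
theorem tup_add (n : ℕ) (F G : List ι → M) :
    tup n (fun y => F y + G y) = tup n F + tup n G := by
  induction n generalizing F G with
  | zero => rfl
  | succ n ih => simp only [tup, ih, Finset.sum_add_distrib]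

theorem tup_smul (n : ℕ) (c : ℝ) (F : List ι → M) : tup n (fun y => c • F y) = c • tup n F := by
  induction n generalizing F with
  | zero => rfl
  | succ n ih => simp only [tup, ih, Finset.smul_sum]

omit [Module ℝ M] in
theorem tup_sub (n : ℕ) (F G : List ι → M) :
    tup n (fun y => F y - G y) = tup n F - tup n G := by
  rw [eq_sub_iff_add_eq, ← tup_add]
  simp

theorem tup_thin (n : ℕ) (r : List α) (F : List ι → List α → M) :
    tup n (fun y => thin θ r (F y)) = thin θ r fun τ => tup n fun y => F y τ := by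
  induction r generalizing F with
  | nil => rfl
  | cons t r ih => simp only [thin, tup_add, tup_smul, ih]

theorem tup_mono (n : ℕ) {F G : List ι → ℝ} (h : ∀ y, F y ≤ G y) : tup n F ≤ tup n G := by
  induction n generalizing F G with
  | zero => exact h []
  | succ n ih => exact Finset.sum_le_sum fun c _ => ih fun y => h (c :: y)

theorem tup_nonneg (n : ℕ) {F : List ι → ℝ} (h : ∀ y, 0 ≤ F y) : 0 ≤ tup n F := by
  induction n generalizing F with
  | zero => exact h []
  | succ n ih => exact Finset.sum_nonneg fun c _ => ih fun y => h (c :: y)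

omit [Module ℝ M] in
theorem tup_zero (n : ℕ) : tup n (fun _ : List ι => (0 : M)) = 0 := by
  induction n with
  | zero => rfl
  | succ n ih => simp only [tup, ih, Finset.sum_const_zero]

theorem tup_const_mul (n : ℕ) (c : ℝ) (F : List ι → ℝ) :
    tup n (fun y => c * F y) = c * tup n F := tup_smul n c F

omit [Fintype ι] in
theorem lik_nonneg {ν : α → ι → ℝ} (h : ∀ t c, 0 ≤ ν t c) (τ : List α) (y : List ι) :
    0 ≤ lik ν τ y := by
  induction τ generalizing y with
  | nil => cases y <;> simp [lik]
  | cons t τ ih => cases y <;> simp [lik]; exact mul_nonneg (h _ _) (ih _)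

theorem lik_smul_tup (ν : α → ι → ℝ) (τ : List α) (n : ℕ) (F : List ι → M) (h : τ.length ≠ n) :
    tup n (fun y => lik ν τ y • F y) = 0 := by
  induction n generalizing τ F with
  | zero => cases τ <;> simp_all [tup, lik]
  | succ n ih =>
    cases τ with
    | nil => simp [tup, lik, tup_zero]
    | cons t τ =>
      refine Finset.sum_eq_zero fun c _ => ?_
      simp only [lik, mul_smul, tup_smul]
      rw [ih τ _ (by simpa using h), smul_zero]

theorem tup_lik {ν : α → ι → ℝ} (hν : ∀ t, ∑ c, ν t c = 1) (τ : List α) (n : ℕ) :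
    tup n (lik ν τ) = if τ.length = n then 1 else 0 := by
  induction n generalizing τ with
  | zero => cases τ <;> simp [tup, lik]
  | succ n ih =>
    cases τ with
    | nil =>
      simp only [tup, lik, List.length_nil]
      rw [if_neg (by omega)]
      exact Finset.sum_eq_zero fun c _ => tup_zero n
    | cons t τ =>
      simp only [tup, lik, List.length_cons]
      simp only [tup_const_mul, ih, ← Finset.sum_mul, hν, Nat.add_right_cancel_iff, one_mul]

/-- The excess collision weight of two types. -/
noncomputable def kern (ν : α → ι → ℝ) (ν₀ : ι → ℝ) (t s : α) : ℝ :=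
  ∑ c, ν t c * ν s c / ν₀ c - 1

theorem tup_lik_mul (ν : α → ι → ℝ) (ν₀ : ι → ℝ) (τ σ : List α) (n : ℕ) :
    tup n (fun y => lik ν τ y * lik ν σ y / (y.map ν₀).prod) =
      if τ.length = n then coll (kern ν ν₀) τ σ else 0 := by
  induction n generalizing τ σ with
  | zero => cases τ <;> cases σ <;> simp [tup, lik, coll]
  | succ n ih =>
    rcases τ with _ | ⟨t, τ⟩
    · simp only [tup, lik, zero_mul, zero_div, List.length_nil]
      rw [if_neg (by omega)]
      exact Finset.sum_eq_zero fun c _ => tup_zero n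
    rcases σ with _ | ⟨s, σ⟩
    · simp only [tup, lik, mul_zero, zero_div, coll, ite_self]
      exact Finset.sum_eq_zero fun c _ => tup_zero n
    simp only [tup, lik, List.map_cons, List.prod_cons, mul_mul_mul_comm (ν t _),
      mul_div_mul_comm, tup_const_mul, ih, ← Finset.sum_mul, List.length_cons, Nat.add_right_cancel_iff, coll, kern]
    split_ifs <;> ring

theorem tup_abs_sq_le {ν₀ : ι → ℝ} (h0 : ∀ c, 0 < ν₀ c) (hs : ∑ c, ν₀ c = 1) (n : ℕ)
    (D : List ι → ℝ) :
    (tup n fun y => |D y|) ^ 2 ≤ tup n fun y => D y * D y / (y.map ν₀).prod := by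
  induction n generalizing D with
  | zero => simp [tup, sq]
  | succ n ih =>
    simp only [tup]
    have e : ∀ c, (tup n fun y => D (c :: y) * D (c :: y) / ((c :: y).map ν₀).prod) =
        (1 / ν₀ c) * tup n fun y => D (c :: y) * D (c :: y) / (y.map ν₀).prod := by
      intro c
      simp only [← smul_eq_mul (a := 1 / ν₀ c), ← tup_smul]
      congr 1
      funext y
      simp only [List.map_cons, List.prod_cons, smul_eq_mul]
      field_simp
    simp only [e]
    refine (Finset.sum_sq_le_sum_mul_sum_of_sq_le_mul univ (fun c _ => (h0 c).le)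
      (g := fun c => (1 / ν₀ c) * tup n fun y => D (c :: y) * D (c :: y) / (y.map ν₀).prod)
      (fun c _ => mul_nonneg (one_div_nonneg.2 (h0 c).le) (le_trans (sq_nonneg _) (ih _)))
      fun c _ => ?_).trans_eq (by rw [hs, one_mul])
    rw [← mul_assoc, mul_one_div, div_self (h0 c).ne', one_mul]
    exact ih _

/-- The difference of the lifted laws. -/
noncomputable def gap (θ : ℝ) (ν : α → ι → ℝ) (pl : α → α) (ts : List α) (y : List ι) : ℝ :=
  thin θ ts fun τ => lik ν τ y - lik ν (τ.map pl) y

theorem coll_map (x : α → α → ℝ) (f g : α → α) (τ σ : List α) :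
    coll x (τ.map f) (σ.map g) = coll (fun t s => x (f t) (g s)) τ σ := by
  induction τ generalizing σ with
  | nil => cases σ <;> simp [coll]
  | cons t τ ih => cases σ <;> simp [coll, ih]

/-- The second moments add up to the excess of the twin thinning. -/
theorem sum_tup_gap_sq {ν : α → ι → ℝ} {ν₀ : ι → ℝ} (h0 : ∀ c, 0 < ν₀ c)
    (hs : ∀ t, ∑ c, ν t c = 1) (pl : α → α) (hpl : ∀ t, ν (pl t) = ν₀) (ts : List α) :
    ∑ n ∈ range (ts.length + 1),
        tup n (fun y => gap θ ν pl ts y * gap θ ν pl ts y / (y.map ν₀).prod) =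
      ee θ (kern ν ν₀) ts ts - ee θ (fun _ _ => 0) ts ts := by
  have hk1 : ∀ t s, kern ν ν₀ (pl t) s = 0 := fun t s => by
    simp only [kern, hpl]
    rw [Finset.sum_congr rfl fun c _ => by rw [mul_comm (ν₀ c), mul_div_assoc,
      div_self (h0 c).ne', mul_one], hs, sub_self]
  have hk2 : ∀ t s, kern ν ν₀ t (pl s) = 0 := fun t s => by
    simp only [kern, hpl]
    rw [Finset.sum_congr rfl fun c _ => by rw [mul_div_assoc, div_self (h0 c).ne', mul_one],
      hs, sub_self]
  have hprod : ∀ n, tup n (fun y => gap θ ν pl ts y * gap θ ν pl ts y / (y.map ν₀).prod) =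
      thin θ ts fun τ => thin θ ts fun σ =>
        if τ.length = n then coll (kern ν ν₀) τ σ - coll (fun _ _ => 0) τ σ else 0 := by
    intro n
    have e : ∀ y, gap θ ν pl ts y * gap θ ν pl ts y / (y.map ν₀).prod =
        thin θ ts fun τ => thin θ ts fun σ =>
          lik ν τ y * lik ν σ y / (y.map ν₀).prod -
          lik ν (τ.map pl) y * lik ν σ y / (y.map ν₀).prod -
          (lik ν τ y * lik ν (σ.map pl) y / (y.map ν₀).prod -
          lik ν (τ.map pl) y * lik ν (σ.map pl) y / (y.map ν₀).prod) := by
      intro y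
      rw [gap, mul_comm, mul_div_right_comm, ← smul_eq_mul, ← thin_smul]
      congr 1
      funext τ
      rw [smul_eq_mul, mul_comm, ← mul_div_assoc, mul_div_right_comm, ← smul_eq_mul, ← thin_smul]
      congr 1
      funext σ
      rw [smul_eq_mul]
      ring
    simp only [e, tup_thin, tup_sub, tup_lik_mul, coll_map, hk1, List.length_map]
    congr 1
    funext τ
    congr 1
    funext σ
    have h1 : coll (fun t s => kern ν ν₀ (pl t) s) τ σ = coll (fun _ _ => 0) τ σ := by
      simp only [hk1]
    have h2 : coll (kern ν ν₀) (τ.map pl) σ = coll (fun _ _ => 0) τ σ := by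
      conv_lhs => rw [← List.map_id σ]
      rw [coll_map]; simp only [hk1, id]
    have h3 : coll (kern ν ν₀) τ (σ.map pl) = coll (fun _ _ => 0) τ σ := by
      conv_lhs => rw [← List.map_id τ]
      rw [coll_map]; simp only [hk2, id]
    rw [h2, h3]
    split_ifs <;> ring
  simp only [hprod, ee, ← thin_sum, ← thin_sub]
  refine thin_congr fun τ hτ => ?_
  congr 1
  funext σ
  rw [Finset.sum_ite_eq, if_pos (mem_range.2 (by omega))]

theorem tup_abs_gap_le {ν : α → ι → ℝ} (h : ∀ t c, 0 ≤ ν t c) (hs : ∀ t, ∑ c, ν t c = 1)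
    (h0 : 0 ≤ θ) (h1 : θ ≤ 1) (pl : α → α) (ts : List α) (n : ℕ) :
    tup n (fun y => |gap θ ν pl ts y|) ≤ 2 * binW θ ts.length n := by
  calc tup n (fun y => |gap θ ν pl ts y|)
      ≤ tup n (fun y => thin θ ts fun τ => lik ν τ y + lik ν (τ.map pl) y) :=
        tup_mono n fun y => by
          have hτ := fun τ => lik_nonneg h τ y
          rw [abs_le, gap]
          refine ⟨?_, thin_mono h0 h1 ts fun τ => by linarith [hτ τ, hτ (τ.map pl)]⟩
          rw [neg_le_iff_add_nonneg, ← thin_add]
          exact (thin_const (θ := θ) ts (0 : ℝ)).ge.trans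
            (thin_mono h0 h1 ts fun τ => by linarith [hτ τ, hτ (τ.map pl)])
    _ = _ := by
        simp only [tup_thin, tup_add, tup_lik hs, List.length_map, thin_add, thin_length_eq]
        ring

theorem thin_length_sq (c : ℝ) (r : List α) :
    thin θ r (fun τ => ((τ.length : ℝ) - c) ^ 2) =
      θ * (1 - θ) * r.length + (θ * r.length - c) ^ 2 := by
  induction r generalizing c with
  | nil => simp [thin]
  | cons t r ih =>
    simp only [thin, List.length_cons, Nat.cast_add, Nat.cast_one,
      show ∀ k : ℝ, k + 1 - c = k - (c - 1) from fun k => by ring, ih, smul_eq_mul]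
    ring

/-- Far lengths are rare. -/
theorem sum_far_le (h0 : 0 ≤ θ) (h1 : θ ≤ 1) (r : List α) {R : ℝ} (hR : 0 < R) :
    ∑ n ∈ (range (r.length + 1)).filter (fun n : ℕ => R < |(n : ℝ) - θ * r.length|),
        binW θ r.length n ≤ r.length / R ^ 2 := by
  set S := (range (r.length + 1)).filter (fun n : ℕ => R < |(n : ℝ) - θ * r.length|) with hS
  simp only [← thin_length_eq (θ := θ) r, ← thin_sum, Finset.sum_ite_eq]
  refine (thin_mono h0 h1 r
    (G := fun τ => (R ^ 2)⁻¹ • ((τ.length : ℝ) - θ * r.length) ^ 2) fun τ => ?_).trans ?_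
  · rw [smul_eq_mul]
    split_ifs with h
    · rw [le_inv_mul_iff₀ (by positivity), mul_one, ← sq_abs ((τ.length : ℝ) - θ * r.length)]
      exact pow_le_pow_left₀ hR.le (Finset.mem_filter.1 h).2.le 2
    · positivity
  · rw [thin_smul, thin_length_sq, sub_self, smul_eq_mul, inv_mul_eq_div,
      div_le_div_iff_of_pos_right (by positivity)]
    nlinarith [mul_le_one₀ h1 (by linarith : 0 ≤ 1 - θ) (by linarith : 1 - θ ≤ 1),
      Nat.cast_nonneg (α := ℝ) r.length]

/-- The law of a unit. -/
noncomputable def unitLaw (θ : ℝ) (ν : α → ι → ℝ) (ψ : ι → W) (t : α) : Msr :=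
  (1 - θ) • 1 + θ • ∑ c, ν t c • single (ψ c) 1

theorem thin_mul_left (r : List α) (a : Msr) (F : List α → Msr) :
    thin θ r (fun τ => a * F τ) = a * thin θ r F := by
  induction r generalizing F with
  | nil => rfl
  | cons t r ih => simp only [thin, ih, mul_add, mul_smul_comm]

theorem tup_mul_left (n : ℕ) (a : Msr) (F : List ι → Msr) :
    tup n (fun y => a * F y) = a * tup n F := by
  induction n generalizing F with
  | zero => rfl
  | succ n ih => simp only [tup, ih, Finset.mul_sum]

theorem prod_unitLaw (ν : α → ι → ℝ) (ψ : ι → W) (r : List α) :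
    (r.map (unitLaw θ ν ψ)).prod = thin θ r fun τ =>
      tup τ.length fun y => lik ν τ y • single (y.map ψ).prod (1 : ℝ) := by
  induction r with
  | nil => simp [thin, tup, lik, MonoidAlgebra.one_def]
  | cons t r ih =>
    rw [List.map_cons, List.prod_cons, ih, unitLaw, add_mul, smul_mul_assoc, one_mul, thin,
      smul_mul_assoc, Finset.sum_mul]
    congr 2
    simp only [List.length_cons, tup, lik, List.map_cons, List.prod_cons, mul_smul, tup_smul,
      smul_mul_assoc, thin_sum, thin_smul]
    refine Finset.sum_congr rfl fun c _ => congrArg _ ?_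
    rw [← thin_mul_left]
    congr 1
    funext τ
    rw [← tup_mul_left]
    congr 1
    funext y
    rw [mul_smul_comm, MonoidAlgebra.single_mul_single, one_mul]

theorem prod_unitLaw_eq (ν : α → ι → ℝ) (ψ : ι → W) (r : List α) :
    (r.map (unitLaw θ ν ψ)).prod = ∑ n ∈ range (r.length + 1),
      tup n fun y => (thin θ r fun τ => lik ν τ y) • single (y.map ψ).prod (1 : ℝ) := by
  rw [prod_unitLaw]
  have e : ∀ y : List ι, (thin θ r fun τ => lik ν τ y) • (single (y.map ψ).prod (1 : ℝ) : Msr) =
      thin θ r fun τ => lik ν τ y • (single (y.map ψ).prod (1 : ℝ) : Msr) := by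
    intro y
    generalize (single (y.map ψ).prod (1 : ℝ) : Msr) = m
    generalize hG : (fun τ => lik ν τ y) = G
    have : ∀ (r : List α) (G : List α → ℝ), thin θ r G • m = thin θ r fun τ => G τ • m := by
      intro r
      induction r with
      | nil => intro G; rfl
      | cons t r ih => intro G; simp only [thin, add_smul, smul_assoc, ih]
    rw [this r G, ← hG]
  simp only [e, tup_thin, ← thin_sum]
  refine thin_congr fun τ hτ => ?_
  rw [Finset.sum_eq_single τ.length (fun n _ hn => lik_smul_tup ν τ n _ (Ne.symm hn))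
    fun hn => absurd (mem_range.2 (by omega)) hn]

theorem l1_tup_le (n : ℕ) (F : List ι → Msr) : l1 (tup n F) ≤ tup n fun y => l1 (F y) := by
  induction n generalizing F with
  | zero => exact le_rfl
  | succ n ih => exact (l1_sum_le _ _).trans (Finset.sum_le_sum fun c _ => ih _)

/-- Total variation from the twin excess. -/
theorem l1_unit_sub_le {ν : α → ι → ℝ} {ν₀ : ι → ℝ} (h : ∀ t c, 0 ≤ ν t c)
    (hs : ∀ t, ∑ c, ν t c = 1) (hν₀ : ∀ c, 0 < ν₀ c) (hs₀ : ∑ c, ν₀ c = 1) (pl : α → α)
    (hpl : ∀ t, ν (pl t) = ν₀) (ψ : ι → W) (h0 : 0 ≤ θ) (h1 : θ ≤ 1) (ts : List α) {R : ℝ}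
    (hR : 0 < R) :
    l1 ((ts.map (unitLaw θ ν ψ)).prod - ((ts.map pl).map (unitLaw θ ν ψ)).prod) ≤
      Real.sqrt ((2 * R + 1) * (ee θ (kern ν ν₀) ts ts - ee θ (fun _ _ => 0) ts ts)) +
        2 * (ts.length / R ^ 2) := by
  set U := ts.length with hU
  set S := range (U + 1) with hS
  have e1 : (ts.map (unitLaw θ ν ψ)).prod - ((ts.map pl).map (unitLaw θ ν ψ)).prod =
      ∑ n ∈ S, tup n fun y => gap θ ν pl ts y • single (y.map ψ).prod (1 : ℝ) := by
    rw [prod_unitLaw_eq, prod_unitLaw_eq, List.length_map, ← Finset.sum_sub_distrib]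
    refine Finset.sum_congr rfl fun n _ => ?_
    rw [← tup_sub]
    congr 1
    funext y
    rw [← sub_smul, thin_map, ← thin_sub]
    rfl
  rw [e1]
  refine (l1_sum_le _ _).trans ((Finset.sum_le_sum fun n _ => l1_tup_le n _).trans ?_)
  simp only [l1_smul, l1_single, abs_one, mul_one]
  rw [← Finset.sum_filter_add_sum_filter_not S (fun n : ℕ => R < |(n : ℝ) - θ * U|), add_comm]
  refine add_le_add ?_ ?_
  · set T := S.filter fun n : ℕ => ¬ R < |(n : ℝ) - θ * U| with hT
    refine Real.le_sqrt_of_sq_le ((sq_sum_le_card_mul_sum_sq).trans ?_)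
    have hq : ∀ n, 0 ≤ tup n fun y => gap θ ν pl ts y * gap θ ν pl ts y / (y.map ν₀).prod :=
      fun n => le_trans (sq_nonneg _) (tup_abs_sq_le hν₀ hs₀ n _)
    refine mul_le_mul ?_ ((Finset.sum_le_sum fun n _ => tup_abs_sq_le hν₀ hs₀ n _).trans
      ((Finset.sum_le_sum_of_subset_of_nonneg (Finset.filter_subset _ _) fun n _ _ => hq n).trans_eq
        (sum_tup_gap_sq hν₀ hs pl hpl ts))) (Finset.sum_nonneg fun n _ => sq_nonneg _)
      (by positivity)
    have hsub : T ⊆ Icc ⌈θ * U - R⌉₊ ⌊θ * U + R⌋₊ := by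
      intro n hn
      have hn' := abs_le.1 (not_lt.1 (Finset.mem_filter.1 hn).2)
      exact Finset.mem_Icc.2 ⟨Nat.ceil_le.2 (by linarith), Nat.le_floor (by linarith)⟩
    refine (Nat.cast_le.2 (Finset.card_le_card hsub)).trans ?_
    rw [Nat.card_Icc]
    rcases le_total ⌈θ * U - R⌉₊ (⌊θ * U + R⌋₊ + 1) with hle | hle
    · rw [Nat.cast_sub hle, Nat.cast_add, Nat.cast_one]
      have := Nat.floor_le (show (0 : ℝ) ≤ θ * U + R by positivity)
      have := Nat.le_ceil (θ * U - R)
      linarith
    · rw [Nat.sub_eq_zero_of_le hle]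
      push_cast
      linarith
  · refine (Finset.sum_le_sum fun n _ => tup_abs_gap_le h hs h0 h1 pl ts n).trans ?_
    rw [← Finset.mul_sum]
    exact mul_le_mul_of_nonneg_left (sum_far_le h0 h1 ts hR) two_pos.le

end Vale.Agent.P321.Super
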