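import Vale.Agent.P321.Super.Defs
import Vale.Agent.P321.Super.Binom
import Vale.Agent.P321.Super.Urn

/-!
# P321: pure runs of units

Tools for the bottom level: comparison of neighbouring powers of the unit law, orthogonality of
single defects at different units of a pure run, and smoothing by averaged finite differences.
-/

namespace Vale.Agent.P321.Super

open Finset
open MonoidAlgebra (single)
open scoped Classical

/-! ### Generic facts about quadratic norms -/

theorem exists_dens_mix {ι : Type*} (K : Finset ι) (a F : ι → ℝ) (ha : ∀ k, 0 ≤ a k) (Y : ι → Msr)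
    (hY : ∀ k, IsProb (Y k)) :
    ∃ h : W → ℝ, ∑ k ∈ K, (a k * F k) • Y k = dens (∑ k ∈ K, a k • Y k) h ∧
      ip (∑ k ∈ K, a k • Y k) h h ≤ ∑ k ∈ K, a k * (F k * F k) := by
  classical
  obtain ⟨h, e, hh⟩ := exists_dens_push (K.sigma fun k => (Y k).coeff.support) (fun x => x.2)
    (fun x => a x.1 * (Y x.1).coeff x.2) (fun x => F x.1)
    (fun x => mul_nonneg (ha _) ((hY _).nonneg _)) (R := ∑ k ∈ K, a k • Y k) (by
      rw [Finset.sum_sigma]
      refine Finset.sum_congr rfl fun k _ => ?_
      conv_lhs => rw [expand (Y k), Finset.smul_sum]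
      simp)
  refine ⟨h, ?_, hh.trans_eq ?_⟩
  · rw [← e, Finset.sum_sigma]
    refine Finset.sum_congr rfl fun k _ => ?_
    conv_lhs => rw [expand (Y k), Finset.smul_sum]
    refine Finset.sum_congr rfl fun t _ => ?_
    rw [MonoidAlgebra.smul_single']
    congr 1
    ring
  · rw [Finset.sum_sigma]
    refine Finset.sum_congr rfl fun k _ => ?_
    simp only [mul_assoc (a k), ← mul_sum, ← Finset.sum_mul, ← mass_eq_sum subset_rfl, (hY k).mass_one]
    ring

/-- A reference dominating a multiple of the old one may replace it. -/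
theorem Ap.mono_ref {R R' μ : Msr} {a ε c : ℝ} (hR : IsProb R) (hc : 0 < c)
    (h : ∀ t, c * R.coeff t ≤ R'.coeff t) (hμ : Ap R μ a ε) :
    Ap R' μ (Real.sqrt c⁻¹ * a) ε := by
  obtain ⟨f, h1, h2⟩ := hμ
  have hR' : ∀ t, 0 ≤ R'.coeff t := fun t => (mul_nonneg hc.le (hR.nonneg t)).trans (h t)
  have hz : ∀ t, R'.coeff t = 0 → R.coeff t = 0 := fun t ht => by
    nlinarith [h t, hR.nonneg t]
  refine ⟨fun t => R.coeff t * f t / R'.coeff t, ?_, ?_⟩
  · refine le_trans ?_ (mul_le_mul_of_nonneg_left h1 (Real.sqrt_nonneg _))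
    rw [← Real.sqrt_mul (by positivity)]
    refine Real.sqrt_le_sqrt ?_
    have hsub : R.coeff.support ⊆ R'.coeff.support := fun t ht => by
      simp only [Finsupp.mem_support_iff] at ht ⊢
      exact fun h0 => ht (hz t h0)
    calc ip R' (fun t => R.coeff t * f t / R'.coeff t) (fun t => R.coeff t * f t / R'.coeff t)
        ≤ ∑ t ∈ R'.coeff.support, c⁻¹ * (R.coeff t * (f t * f t)) := by
          refine Finset.sum_le_sum fun t ht => ?_
          have h0 : R'.coeff t ≠ 0 := Finsupp.mem_support_iff.1 ht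
          have hpos : 0 < R'.coeff t := lt_of_le_of_ne (hR' t) (Ne.symm h0)
          have hq : R.coeff t / R'.coeff t ≤ c⁻¹ := by
            rw [div_le_iff₀ hpos, inv_mul_eq_div, le_div_iff₀ hc, mul_comm]
            exact h t
          calc R'.coeff t * (R.coeff t * f t / R'.coeff t * (R.coeff t * f t / R'.coeff t))
              = R.coeff t / R'.coeff t * (R.coeff t * (f t * f t)) := by field_simp
            _ ≤ c⁻¹ * (R.coeff t * (f t * f t)) :=
              mul_le_mul_of_nonneg_right hq (mul_nonneg (hR.nonneg t) (mul_self_nonneg _))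
      _ = c⁻¹ * ip R f f := by
          rw [ip, mul_sum]
          exact (Finset.sum_subset hsub fun t _ ht => by
            simp [Finsupp.notMem_support_iff.1 ht]).symm
  · have e : dens R' (fun t => R.coeff t * f t / R'.coeff t) = dens R f := by
      ext t
      rw [coeff_dens, coeff_dens]
      by_cases h0 : R'.coeff t = 0
      · simp [h0, hz t h0]
      · field_simp
    rwa [e]

/-! ### The unit law -/

theorem coeff_s0 (p : ℝ) (t : W) : (s0 p).coeff t =
    (if t = 1 then (1 - p) * (1 - p) else 0) + (if t = FreeMonoid.of true then (1 - p) * p else 0) +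
    (if t = FreeMonoid.of false then p * (1 - p) else 0) +
    (if t = FreeMonoid.of false * FreeMonoid.of true then p * p else 0) := by
  classical
  simp only [s0, letter, add_mul, mul_add, MonoidAlgebra.single_mul_single, one_mul, mul_one,
    MonoidAlgebra.coeff_add, MonoidAlgebra.coeff_single, Finsupp.add_apply, Finsupp.single_apply,
    eq_comm (b := t)]
  ring

theorem coeff_dd (p : ℝ) (t : W) : (dd p).coeff t =
    (if t = 1 then 1 - p else 0) + (if t = FreeMonoid.of true then p else 0) := by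
  classical
  simp only [dd, letter, MonoidAlgebra.coeff_add, MonoidAlgebra.coeff_single, Finsupp.add_apply,
    Finsupp.single_apply, eq_comm (b := t)]

/-- The density of the inserted letter with respect to a unit. -/
noncomputable def ddens (p : ℝ) (t : W) : ℝ :=
  if t = 1 ∨ t = FreeMonoid.of true then (1 - p)⁻¹ else 0

variable {p : ℝ}

theorem isProb_s0 (h0 : 0 < p) (h1 : p < 1) : IsProb (s0 p) :=
  (isProb_letter h0.le h1.le false).mul (isProb_letter h0.le h1.le true)

theorem isProb_dd (h0 : 0 < p) (h1 : p < 1) : IsProb (dd p) := isProb_letter h0.le h1.le true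

theorem dens_ddens (h1 : p < 1) : dens (s0 p) (ddens p) = dd p := by
  classical
  ext t
  have hq : 1 - p ≠ 0 := by linarith
  have e1 : (1 : W) ≠ FreeMonoid.of true := by
    intro h; simpa using congrArg FreeMonoid.length h
  have e2 : (1 : W) ≠ FreeMonoid.of false := by
    intro h; simpa using congrArg FreeMonoid.length h
  have e3 : (1 : W) ≠ FreeMonoid.of false * FreeMonoid.of true := by
    intro h; simpa using congrArg FreeMonoid.length h
  have e4 : FreeMonoid.of true ≠ FreeMonoid.of false := by simp [FreeMonoid.of_injective.eq_iff]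
  have e5 : FreeMonoid.of true ≠ FreeMonoid.of false * FreeMonoid.of true := by
    intro h; simpa using congrArg FreeMonoid.length h
  rw [coeff_dens, coeff_s0, coeff_dd, ddens]
  by_cases ha : t = 1
  · subst ha
    simp [e1, e2, e3]
  · by_cases hb : t = FreeMonoid.of true
    · subst hb
      simp [e1.symm, e4, e5]
      field_simp
    · simp [ha, hb]

theorem ip_ddens_one (h0 : 0 < p) (h1 : p < 1) :
    ip (s0 p) (ddens p) (fun _ => 1) = 1 := by
  rw [← mass_dens, dens_ddens h1, (isProb_dd h0 h1).mass_one]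

theorem ip_ddens (h0 : 0 < p) (h1 : p < 1) : ip (s0 p) (ddens p) (ddens p) = (1 - p)⁻¹ := by
  classical
  have e : ddens p * ddens p = (1 - p)⁻¹ • ddens p := funext fun t => by
    simp only [Pi.mul_apply, Pi.smul_apply, smul_eq_mul, ddens]
    split_ifs <;> ring
  calc ip (s0 p) (ddens p) (ddens p) = ip (s0 p) ((1 - p)⁻¹ • ddens p) (fun _ => 1) := by
        rw [← e]; simp [ip]
    _ = _ := by rw [ip_smul_left, ip_ddens_one h0 h1, mul_one]

/-- The density of a centred defect. -/
noncomputable def phi (p : ℝ) : W → ℝ := ddens p + (-1 : ℝ) • fun _ => 1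

theorem dens_phi (h1 : p < 1) : dens (s0 p) (phi p) = dd p - s0 p := by
  rw [phi, dens_add, dens_smul, dens_one, dens_ddens h1, neg_one_smul, sub_eq_add_neg]

theorem ip_phi_one (h0 : 0 < p) (h1 : p < 1) : ip (s0 p) (phi p) (fun _ => 1) = 0 := by
  rw [phi, ip_add_left, ip_smul_left, ip_ddens_one h0 h1, ip_one (isProb_s0 h0 h1)]
  ring

theorem ip_phi (h0 : 0 < p) (h1 : p < 1) : ip (s0 p) (phi p) (phi p) = p / (1 - p) := by
  have hq : 1 - p ≠ 0 := by linarith
  conv_lhs => arg 2; rw [phi]
  rw [ip_add_left, ip_smul_left, ip_comm _ (fun _ => 1), ip_phi_one h0 h1, ip_comm, phi,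
    ip_add_left, ip_smul_left, ip_ddens h0 h1, ip_comm _ (fun _ => 1), ip_ddens_one h0 h1]
  field_simp
  ring

/-- The probability that some letter of a unit survives. -/
def live (p : ℝ) : ℝ := 1 - (1 - p) * (1 - p)

theorem live_pos (h0 : 0 < p) (h1 : p < 1) : 0 < live p := by unfold live; nlinarith

theorem live_lt_one (h1 : p < 1) : live p < 1 := by unfold live; nlinarith

/-- The law of a unit that is not wholly deleted. -/
noncomputable def rest (p : ℝ) : Msr :=
  (live p)⁻¹ • (s0 p - single 1 ((1 - p) * (1 - p)))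

theorem s0_eq (h0 : 0 < p) (h1 : p < 1) :
    s0 p = (1 - live p) • (1 : Msr) + live p • rest p := by
  rw [rest, smul_smul, mul_inv_cancel₀ (live_pos h0 h1).ne', one_smul, MonoidAlgebra.one_def,
    MonoidAlgebra.smul_single', mul_one, live, sub_sub_cancel, add_sub_cancel]

theorem isProb_rest (h0 : 0 < p) (h1 : p < 1) : IsProb (rest p) := by
  classical
  have hs := isProb_s0 h0 h1
  refine ⟨fun t => ?_, ?_⟩
  · have hinv : 0 ≤ (live p)⁻¹ := inv_nonneg.2 (live_pos h0 h1).le
    have hp : 0 ≤ (1 - p) * p := mul_nonneg (by linarith) h0.le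
    have hp2 : 0 ≤ p * (1 - p) := mul_nonneg h0.le (by linarith)
    have hp3 : 0 ≤ p * p := mul_nonneg h0.le h0.le
    simp only [rest, MonoidAlgebra.coeff_smul, MonoidAlgebra.coeff_sub, Finsupp.smul_apply,
      Finsupp.sub_apply, smul_eq_mul, coeff_s0, MonoidAlgebra.coeff_single, Finsupp.single_apply,
      eq_comm (a := (1 : W))]
    refine mul_nonneg hinv ?_
    split_ifs <;> linarith
  · rw [rest, map_smul, map_sub, hs.mass_one, mass_single, smul_eq_mul, live,
      inv_mul_cancel₀ (by nlinarith [live_pos h0 h1])]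

theorem s0_pow_eq (h0 : 0 < p) (h1 : p < 1) (n : ℕ) :
    s0 p ^ n = ∑ k ∈ range (n + 1), binW (live p) n k • rest p ^ k := by
  conv_lhs => rw [s0_eq h0 h1, add_comm]
  rw [(((Commute.one_right (rest p)).smul_left (live p)).smul_right (1 - live p)).add_pow]
  refine Finset.sum_congr rfl fun k _ => ?_
  rw [smul_pow, smul_pow, one_pow, smul_mul_assoc, mul_smul_comm, mul_one, ← nsmul_eq_mul',
    ← Nat.cast_smul_eq_nsmul ℝ, smul_smul, smul_smul, binW]

/-- A pure run against the run shorter by one unit. -/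
theorem ap_pow_succ (h0 : 0 < p) (h1 : p < 1) (n : ℕ) :
    Ap (s0 p ^ n) (s0 p ^ (n + 1)) (Real.sqrt 2) (live p ^ (n + 1)) := by
  set w := live p with hw
  have hw0 : 0 < w := live_pos h0 h1
  have hw1 : w < 1 := live_lt_one h1
  have hYp : ∀ k, IsProb (rest p ^ k) := (isProb_rest h0 h1).pow
  have hfac : ∀ k ∈ range (n + 1),
      binW w n k * ((1 - w) * (n + 1) / ((n : ℝ) + 1 - k)) = binW w (n + 1) k := by
    intro k hk
    have hkn : k ≤ n := Nat.lt_succ_iff.1 (mem_range.1 hk)
    have hd : (n : ℝ) + 1 - k ≠ 0 := by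
      have : (k : ℝ) ≤ n := by exact_mod_cast hkn
      linarith
    have h : ((n + 1).choose k : ℝ) * ((n : ℝ) + 1 - k) = ((n : ℝ) + 1) * n.choose k := by
      have h := (Nat.choose_mul_succ_eq n k).symm
      have h' : (((n + 1).choose k * (n + 1 - k) : ℕ) : ℝ) = ((n.choose k * (n + 1) : ℕ) : ℝ) := by
        rw [h]
      push_cast [Nat.cast_sub (show k ≤ n + 1 by omega)] at h'
      linarith
    rw [binW, binW, show n + 1 - k = n - k + 1 by omega, mul_div_assoc']
    rw [div_eq_iff hd]
    linear_combination -(w ^ k * (1 - w) ^ (n - k + 1)) * h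
  obtain ⟨h, e, hh⟩ := exists_dens_mix (range (n + 1)) (fun k => binW w n k)
    (fun k => (1 - w) * (n + 1) / ((n : ℝ) + 1 - k)) (binW_nonneg hw0.le hw1.le n)
    (fun k => rest p ^ k) hYp
  rw [← s0_pow_eq h0 h1] at e hh
  rw [Finset.sum_congr rfl fun k hk => by rw [hfac k hk]] at e
  refine ⟨h, Real.sqrt_le_sqrt (hh.trans ?_), ?_⟩
  · calc ∑ k ∈ range (n + 1), binW w n k *
          ((1 - w) * (n + 1) / ((n : ℝ) + 1 - k) * ((1 - w) * (n + 1) / ((n : ℝ) + 1 - k)))
        = ∑ k ∈ range (n + 1), binW (1 - w) (n + 1) (n + 1 - k) *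
            ((1 - w) * (n + 1) / ((n : ℝ) + 1 - k)) := by
          refine Finset.sum_congr rfl fun k hk => ?_
          rw [← mul_assoc, hfac k hk, binW_symm w (by simp only [mem_range] at hk; omega)]
      _ ≤ ∑ k ∈ range (n + 1), (1 - w) * (n + 1) * 2 *
            (binW (1 - w) (n + 1) (n + 1 - k) * (1 / (((n + 1 - k : ℕ) : ℝ) + 1))) := by
          refine Finset.sum_le_sum fun k hk => ?_
          have hkn : k ≤ n := Nat.lt_succ_iff.1 (mem_range.1 hk)
          have hk' : (k : ℝ) ≤ n := by exact_mod_cast hkn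
          push_cast [Nat.cast_sub (show k ≤ n + 1 by omega)]
          have hb := binW_nonneg (show (0:ℝ) ≤ 1 - w by linarith) (by linarith) (n + 1) (n + 1 - k)
          have key : (1 - w) * (n + 1) / ((n : ℝ) + 1 - k) ≤
              (1 - w) * (n + 1) * 2 * (1 / ((n : ℝ) + 1 - k + 1)) := by
            rw [mul_one_div, div_le_div_iff₀ (by linarith) (by linarith)]
            have : 0 ≤ (1 - w) * ((n : ℝ) + 1) := by
              have : 0 ≤ 1 - w := by linarith
              positivity
            nlinarith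
          calc _ ≤ binW (1 - w) (n + 1) (n + 1 - k) *
                ((1 - w) * (n + 1) * 2 * (1 / ((n : ℝ) + 1 - k + 1))) :=
                mul_le_mul_of_nonneg_left key hb
            _ = _ := by ring
      _ ≤ (1 - w) * (n + 1) * 2 *
            ∑ j ∈ range (n + 2), binW (1 - w) (n + 1) j * (1 / ((j : ℝ) + 1)) := by
          rw [← mul_sum]
          refine mul_le_mul_of_nonneg_left ?_ (by
            have : 0 ≤ 1 - w := by linarith
            positivity)
          rw [← Finset.sum_range_reflect (fun j => binW (1 - w) (n + 1) j * (1 / ((j : ℝ) + 1)))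
            (n + 2), Finset.sum_range_succ _ (n + 1)]
          simp only [show n + 2 - 1 = n + 1 from rfl, Nat.sub_self]
          exact le_add_of_nonneg_right (mul_nonneg (binW_nonneg (by linarith) (by linarith) _ _)
            (by positivity))
      _ ≤ (1 - w) * (n + 1) * 2 * (1 / ((1 - w) * ((n + 1 : ℕ) + 1))) := by
          refine mul_le_mul_of_nonneg_left (sum_binW_inv_le (by linarith) (by linarith) (n + 1)) ?_
          have : 0 ≤ 1 - w := by linarith
          positivity
      _ ≤ 2 := by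
          have : (0:ℝ) < 1 - w := by linarith
          push_cast
          rw [mul_one_div, div_le_iff₀ (by positivity)]
          nlinarith
  · rw [← e, s0_pow_eq h0 h1 (n + 1), Finset.sum_range_succ _ (n + 1), add_sub_cancel_left, l1_smul,
      (hYp _).l1_eq, mul_one, abs_of_nonneg (binW_nonneg hw0.le hw1.le _ _), binW, Nat.choose_self,
      Nat.sub_self]
    simp

theorem l1_sq_sub (h0 : 0 < p) (h1 : p < 1) :
    l1 (s0 p ^ (1 + 1) - s0 p ^ 1) ≤ 2 * live p := by
  have hs := isProb_s0 h0 h1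
  have e : s0 p ^ (1 + 1) - s0 p ^ 1 = live p • (rest p * s0 p - s0 p) := by
    rw [pow_succ, pow_one]
    conv_lhs => arg 1; arg 1; rw [s0_eq h0 h1]
    rw [add_mul, smul_mul_assoc, smul_mul_assoc, one_mul, smul_sub, sub_smul, one_smul]
    abel
  rw [e, l1_smul, abs_of_pos (live_pos h0 h1), mul_comm 2]
  exact mul_le_mul_of_nonneg_left (l1_sub_prob_le ((isProb_rest h0 h1).mul hs) hs)
    (live_pos h0 h1).le

theorem exists_pure_step (h0 : 0 < p) (h1 : p < 1) :
    ∃ C : ℝ, 0 ≤ C ∧ ∀ N d : ℕ, 1 ≤ N →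
      l1 (s0 p ^ (N + d) - s0 p ^ N) ≤ C * d * Real.sqrt (1 / N) := by
  obtain ⟨C, hC, h⟩ := pow_step (live_lt_one h1)
  exact ⟨C, hC, fun N d hN => by
    simpa using h (s0 p) (isProb_s0 h0 h1) 1 le_rfl (l1_sq_sub h0 h1) N d hN⟩

/-! ### Positions in a run -/

/-- A run of `N` units, unit number `x` replaced by the inserted letter. -/
noncomputable def pos (p : ℝ) (N x : ℕ) : Msr := s0 p ^ x * dd p * s0 p ^ (N - 1 - x)

theorem isProb_pos (h0 : 0 < p) (h1 : p < 1) (N x : ℕ) : IsProb (pos p N x) :=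
  (((isProb_s0 h0 h1).pow _).mul (isProb_dd h0 h1)).mul ((isProb_s0 h0 h1).pow _)

theorem pos_shift (p : ℝ) {N x a : ℕ} (h : x + a < N) :
    s0 p ^ a * pos p N x = pos p N (x + a) * s0 p ^ a := by
  simp only [pos, mul_assoc, ← pow_add]
  rw [← mul_assoc (s0 p ^ a), ← pow_add, add_comm a x, show N - 1 - (x + a) + a = N - 1 - x by omega]

theorem pos_pad (p : ℝ) {N x a b : ℕ} (h : x < N) :
    s0 p ^ a * pos p N x * s0 p ^ b = pos p (a + N + b) (a + x) := by
  rw [pos, pos, ← mul_assoc, ← mul_assoc, ← pow_add, mul_assoc _ (s0 p ^ (N - 1 - x)), ← pow_add,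
    show a + N + b - 1 - (a + x) = N - 1 - x + b by omega]

theorem pos_sub_pure (p : ℝ) {N i : ℕ} (h : i < N) :
    pos p N i - s0 p ^ N = s0 p ^ i * (dd p - s0 p) * s0 p ^ (N - 1 - i) := by
  rw [pos, mul_sub, sub_mul, ← pow_succ, ← pow_add, show i + 1 + (N - 1 - i) = N by omega]

theorem pos_split (p : ℝ) {N y m : ℕ} (h : y + m < N) :
    pos p N y = s0 p ^ y * (dd p * s0 p ^ m) * s0 p ^ (N - (y + m + 1)) := by
  rw [pos, mul_assoc, mul_assoc, mul_assoc, ← pow_add,
    show m + (N - (y + m + 1)) = N - 1 - y by omega]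

theorem pos_defect_split (p : ℝ) {N i b : ℕ} (hb : b ≤ i) (hi : i < N) :
    pos p N i - s0 p ^ N = s0 p ^ b * (pos p (N - b) (i - b) - s0 p ^ (N - b)) := by
  rw [mul_sub, ← pow_add, show b + (N - b) = N by omega, pos, pos, ← mul_assoc, ← mul_assoc,
    ← pow_add, show b + (i - b) = i by omega, show N - b - 1 - (i - b) = N - 1 - i by omega]

theorem prod_range_special {M : Type*} [Monoid M] (a b : M) (i : ℕ) : ∀ n : ℕ,
    ((List.range n).map fun j => if i = j then a else b).prod =
      if i < n then b ^ i * a * b ^ (n - 1 - i) else b ^ n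
  | 0 => by simp
  | n + 1 => by
    rw [List.range_succ, List.map_append, List.prod_append, List.map_singleton,
      List.prod_singleton, prod_range_special a b i n]
    rcases lt_trichotomy i n with h | rfl | h
    · rw [if_pos h, if_neg h.ne, if_pos (by omega), mul_assoc, ← pow_succ,
        show n - 1 - i + 1 = n + 1 - 1 - i by omega]
    · simp
    · rw [if_neg (by omega), if_neg h.ne', if_neg (by omega), pow_succ]

/-- The slots of a run of units, with a centred defect at unit `i k`. -/
noncomputable def units {ι : Type*} (p : ℝ) (n : ℕ) (i : ι → ℕ) : List (Msr × (ι → W → ℝ)) :=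
  (List.range n).map fun j => (s0 p, fun k => if i k = j then phi p else fun _ => 1)

theorem refProd_units {ι : Type*} (p : ℝ) (n : ℕ) (i : ι → ℕ) :
    refProd (units p n i) = s0 p ^ n := by
  simp [refProd, units, Function.comp_def]

theorem famProd_units {ι : Type*} (h1 : p < 1) {n : ℕ} {i : ι → ℕ} {k : ι} (hk : i k < n) :
    famProd (units p n i) k = pos p n (i k) - s0 p ^ n := by
  rw [pos_sub_pure p hk]
  have e := prod_range_special (dd p - s0 p) (s0 p) (i k) n
  rw [if_pos hk] at e
  rw [← e, famProd, units, List.map_map]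
  refine congrArg List.prod (List.map_congr_left fun j _ => ?_)
  simp only [Function.comp_def]
  split_ifs
  · exact dens_phi h1
  · exact dens_one _

theorem ipProd_units {ι : Type*} (h0 : 0 < p) (h1 : p < 1) {n : ℕ} {i : ι → ℕ} {k k' : ι}
    (hk : i k < n) :
    ipProd (units p n i) k k' = if i k = i k' then p / (1 - p) else 0 := by
  have hs := isProb_s0 h0 h1
  rw [ipProd, units, List.map_map]
  split_ifs with h
  · have e := prod_range_special (p / (1 - p)) (1 : ℝ) (i k) n
    rw [if_pos hk, one_pow, one_pow, one_mul, mul_one] at e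
    refine Eq.trans ?_ e
    refine congrArg List.prod (List.map_congr_left fun j _ => ?_)
    simp only [Function.comp_def, ← h]
    split_ifs
    · exact ip_phi h0 h1
    · exact ip_one hs
  · refine List.prod_eq_zero (List.mem_map.2 ⟨i k, List.mem_range.2 hk, ?_⟩)
    simp only [Function.comp_def, if_true, if_neg (Ne.symm h)]
    exact ip_phi_one h0 h1

/-- **Orthogonality of defects at different units**, with factors on both sides. -/
theorem ap_tri {ι : Type*} (h0 : 0 < p) (h1 : p < 1) {R₁ R₃ : Msr} (hR₁ : IsProb R₁)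
    (hR₃ : IsProb R₃) (n : ℕ) (K : Finset ι) (c : ι → ℝ) (i : ι → ℕ) (hi : ∀ k ∈ K, i k < n)
    (A C : ι → Msr) {a b ε ε' μ : ℝ} (ha : 0 ≤ a) (hε : 0 ≤ ε)
    (hA : ∀ k ∈ K, Ap R₁ (A k) a ε) (hC : ∀ k ∈ K, Ap R₃ (C k) b ε')
    (hμ : ∀ k ∈ K, ∑ k' ∈ K with i k = i k', |c k'| ≤ μ) :
    Ap (R₁ * s0 p ^ n * R₃) (∑ k ∈ K, c k • (A k * (pos p n (i k) - s0 p ^ n) * C k))
      (a * b * Real.sqrt (p / (1 - p) * μ * ∑ k ∈ K, |c k|))
      ((∑ k ∈ K, |c k|) * (2 * (ε * (b + ε') + a * ε'))) := by
  classical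
  rcases K.eq_empty_or_nonempty with rfl | ⟨k₀, hk₀⟩
  · exact Ap.mono (by simpa using Ap.zero _) (by simp) (by simp)
  have hb : 0 ≤ b := (hC k₀ hk₀).nonneg.1
  have hμ0 : 0 ≤ μ := (Finset.sum_nonneg fun k' _ => abs_nonneg _).trans (hμ k₀ hk₀)
  have hs := isProb_s0 h0 h1
  have hθ : 0 ≤ p / (1 - p) := div_nonneg h0.le (by linarith)
  choose! fA hfA using hA
  choose! fC hfC using hC
  set l : List (Msr × (ι → W → ℝ)) := (R₁, fA) :: (units p n i ++ [(R₃, fC)]) with hl
  have hlp : ∀ s ∈ l, IsProb s.1 := by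
    intro s hs'
    simp only [hl, units, List.mem_cons, List.mem_append, List.mem_map, List.not_mem_nil,
      or_false] at hs'
    rcases hs' with rfl | ⟨j, -, rfl⟩ | rfl
    exacts [hR₁, hs, hR₃]
  have href : refProd l = R₁ * s0 p ^ n * R₃ := by
    rw [← refProd_units p n i, mul_assoc]
    simp [hl, refProd]
  have hfam : ∀ k ∈ K, famProd l k =
      dens R₁ (fA k) * (pos p n (i k) - s0 p ^ n) * dens R₃ (fC k) := by
    intro k hk
    rw [← famProd_units h1 (hi k hk), mul_assoc]
    simp [hl, famProd]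
  have hip : ∀ k ∈ K, ∀ k', ipProd l k k' = ip R₁ (fA k) (fA k') *
      (if i k = i k' then p / (1 - p) else 0) * ip R₃ (fC k) (fC k') := by
    intro k hk k'
    rw [← ipProd_units h0 h1 (hi k hk), mul_assoc]
    simp [hl, ipProd]
  obtain ⟨h, e, hh⟩ := exists_dens_slots l hlp K c
  rw [href] at hh e
  refine ⟨h, ?_, ?_⟩
  · calc Real.sqrt (ip (R₁ * s0 p ^ n * R₃) h h)
        ≤ Real.sqrt ((a * b) ^ 2 * (p / (1 - p) * μ * ∑ k ∈ K, |c k|)) := by
          refine Real.sqrt_le_sqrt (hh.trans ?_)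
          rw [mul_sum, mul_sum]
          refine Finset.sum_le_sum fun k hk => ?_
          calc ∑ k' ∈ K, c k * c k' * ipProd l k k'
              ≤ ∑ k' ∈ K, if i k = i k' then |c k| * |c k'| * ((a * a) * (p / (1 - p)) * (b * b))
                  else 0 := by
                refine Finset.sum_le_sum fun k' hk' => ?_
                rw [hip k hk k']
                split_ifs with he
                · refine (le_abs_self _).trans ?_
                  rw [abs_mul, abs_mul, abs_mul, abs_mul, abs_of_nonneg hθ]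
                  gcongr
                  · exact (abs_ip_le hR₁ _ _).trans (mul_le_mul (hfA k hk).1 (hfA k' hk').1
                      (Real.sqrt_nonneg _) ha)
                  · exact (abs_ip_le hR₃ _ _).trans (mul_le_mul (hfC k hk).1 (hfC k' hk').1
                      (Real.sqrt_nonneg _) hb)
                · simp
            _ = |c k| * ((a * a) * (p / (1 - p)) * (b * b)) *
                  ∑ k' ∈ K with i k = i k', |c k'| := by
                rw [← Finset.sum_filter, mul_sum]
                exact Finset.sum_congr rfl fun k' _ => by ring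
            _ ≤ |c k| * ((a * a) * (p / (1 - p)) * (b * b)) * μ :=
                mul_le_mul_of_nonneg_left (hμ k hk) (by positivity)
            _ = _ := by ring
      _ = _ := by rw [Real.sqrt_mul (sq_nonneg _), Real.sqrt_sq (mul_nonneg ha hb)]
  · rw [← e, ← Finset.sum_sub_distrib]
    refine (l1_sum_le _ _).trans ?_
    rw [Finset.sum_mul]
    refine Finset.sum_le_sum fun k hk => ?_
    rw [hfam k hk, ← smul_sub, l1_smul]
    refine mul_le_mul_of_nonneg_left ?_ (abs_nonneg _)
    have e2 : A k * (pos p n (i k) - s0 p ^ n) * C k -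
        dens R₁ (fA k) * (pos p n (i k) - s0 p ^ n) * dens R₃ (fC k) =
        (A k - dens R₁ (fA k)) * (pos p n (i k) - s0 p ^ n) * C k +
          dens R₁ (fA k) * (pos p n (i k) - s0 p ^ n) * (C k - dens R₃ (fC k)) := by noncomm_ring
    rw [e2, mul_add 2]
    have hM : l1 (pos p n (i k) - s0 p ^ n) ≤ 2 :=
      l1_sub_prob_le (isProb_pos h0 h1 _ _) (hs.pow n)
    have hCl : l1 (C k) ≤ b + ε' := Ap.l1_le hR₃ ⟨fC k, hfC k hk⟩
    refine (l1_add_le _ _).trans (add_le_add ?_ ?_) <;>
      refine (l1_mul_le _ _).trans ?_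
    · calc _ ≤ ε * 2 * (b + ε') := by
            refine mul_le_mul ((l1_mul_le _ _).trans (mul_le_mul (hfA k hk).2 hM (l1_nonneg _) hε))
              hCl (l1_nonneg _) (by positivity)
        _ = _ := by ring
    · calc _ ≤ a * 2 * ε' := by
            refine mul_le_mul ((l1_mul_le _ _).trans (mul_le_mul
              ((l1_dens_le hR₁ _).trans (hfA k hk).1) hM (l1_nonneg _) ha))
              (hfC k hk).2 (l1_nonneg _) (by positivity)
        _ = _ := by ring

/-- The run starting with a defect, against a pure run. -/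
theorem ap_dd_pow (h0 : 0 < p) (h1 : p < 1) (m : ℕ) :
    Ap (dd p * s0 p ^ m) (s0 p ^ (m + 1)) (Real.sqrt (2 / (1 - p))) (live p ^ (m + 1)) := by
  have h := Ap.mono_ref ((isProb_s0 h0 h1).pow m) (sub_pos.2 h1) (R' := dd p * s0 p ^ m)
    (fun t => ?_) (ap_pow_succ h0 h1 m)
  · rwa [← Real.sqrt_mul (inv_nonneg.2 (by linarith)), inv_mul_eq_div] at h
  · classical
    have e : dd p * s0 p ^ m = (1 - p) • s0 p ^ m +
        single (FreeMonoid.of true) p * s0 p ^ m := by
      rw [dd, letter, add_mul]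
      congr 1
      rw [← smul_one_mul (1 - p) (s0 p ^ m), MonoidAlgebra.one_def, MonoidAlgebra.smul_single',
        mul_one]
    rw [e, MonoidAlgebra.coeff_add, Finsupp.add_apply, MonoidAlgebra.coeff_smul, Finsupp.smul_apply,
      smul_eq_mul]
    refine le_add_of_nonneg_right (coeff_mul_nonneg (fun u => ?_)
      ((isProb_s0 h0 h1).pow m).nonneg t)
    rw [MonoidAlgebra.coeff_single, Finsupp.single_apply]
    split_ifs
    exacts [h0.le, le_rfl]

/-- Defects to the right of the defect of the reference. -/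
theorem ap_tri_pos {ι : Type*} (h0 : 0 < p) (h1 : p < 1) {R₁ R₃ : Msr} (hR₁ : IsProb R₁)
    (hR₃ : IsProb R₃) (N y m : ℕ) (K : Finset ι) (c : ι → ℝ) (i : ι → ℕ)
    (hy : y + m < N) (hi : ∀ k ∈ K, y + m + 1 ≤ i k ∧ i k < N) (A C : ι → Msr)
    {a b ε ε' μ : ℝ} (ha : 0 ≤ a) (hε : 0 ≤ ε)
    (hA : ∀ k ∈ K, Ap R₁ (A k) a ε) (hC : ∀ k ∈ K, Ap R₃ (C k) b ε')
    (hμ : ∀ k ∈ K, ∑ k' ∈ K with i k = i k', |c k'| ≤ μ) :
    Ap (R₁ * pos p N y * R₃) (∑ k ∈ K, c k • (A k * (pos p N (i k) - s0 p ^ N) * C k))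
      (Real.sqrt (2 / (1 - p)) * a * b * Real.sqrt (p / (1 - p) * μ * ∑ k ∈ K, |c k|))
      ((∑ k ∈ K, |c k|) * (2 * ((a * live p ^ (m + 1) + ε * Real.sqrt (2 / (1 - p)) +
        ε * live p ^ (m + 1)) * (b + ε') + Real.sqrt (2 / (1 - p)) * a * ε'))) := by
  have hs := isProb_s0 h0 h1
  have hq : 0 ≤ Real.sqrt (2 / (1 - p)) := Real.sqrt_nonneg _
  have hl : 0 ≤ live p ^ (m + 1) := pow_nonneg (live_pos h0 h1).le _
  have hA' : ∀ k ∈ K, Ap (R₁ * (s0 p ^ y * (dd p * s0 p ^ m)))
      (A k * (s0 p ^ y * s0 p ^ (m + 1))) (Real.sqrt (2 / (1 - p)) * a)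
      (a * live p ^ (m + 1) + ε * Real.sqrt (2 / (1 - p)) + ε * live p ^ (m + 1)) := by
    intro k hk
    have h := (Ap.self (hs.pow y)).mul (hs.pow y) ((isProb_dd h0 h1).mul (hs.pow m))
      (ap_dd_pow h0 h1 m)
    have h2 := (hA k hk).mul hR₁ ((hs.pow y).mul ((isProb_dd h0 h1).mul (hs.pow m))) h
    simp only [one_mul, zero_mul, add_zero] at h2
    exact h2.mono (le_of_eq (mul_comm _ _)) le_rfl
  have h := ap_tri h0 h1 (hR₁.mul ((hs.pow y).mul ((isProb_dd h0 h1).mul (hs.pow m)))) hR₃
    (N - (y + m + 1)) K c (fun k => i k - (y + m + 1)) (fun k hk => by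
      have := hi k hk; omega)
    (fun k => A k * (s0 p ^ y * s0 p ^ (m + 1))) C (mul_nonneg hq ha) (by positivity) hA' hC
    (fun k hk => le_trans (le_of_eq (Finset.sum_congr (Finset.filter_congr fun k' hk' => by
      have := hi k hk; have := hi k' hk'; omega) fun _ _ => rfl)) (hμ k hk))
  rw [pos_split p hy]
  simp only [mul_assoc] at h ⊢
  refine (congrArg₂ (fun R μ => Ap R μ _ _) rfl (Finset.sum_congr rfl fun k hk => ?_)).mp h
  rw [pos_defect_split p (hi k hk).1 (hi k hk).2]
  simp only [mul_assoc]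
  rw [← mul_assoc (s0 p ^ y), ← pow_add, add_assoc]

/-! ### Averaged differences -/

/-- The average of a family over the shifts `I + u + v`, `u, v < I`. -/
noncomputable def smear (I : ℕ) (F : ℕ → Msr) (x : ℕ) : Msr :=
  ((I : ℝ) ^ 2)⁻¹ • ∑ u ∈ range I, ∑ v ∈ range I, F (x + I + u + v)

/-- Iterated averaged differences. -/
noncomputable def dif (I : ℕ) : ℕ → (ℕ → Msr) → ℕ → Msr
  | 0, F, x => F x
  | j + 1, F, x => dif I j F x - smear I (dif I j F) x

theorem smear_sum {ι : Type*} [Fintype ι] (I : ℕ) (w : ι → ℝ) (τ : ι → ℕ) (F : ℕ → Msr) (x : ℕ) :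
    smear I (fun y => ∑ j, w j • F (y + τ j)) x = ∑ j, w j • smear I F (x + τ j) := by
  simp only [smear, Finset.smul_sum, smul_smul]
  rw [Finset.sum_comm (s := univ)]
  refine Finset.sum_congr rfl fun u _ => ?_
  rw [Finset.sum_comm (s := univ)]
  refine Finset.sum_congr rfl fun v _ => Finset.sum_congr rfl fun j _ => ?_
  rw [mul_comm, show x + τ j + I + u + v = x + I + u + v + τ j by ring]

theorem exists_dif_rep {I : ℕ} (hI : 1 ≤ I) : ∀ r : ℕ, ∃ (ι : Type) (_ : Fintype ι) (w : ι → ℝ)
    (τ : ι → ℕ), (∀ j, τ j ≤ 3 * I * r) ∧ ∑ j, |w j| ≤ 2 ^ r ∧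
      ∀ F x, dif I r F x = ∑ j, w j • F (x + τ j)
  | 0 => ⟨Unit, inferInstance, fun _ => 1, fun _ => 0, by simp, by simp, by simp [dif]⟩
  | r + 1 => by
    obtain ⟨ι, _, w, τ, hτ, hw, h⟩ := exists_dif_rep hI r
    have hI0 : (0 : ℝ) < I := by exact_mod_cast hI
    refine ⟨ι ⊕ (Fin I × Fin I × ι), inferInstance,
      Sum.elim w (fun z => -(((I : ℝ) ^ 2)⁻¹ * w z.2.2)),
      Sum.elim τ (fun z => I + z.1 + z.2.1 + τ z.2.2), ?_, ?_, fun F x => ?_⟩
    · rintro (j | ⟨u, v, j⟩)
      · have := hτ j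
        simp only [Sum.elim_inl]
        nlinarith
      · have := hτ j
        have := u.isLt
        have := v.isLt
        simp only [Sum.elim_inr]
        rw [mul_add, mul_one]
        omega
    · rw [Fintype.sum_sum_type]
      simp only [Sum.elim_inl, Sum.elim_inr, Fintype.sum_prod_type, abs_neg, abs_mul, ← mul_sum,
        abs_of_nonneg (show (0 : ℝ) ≤ ((I : ℝ) ^ 2)⁻¹ by positivity), sum_const, card_univ,
        Fintype.card_fin, nsmul_eq_mul]
      field_simp
      rw [pow_succ]
      linarith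
    · have e : dif I r F = fun y => ∑ j, w j • F (y + τ j) := funext fun y => h F y
      rw [dif, e, smear_sum]
      simp only [Fintype.sum_sum_type, Sum.elim_inl, Sum.elim_inr, Fintype.sum_prod_type, neg_smul,
        sum_neg_distrib, sub_eq_add_neg]
      congr 2
      simp only [smear, Finset.smul_sum, smul_smul]
      rw [Finset.sum_comm, ← Fin.sum_univ_eq_sum_range]
      refine Finset.sum_congr rfl fun u _ => ?_
      rw [Finset.sum_comm, ← Fin.sum_univ_eq_sum_range]
      refine Finset.sum_congr rfl fun v _ => Finset.sum_congr rfl fun j _ => ?_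
      rw [mul_comm, show x + τ j + I + (u : ℕ) + v = x + (I + u + v + τ j) by ring]

/-- A family is its iterated difference plus a short combination of its averages. -/
theorem exists_main {I : ℕ} (hI : 1 ≤ I) : ∀ r : ℕ, ∃ (ι : Type) (_ : Fintype ι) (w : ι → ℝ)
    (τ : ι → ℕ), (∀ j, τ j ≤ 3 * I * r) ∧ ∑ j, |w j| ≤ 2 ^ r ∧
      ∀ F x, F x = dif I r F x + ∑ j, w j • smear I F (x + τ j)
  | 0 => ⟨Empty, inferInstance, fun _ => 0, fun _ => 0, by simp, by simp, by simp [dif]⟩
  | r + 1 => by
    obtain ⟨ι, _, w, τ, hτ, hw, h⟩ := exists_main hI r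
    obtain ⟨κ, _, u, σ, hσ, hu, h'⟩ := exists_dif_rep hI r
    refine ⟨ι ⊕ κ, inferInstance, Sum.elim w u, Sum.elim τ σ, ?_, ?_, fun F x => ?_⟩
    · rintro (j | j)
      · exact (hτ j).trans (by gcongr; omega)
      · exact (hσ j).trans (by gcongr; omega)
    · simp only [Fintype.sum_sum_type, Sum.elim_inl, Sum.elim_inr, pow_succ]
      linarith
    · have e : smear I (dif I r F) x = ∑ j, u j • smear I F (x + σ j) := by
        rw [← smear_sum]
        exact congrArg (fun G => smear I G x) (funext fun y => h' F y)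
      simp only [Fintype.sum_sum_type, Sum.elim_inl, Sum.elim_inr, ← e, dif]
      conv_lhs => rw [h F x]
      abel

/-- Averaged differences inside pure margins are small. -/
theorem l1_dif_margins (hs : IsProb (s0 p)) {I : ℕ} (hI : 1 ≤ I) {a m : ℕ} (hm : 3 * I * a ≤ m)
    {δ : ℝ} (hδ0 : 0 ≤ δ) (hδ : ∀ N t, m ≤ N + t → t ≤ 3 * I * a →
      l1 (s0 p ^ (N + t) - s0 p ^ N) ≤ δ) (X : Msr) :
    ∀ r M M' x, r * m ≤ M → r * m + a * (x + 3 * I * r) ≤ M' →
      l1 (dif I r (fun y => s0 p ^ (M + a * y) * X * s0 p ^ (M' - a * y)) x) ≤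
        (2 * δ) ^ r * l1 X
  | 0, M, M', x, _, _ => by
    rw [dif, pow_zero, one_mul]
    exact (l1_mul_prob_right (hs.pow _) _).trans (l1_mul_prob_left (hs.pow _) _)
  | r + 1, M, M', x, hM, hM' => by
    obtain ⟨ι, _, w, τ, hτ, -, h⟩ := exists_dif_rep hI r
    set F : ℕ → Msr := fun y => s0 p ^ (M + a * y) * X * s0 p ^ (M' - a * y)
    set G := dif I r (fun y => s0 p ^ (M - m + a * y) * X * s0 p ^ (M' - m - a * y)) x
    rw [Nat.succ_mul] at hM
    rw [Nat.succ_mul, mul_add (3 * I), mul_one] at hM'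
    have ih : l1 G ≤ (2 * δ) ^ r * l1 X := l1_dif_margins hs hI hm hδ0 hδ X r (M - m) (M' - m) x
      (by omega) (by
        have : a * (x + 3 * I * r) ≤ a * (x + (3 * I * r + 3 * I)) := by gcongr; omega
        omega)
    have key : ∀ t, a * t ≤ 3 * I * a →
        dif I r F (x + t) = s0 p ^ (m + a * t) * G * s0 p ^ (m - a * t) := by
      intro t ht
      simp only [G, F, h, Finset.mul_sum, Finset.sum_mul]
      refine Finset.sum_congr rfl fun j _ => ?_
      have hj := hτ j
      have h1 : a * (x + τ j) ≤ a * (x + 3 * I * r) := by gcongr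
      have h2 : a * (x + 3 * I * r) + 3 * I * a = a * (x + (3 * I * r + 3 * I)) := by ring
      have h3 : a * (x + t + τ j) = a * (x + τ j) + a * t := by ring
      rw [mul_smul_comm, smul_mul_assoc, ← mul_assoc, ← mul_assoc, ← pow_add,
        mul_assoc _ (s0 p ^ (M' - m - a * (x + τ j))), ← pow_add]
      congr 4 <;> omega
    have k0 := key 0 (by simp)
    rw [add_zero, mul_zero, add_zero, Nat.sub_zero] at k0
    have hI0 : (0 : ℝ) < I := by exact_mod_cast hI
    have e : dif I (r + 1) F x = ((I : ℝ) ^ 2)⁻¹ • ∑ u ∈ range I, ∑ v ∈ range I,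
        (dif I r F x - dif I r F (x + I + u + v)) := by
      simp only [dif, smear, sum_sub_distrib, sum_const, card_range, smul_sub]
      congr 1
      rw [← Nat.cast_smul_eq_nsmul ℝ, ← Nat.cast_smul_eq_nsmul ℝ, smul_smul, smul_smul]
      field_simp
      simp
    rw [e, l1_smul, abs_of_nonneg (by positivity)]
    calc ((I : ℝ) ^ 2)⁻¹ * l1 (∑ u ∈ range I, ∑ v ∈ range I,
          (dif I r F x - dif I r F (x + I + u + v)))
        ≤ ((I : ℝ) ^ 2)⁻¹ * ∑ u ∈ range I, ∑ v ∈ range I, ((2 * δ) ^ (r + 1) * l1 X) := by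
          gcongr
          refine (l1_sum_le _ _).trans (Finset.sum_le_sum fun u hu => ?_)
          refine (l1_sum_le _ _).trans (Finset.sum_le_sum fun v hv => ?_)
          simp only [mem_range] at hu hv
          have ht : a * (I + u + v) ≤ 3 * I * a := by
            rw [mul_comm (3 * I) a]; gcongr; omega
          rw [k0, show x + I + u + v = x + (I + u + v) by omega, key _ ht]
          set t := a * (I + u + v)
          have d1 := hδ (m - t) t (by omega) ht
          rw [Nat.sub_add_cancel (by omega)] at d1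
          have d2 := hδ m t (by omega) ht
          rw [show s0 p ^ m * G * s0 p ^ m - s0 p ^ (m + t) * G * s0 p ^ (m - t) =
            s0 p ^ m * G * (s0 p ^ m - s0 p ^ (m - t)) -
              (s0 p ^ (m + t) - s0 p ^ m) * G * s0 p ^ (m - t) by noncomm_ring]
          refine (l1_sub_le _ _).trans ?_
          have b1 : l1 (s0 p ^ m * G * (s0 p ^ m - s0 p ^ (m - t))) ≤ l1 G * δ :=
            (l1_mul_le _ _).trans (mul_le_mul (l1_mul_prob_left (hs.pow _) _) d1 (l1_nonneg _)
              (l1_nonneg _))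
          have b2 : l1 ((s0 p ^ (m + t) - s0 p ^ m) * G * s0 p ^ (m - t)) ≤ δ * l1 G :=
            ((l1_mul_prob_right (hs.pow _) _).trans (l1_mul_le _ _)).trans
              (mul_le_mul_of_nonneg_right d2 (l1_nonneg _))
          rw [pow_succ']
          nlinarith
      _ = (2 * δ) ^ (r + 1) * l1 X := by
          simp only [sum_const, card_range, nsmul_eq_mul]
          field_simp

end Vale.Agent.P321.Super
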