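import Vale.Agent.P321.Super.Weighted

/-!
# P321: orthogonality over slots

A signed combination of products over slots is compared with the product of the reference laws by
lifting it to the product space of the slots.
-/

namespace Vale.Agent.P321.Super

open Finset
open MonoidAlgebra (single)

/-- The product of the reference laws of a list of slots. -/
noncomputable def refProd {κ : Type*} (l : List (Msr × (κ → W → ℝ))) : Msr :=
  (l.map fun s => s.1).prod

/-- The product, over a list of slots, of the measures with the `k`-th densities. -/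
noncomputable def famProd {κ : Type*} (l : List (Msr × (κ → W → ℝ))) (k : κ) : Msr :=
  (l.map fun s => dens s.1 (s.2 k)).prod

/-- The product, over a list of slots, of the inner products of two densities. -/
noncomputable def ipProd {κ : Type*} (l : List (Msr × (κ → W → ℝ))) (k k' : κ) : ℝ :=
  (l.map fun s => ip s.1 (s.2 k) (s.2 k')).prod

theorem exists_lift {κ : Type*} (l : List (Msr × (κ → W → ℝ))) (hl : ∀ s ∈ l, IsProb s.1) :
    ∃ (X : Finset (List W)) (ρ : List W → ℝ) (F : κ → List W → ℝ), (∀ x, 0 ≤ ρ x) ∧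
      refProd l = ∑ x ∈ X, single x.prod (ρ x) ∧
      (∀ k, famProd l k = ∑ x ∈ X, single x.prod (ρ x * F k x)) ∧
      ∀ k k', ∑ x ∈ X, ρ x * (F k x * F k' x) = ipProd l k k' := by
  classical
  induction l with
  | nil =>
    refine ⟨{[]}, fun _ => 1, fun _ _ => 1, fun _ => zero_le_one, ?_, fun k => ?_, fun k k' => ?_⟩ <;>
      simp [refProd, famProd, ipProd, MonoidAlgebra.one_def]
  | cons s l ih =>
    obtain ⟨X, ρ, F, hρ, hR, hF, hI⟩ := ih fun u hu => hl u (List.mem_cons_of_mem s hu)
    have hs := hl s (by simp)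
    obtain ⟨R, f⟩ := s
    let ρ' : List W → ℝ := fun x => R.coeff (x.headI) * ρ x.tail
    let F' : κ → List W → ℝ := fun k x => f k (x.headI) * F k x.tail
    have hinj : Set.InjOn (fun tx : W × List W => tx.1 :: tx.2) (R.coeff.support ×ˢ X : Finset _) :=
      fun a _ b _ h => by
        simp only [List.cons.injEq] at h
        exact Prod.ext h.1 h.2
    refine ⟨(R.coeff.support ×ˢ X).image fun tx => tx.1 :: tx.2, ρ', F',
      fun x => mul_nonneg (hs.nonneg _) (hρ _), ?_, fun k => ?_, fun k k' => ?_⟩
    · rw [Finset.sum_image hinj, refProd, List.map_cons, List.prod_cons, ← refProd, hR]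
      conv_lhs => rw [expand R]
      rw [Finset.sum_mul_sum, Finset.sum_product]
      simp [ρ']
    · rw [Finset.sum_image hinj, famProd, List.map_cons, List.prod_cons, ← famProd, hF, dens,
        Finset.sum_mul_sum, Finset.sum_product]
      refine Finset.sum_congr rfl fun t _ => Finset.sum_congr rfl fun x _ => ?_
      rw [MonoidAlgebra.single_mul_single]
      simp only [ρ', F', List.headI_cons, List.tail_cons, List.prod_cons]
      congr 1
      ring
    · rw [Finset.sum_image hinj, ipProd, List.map_cons, List.prod_cons, ← ipProd, ← hI, ip,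
        Finset.sum_mul_sum, Finset.sum_product]
      refine Finset.sum_congr rfl fun t _ => Finset.sum_congr rfl fun x _ => ?_
      simp [ρ', F']
      ring

/-- The orthogonality lemma. -/
theorem exists_dens_slots {κ : Type*} (l : List (Msr × (κ → W → ℝ))) (hl : ∀ s ∈ l, IsProb s.1)
    (K : Finset κ) (c : κ → ℝ) :
    ∃ h : W → ℝ, ∑ k ∈ K, c k • famProd l k = dens (refProd l) h ∧
      ip (refProd l) h h ≤ ∑ k ∈ K, ∑ k' ∈ K, c k * c k' * ipProd l k k' := by
  obtain ⟨X, ρ, F, hρ, hR, hF, hI⟩ := exists_lift l hl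
  obtain ⟨h, e, hh⟩ := exists_dens_push X List.prod ρ (fun x => ∑ k ∈ K, c k * F k x) hρ hR
  refine ⟨h, ?_, hh.trans_eq ?_⟩
  · rw [← e]
    simp only [hF, Finset.smul_sum]
    rw [Finset.sum_comm]
    refine Finset.sum_congr rfl fun x _ => ?_
    simp only [MonoidAlgebra.smul_single', Finset.mul_sum]
    refine (map_sum (MonoidAlgebra.singleAddHom x.prod) _ _).symm.trans ?_
    exact congrArg _ (Finset.sum_congr rfl fun k _ => by ring)
  · calc ∑ x ∈ X, ρ x * ((∑ k ∈ K, c k * F k x) * ∑ k ∈ K, c k * F k x)
        = ∑ x ∈ X, ∑ k ∈ K, ∑ k' ∈ K, c k * c k' * (ρ x * (F k x * F k' x)) := by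
          refine Finset.sum_congr rfl fun x _ => ?_
          rw [Finset.sum_mul_sum, mul_sum]
          refine Finset.sum_congr rfl fun k _ => ?_
          rw [mul_sum]
          exact Finset.sum_congr rfl fun k' _ => by ring
      _ = _ := by
          rw [Finset.sum_comm]
          refine Finset.sum_congr rfl fun k _ => ?_
          rw [Finset.sum_comm]
          exact Finset.sum_congr rfl fun k' _ => by rw [← hI, mul_sum]

/-- Pairwise orthogonal products add in squares. -/
theorem exists_dens_orth {κ : Type*} (l : List (Msr × (κ → W → ℝ))) (hl : ∀ s ∈ l, IsProb s.1)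
    (K : Finset κ) (c : κ → ℝ) (h0 : ∀ k ∈ K, ∀ k' ∈ K, k ≠ k' → ipProd l k k' = 0) :
    ∃ h : W → ℝ, ∑ k ∈ K, c k • famProd l k = dens (refProd l) h ∧
      ip (refProd l) h h ≤ ∑ k ∈ K, c k ^ 2 * ipProd l k k := by
  obtain ⟨h, e, hh⟩ := exists_dens_slots l hl K c
  refine ⟨h, e, hh.trans_eq (Finset.sum_congr rfl fun k hk => ?_)⟩
  rw [Finset.sum_eq_single k]
  · ring
  · intro k' hk' hne
    rw [h0 k hk k' hk' (Ne.symm hne), mul_zero]
  · exact fun h => absurd hk h

end Vale.Agent.P321.Super
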