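import Vale.Agent.P321.Super.Binom

/-!
# P321: thinning lists

`thin θ r F` is the mean of `F` at the sublist of `r` that keeps each entry with probability `θ`.
The `i`-th kept entry is rarely a marked one when the marks are far apart.
-/

namespace Vale.Agent.P321.Super

open Finset

variable {α M : Type*} [AddCommGroup M] [Module ℝ M] {θ : ℝ}

/-- The mean of `F` at the random sublist keeping each entry with probability `θ`. -/
def thin (θ : ℝ) : List α → (List α → M) → M
  | [], F => F []
  | t :: r, F => (1 - θ) • thin θ r F + θ • thin θ r fun τ => F (t :: τ)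

theorem thin_add (r : List α) (F G : List α → M) :
    thin θ r (fun τ => F τ + G τ) = thin θ r F + thin θ r G := by
  induction r generalizing F G with
  | nil => rfl
  | cons t r ih => simp only [thin, ih, smul_add]; abel

theorem thin_smul (r : List α) (c : ℝ) (F : List α → M) :
    thin θ r (fun τ => c • F τ) = c • thin θ r F := by
  induction r generalizing F with
  | nil => rfl
  | cons t r ih => simp only [thin, ih, smul_add, smul_comm c]

theorem thin_const (r : List α) (c : M) : thin θ r (fun _ => c) = c := by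
  induction r with
  | nil => rfl
  | cons t r ih => simp only [thin, ih]; rw [← add_smul, sub_add_cancel, one_smul]

theorem thin_sub (r : List α) (F G : List α → M) :
    thin θ r (fun τ => F τ - G τ) = thin θ r F - thin θ r G := by
  rw [eq_sub_iff_add_eq, ← thin_add]
  simp

theorem thin_sum {ι : Type*} (r : List α) (s : Finset ι) (F : ι → List α → M) :
    thin θ r (fun τ => ∑ i ∈ s, F i τ) = ∑ i ∈ s, thin θ r (F i) := by
  classical
  induction s using Finset.induction_on with
  | empty => simpa using thin_const (θ := θ) r (0 : M)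
  | insert a s ha ih => simp only [Finset.sum_insert ha, thin_add, ih]

theorem thin_swap {β : Type*} (r : List α) (r' : List β) (K : List α → List β → M) :
    thin θ r (fun τ => thin θ r' (K τ)) = thin θ r' (fun σ => thin θ r fun τ => K τ σ) := by
  induction r generalizing K with
  | nil => rfl
  | cons t r ih => simp only [thin, ih, thin_add, thin_smul]

theorem thin_congr {r : List α} {F G : List α → M}
    (h : ∀ τ : List α, τ.length ≤ r.length → F τ = G τ) : thin θ r F = thin θ r G := by
  induction r generalizing F G with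
  | nil => exact h [] le_rfl
  | cons t r ih =>
    simp only [thin]
    rw [ih fun τ hτ => h τ (by simp; omega), ih fun τ hτ => h (t :: τ) (by simp; omega)]

theorem thin_map {β : Type*} (r : List β) (f : β → α) (F : List α → M) :
    thin θ (r.map f) F = thin θ r fun τ => F (τ.map f) := by
  induction r generalizing F with
  | nil => rfl
  | cons t r ih => simp [thin, ih]

theorem thin_append (r r' : List α) (F : List α → M) :
    thin θ (r ++ r') F = thin θ r fun τ => thin θ r' fun σ => F (τ ++ σ) := by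
  induction r generalizing F with
  | nil => rfl
  | cons t r ih => simp [thin, ih]

theorem thin_reverse (r : List α) (F : List α → M) :
    thin θ r.reverse F = thin θ r fun τ => F τ.reverse := by
  induction r generalizing F with
  | nil => rfl
  | cons t r ih =>
    rw [List.reverse_cons, thin_append, ih]
    simp [thin, thin_add, thin_smul]

theorem thin_mono (h0 : 0 ≤ θ) (h1 : θ ≤ 1) (r : List α) {F G : List α → ℝ}
    (h : ∀ τ, F τ ≤ G τ) : thin θ r F ≤ thin θ r G := by
  induction r generalizing F G with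
  | nil => exact h []
  | cons t r ih =>
    exact add_le_add (mul_le_mul_of_nonneg_left (ih h) (by linarith))
      (mul_le_mul_of_nonneg_left (ih fun τ => h (t :: τ)) h0)

/-- `G` at the `i`-th entry and the entries after it, zero if there is none. -/
def nth : ℕ → (α → List α → ℝ) → List α → ℝ
  | _, _, [] => 0
  | 0, G, t :: τ => G t τ
  | i + 1, G, _ :: τ => nth i G τ

theorem nth_smul (i : ℕ) (c : ℝ) (G : α → List α → ℝ) (τ : List α) :
    nth i (fun t σ => c * G t σ) τ = c * nth i G τ := by
  induction τ generalizing i with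
  | nil => simp [nth]
  | cons t τ ih => cases i <;> simp [nth, ih]

theorem nth_mono (i : ℕ) {G H : α → List α → ℝ} (h : ∀ t σ, G t σ ≤ H t σ) (τ : List α) :
    nth i G τ ≤ nth i H τ := by
  induction τ generalizing i with
  | nil => simp [nth]
  | cons t τ ih => cases i <;> simp [nth, ih, h]

theorem thin_nth_comm {β : Type*} (r : List β) (i : ℕ) (K : List β → α → List α → ℝ)
    (τ : List α) :
    thin θ r (fun σ => nth i (K σ) τ) = nth i (fun t τ' => thin θ r fun σ => K σ t τ') τ := by
  induction τ generalizing i with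
  | nil => simpa [nth] using thin_const (θ := θ) r (0 : ℝ)
  | cons t τ ih => cases i <;> simp [nth, ih]

/-- Bound the `i`-th entry by a bound valid at every split of the list. -/
theorem thin_nth_le (h0 : 0 ≤ θ) (h1 : θ ≤ 1) (r : List α) (i : ℕ) {G : α → List α → ℝ}
    {H : α → ℝ} (h : ∀ t post, (t :: post) <:+ r → thin θ post (G t) ≤ H t) :
    thin θ r (nth i G) ≤ thin θ r (nth i fun t _ => H t) := by
  induction r generalizing i with
  | nil => simp [thin, nth]
  | cons t r ih =>
    have hr := fun j => ih j fun t' post hs => h t' post (hs.trans (List.suffix_cons t r))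
    have h' : 0 ≤ 1 - θ := by linarith
    cases i with
    | zero =>
      simp only [thin, nth, smul_eq_mul, thin_const]
      exact add_le_add (mul_le_mul_of_nonneg_left (hr 0) h')
        (mul_le_mul_of_nonneg_left (h t r List.suffix_rfl) h0)
    | succ i =>
      simp only [thin, nth, smul_eq_mul]
      exact add_le_add (mul_le_mul_of_nonneg_left (hr (i + 1)) h')
        (mul_le_mul_of_nonneg_left (hr i) h0)

/-- The chance that the `i`-th kept entry is marked. -/
noncomputable def hit (θ : ℝ) (d : α → ℝ) (r : List α) (i : ℕ) : ℝ :=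
  thin θ r (nth i fun t _ => d t)

/-- The mark at position `j`. -/
def markAt (d : α → ℝ) (r : List α) (j : ℕ) : ℝ := (r.map d).getD j 0

theorem binW_succ_zero (θ : ℝ) (j : ℕ) : binW θ (j + 1) 0 = (1 - θ) * binW θ j 0 := by
  simp [binW, pow_succ]
  ring

theorem binW_succ_succ (θ : ℝ) (j i : ℕ) :
    binW θ (j + 1) (i + 1) = θ * binW θ j i + (1 - θ) * binW θ j (i + 1) := by
  rcases lt_trichotomy j i with h | rfl | h
  · simp [binW_of_lt h, binW_of_lt (show j < i + 1 by omega),
      binW_of_lt (show j + 1 < i + 1 by omega)]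
  · simp [binW, pow_succ]
    ring
  · simp only [binW, Nat.succ_sub_succ_eq_sub, Nat.choose_succ_succ', Nat.cast_add,
      show j - i = j - (i + 1) + 1 by omega, pow_succ]
    ring

theorem hit_eq (d : α → ℝ) (r : List α) (i : ℕ) :
    hit θ d r i = ∑ j ∈ range r.length, θ * binW θ j i * markAt d r j := by
  induction r generalizing i with
  | nil => simp [hit, thin, nth]
  | cons t r ih =>
    have hs : ∀ j, markAt d (t :: r) (j + 1) = markAt d r j := fun j => by simp [markAt]
    rw [List.length_cons, Finset.sum_range_succ']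
    simp only [hs]
    cases i with
    | zero =>
      have e : hit θ d (t :: r) 0 = (1 - θ) * hit θ d r 0 + θ * d t := by
        simp [hit, thin, nth, thin_const]
      rw [e, ih, Finset.mul_sum]
      simp only [binW_succ_zero]
      congr 1
      · exact Finset.sum_congr rfl fun j _ => by ring
      · simp [markAt, binW]
    | succ i =>
      have e : hit θ d (t :: r) (i + 1) = (1 - θ) * hit θ d r (i + 1) + θ * hit θ d r i := rfl
      rw [e, ih, ih, Finset.mul_sum, Finset.mul_sum, ← Finset.sum_add_distrib]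
      simp only [binW_succ_succ, binW_of_lt (Nat.succ_pos i), mul_zero, zero_mul, add_zero]
      exact Finset.sum_congr rfl fun j _ => by ring

theorem nth_one_le (i : ℕ) (τ : List α) : nth i (fun _ _ => (1 : ℝ)) τ ≤ 1 := by
  induction τ generalizing i with
  | nil => simp [nth]
  | cons t τ ih => cases i <;> simp [nth, ih]

theorem sum_binW_col_le (h0 : 0 ≤ θ) (h1 : θ ≤ 1) (N i : ℕ) :
    ∑ j ∈ range N, θ * binW θ j i ≤ 1 := by
  have e := hit_eq (θ := θ) (fun _ : Unit => (1 : ℝ)) (List.replicate N ()) i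
  have hm : ∀ j ∈ range N, markAt (fun _ : Unit => (1 : ℝ)) (List.replicate N ()) j = 1 := by
    intro j hj
    simp [markAt, List.getD_eq_getElem?_getD, mem_range.1 hj]
  rw [List.length_replicate, Finset.sum_congr rfl fun j hj => by rw [hm j hj, mul_one]] at e
  rw [← e]
  exact (thin_mono h0 h1 _ fun τ => nth_one_le i τ).trans_eq (thin_const _ (1 : ℝ))

theorem binW_rec_succ (θ : ℝ) {j i : ℕ} (h : i ≤ j) :
    ((j : ℝ) + 1 - i) * binW θ (j + 1) i = (1 - θ) * ((j : ℝ) + 1) * binW θ j i := by
  have e : (j.choose i : ℝ) * ((j : ℝ) + 1) = (j + 1).choose i * ((j : ℝ) + 1 - i) := by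
    have := Nat.choose_mul_succ_eq j i
    rw [show ((j : ℝ) + 1 - i) = ((j + 1 - i : ℕ) : ℝ) by
      rw [Nat.cast_sub (by omega)]; simp]
    exact_mod_cast this
  rw [binW, binW, show j + 1 - i = j - i + 1 by omega, pow_succ]
  linear_combination -(θ ^ i * (1 - θ) ^ (j - i) * (1 - θ)) * e

/-- Binomial weights rise and then fall in the number of trials. -/
theorem binW_unimodal (h0 : 0 < θ) (h1 : θ ≤ 1) (i : ℕ) {a b : ℕ} (hab : a ≤ b) :
    (b ≤ ⌊(i : ℝ) / θ⌋₊ → binW θ a i ≤ binW θ b i) ∧
      (⌊(i : ℝ) / θ⌋₊ ≤ a → binW θ b i ≤ binW θ a i) := by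
  induction b, hab using Nat.le_induction with
  | base => simp
  | succ b hab ih =>
    refine ⟨fun hb => (ih.1 (by omega)).trans ?_, fun ha => le_trans ?_ (ih.2 ha)⟩
    · rcases lt_or_ge b i with hbi | hbi
      · rw [binW_of_lt hbi]
        exact binW_nonneg h0.le h1 _ _
      · have hb' : ((b + 1 : ℕ) : ℝ) ≤ i / θ := (Nat.le_floor_iff (by positivity)).1 hb
        rw [le_div_iff₀ h0] at hb'
        push_cast at hb'
        have hbi' : (i : ℝ) ≤ b := by exact_mod_cast hbi
        refine le_of_mul_le_mul_left ?_ (show (0 : ℝ) < b + 1 - i by linarith)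
        rw [binW_rec_succ θ hbi]
        refine mul_le_mul_of_nonneg_right ?_ (binW_nonneg h0.le h1 _ _)
        linarith
    · have hb' : (i : ℝ) / θ < b + 1 := by
        have h1 := Nat.lt_floor_add_one ((i : ℝ) / θ)
        have h2 : ((⌊(i : ℝ) / θ⌋₊ : ℕ) : ℝ) ≤ b := by exact_mod_cast ha.trans hab
        linarith
      have hbi : i ≤ b := by
        refine le_trans (Nat.le_floor ?_) (ha.trans hab)
        rw [le_div_iff₀ h0]
        nlinarith [Nat.cast_nonneg (α := ℝ) i]
      rw [div_lt_iff₀ h0] at hb'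
      have hbi' : (i : ℝ) ≤ b := by exact_mod_cast hbi
      refine le_of_mul_le_mul_left ?_ (show (0 : ℝ) < b + 1 - i by linarith)
      rw [binW_rec_succ θ hbi]
      refine mul_le_mul_of_nonneg_right ?_ (binW_nonneg h0.le h1 _ _)
      linarith

/-- Every element is at least `g - 1`, and two elements differ by at least `g`. -/
def Spaced (g : ℕ) (S : Finset ℕ) : Prop :=
  ∀ j ∈ S, g ≤ j + 1 ∧ ∀ j' ∈ S, j' < j → j' + g ≤ j

theorem card_mul_le {g : ℕ} {S : Finset ℕ} (h : Spaced g S) {N : ℕ} (hN : ∀ j ∈ S, j < N) :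
    S.card * g ≤ N := by
  induction S using Finset.induction_on_max generalizing N with
  | empty => simp
  | insert a S hlt ih =>
    have ha := hN a (by simp)
    rw [Finset.card_insert_of_notMem fun hm => lt_irrefl a (hlt a hm)]
    obtain ⟨hg, hgap⟩ := h a (by simp)
    have h' : Spaced g S := fun j hj =>
      ⟨(h j (by simp [hj])).1, fun j' hj' => (h j (by simp [hj])).2 j' (by simp [hj'])⟩
    have hle := ih h' (N := a + 1 - g) fun j hj => by
      have := hgap j (by simp [hj]) (hlt j hj)
      omega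
    rw [Nat.succ_mul]
    omega

theorem sum_spaced_rsqrt_le {g : ℕ} (hg : 0 < g) {S : Finset ℕ} (h : Spaced g S) :
    ∑ j ∈ S, Real.sqrt (1 / ((j : ℝ) + 1)) ≤ 2 * Real.sqrt ((S.card : ℝ) / g) := by
  induction S using Finset.induction_on_max with
  | empty => simp
  | insert a S hlt ih =>
    have hna : a ∉ S := fun hm => lt_irrefl a (hlt a hm)
    have h' : Spaced g S := fun j hj =>
      ⟨(h j (by simp [hj])).1, fun j' hj' => (h j (by simp [hj])).2 j' (by simp [hj'])⟩
    rw [Finset.sum_insert hna, Finset.card_insert_of_notMem hna]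
    have hc := card_mul_le h (N := a + 1) fun j hj => by
      rcases Finset.mem_insert.1 hj with rfl | hj
      · omega
      · have := hlt j hj; omega
    rw [Finset.card_insert_of_notMem hna] at hc
    have hc' : ((S.card : ℝ) + 1) * g ≤ a + 1 := by exact_mod_cast hc
    set k : ℝ := (S.card : ℝ) with hk
    have hg' : (0 : ℝ) < g := by exact_mod_cast hg
    have hk0 : 0 ≤ k := Nat.cast_nonneg _
    push_cast
    rw [← hk]
    have e1 : Real.sqrt (1 / ((a : ℝ) + 1)) ≤ Real.sqrt (1 / ((k + 1) * g)) :=
      Real.sqrt_le_sqrt (one_div_le_one_div_of_le (by positivity) hc')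
    have e2 : Real.sqrt (1 / ((k + 1) * g)) + 2 * Real.sqrt (k / g) ≤
        2 * Real.sqrt ((k + 1) / g) := by
      rw [Real.sqrt_div hk0, Real.sqrt_div (by linarith : (0 : ℝ) ≤ k + 1), one_div,
        Real.sqrt_inv, Real.sqrt_mul (by linarith : (0 : ℝ) ≤ k + 1)]
      have hs := Real.sqrt_pos.2 hg'
      have ht := Real.sqrt_pos.2 (show (0 : ℝ) < k + 1 by linarith)
      field_simp
      nlinarith [Real.mul_self_sqrt hk0, Real.mul_self_sqrt (show (0 : ℝ) ≤ k + 1 by linarith),
        sq_nonneg (Real.sqrt (k + 1) - Real.sqrt k)]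
    linarith [ih h']

theorem sum_spaced_unimodal_le {g : ℕ} (hg : 0 < g) {S : Finset ℕ} (h : Spaced g S) {N : ℕ}
    (hN : ∀ j ∈ S, j < N) {f : ℕ → ℝ} {b : ℝ} (hb : ∀ j, f j ≤ b) (hf : ∀ j, 0 ≤ f j) (P : ℕ)
    (hup : ∀ a c, a ≤ c → c ≤ P → f a ≤ f c) (hdown : ∀ a c, a ≤ c → P ≤ a → f c ≤ f a) :
    ∑ j ∈ S, f j ≤ 2 * b + 2 / g * ∑ j ∈ range (N + g), f j := by
  classical
  set A := S.filter fun j => j + g ≤ P + 1 with hA
  set B := S.filter fun j => P + g ≤ j + 1 with hB
  set C := S.filter fun j => j < P ∧ P + 1 < j + g with hC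
  set D := S.filter fun j => P ≤ j ∧ j + 1 < P + g with hD
  have hsplit : ∑ j ∈ S, f j ≤ ∑ j ∈ A, f j + ∑ j ∈ B, f j + ∑ j ∈ C, f j + ∑ j ∈ D, f j := by
    rw [hA, hB, hC, hD, Finset.sum_filter, Finset.sum_filter, Finset.sum_filter,
      Finset.sum_filter, ← Finset.sum_add_distrib, ← Finset.sum_add_distrib,
      ← Finset.sum_add_distrib]
    refine Finset.sum_le_sum fun j _ => ?_
    have := hf j
    split_ifs <;> first | (exfalso; omega) | linarith
  have hone : ∀ T ⊆ S, (∀ x ∈ T, ∀ y ∈ T, x < y → y < x + g) → ∑ j ∈ T, f j ≤ b := by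
    intro T hT hclose
    have hc : T.card ≤ 1 := by
      rw [Finset.card_le_one]
      intro x hx y hy
      rcases lt_trichotomy x y with hxy | hxy | hxy
      · have := (h y (hT hy)).2 x (hT hx) hxy
        have := hclose x hx y hy hxy
        omega
      · exact hxy
      · have := (h x (hT hx)).2 y (hT hy) hxy
        have := hclose y hy x hx hxy
        omega
    refine (Finset.sum_le_card_nsmul T f b fun j _ => hb j).trans ?_
    rw [nsmul_eq_mul]
    exact mul_le_of_le_one_left ((hf 0).trans (hb 0)) (by exact_mod_cast hc)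
  have hblock : ∀ T ⊆ S, ∀ o : ℕ → ℕ, (∀ x ∈ T, ∀ y ∈ T, x < y → o x + g ≤ o y) →
      (∀ j ∈ T, o j ≤ j ∧ ∀ k < g, f j ≤ f (o j + k)) →
      ∑ j ∈ T, f j ≤ 1 / g * ∑ j ∈ range (N + g), f j := by
    intro T hT o ho hj
    rw [one_div_mul_eq_div, le_div_iff₀ (by exact_mod_cast hg), Finset.sum_mul]
    have hinj : Set.InjOn (fun x : ℕ × ℕ => o x.1 + x.2) (T ×ˢ range g : Finset _) := by
      intro x hx y hy hxy
      simp only [Finset.coe_product, Set.mem_prod, Finset.mem_coe, mem_range] at hx hy
      simp only at hxy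
      rcases lt_trichotomy x.1 y.1 with hlt | heq | hlt
      · have := ho _ hx.1 _ hy.1 hlt
        omega
      · exact Prod.ext heq (by rw [heq] at hxy; omega)
      · have := ho _ hy.1 _ hx.1 hlt
        omega
    calc ∑ j ∈ T, f j * g = ∑ j ∈ T, ∑ _k ∈ range g, f j := by simp [mul_comm]
      _ ≤ ∑ j ∈ T, ∑ k ∈ range g, f (o j + k) :=
          Finset.sum_le_sum fun j hjT => Finset.sum_le_sum fun k hk =>
            (hj j hjT).2 k (mem_range.1 hk)
      _ = ∑ m ∈ (T ×ˢ range g).image (fun x => o x.1 + x.2), f m := by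
          rw [Finset.sum_image hinj, Finset.sum_product]
      _ ≤ ∑ j ∈ range (N + g), f j := by
          refine Finset.sum_le_sum_of_subset_of_nonneg ?_ fun j _ _ => hf j
          intro m hm
          obtain ⟨x, hx, rfl⟩ := Finset.mem_image.1 hm
          rw [Finset.mem_product, mem_range] at hx
          have := (hj _ hx.1).1
          have := hN _ (hT hx.1)
          exact mem_range.2 (by omega)
  have eA := hblock A (Finset.filter_subset _ _) id
    (fun x hx y hy hxy => (h y (Finset.mem_filter.1 hy).1).2 x (Finset.mem_filter.1 hx).1 hxy)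
    fun j hj => ⟨le_rfl, fun k hk => hup _ _ (Nat.le_add_right _ _)
      (by have := (Finset.mem_filter.1 hj).2; simp only [id]; omega)⟩
  have eB := hblock B (Finset.filter_subset _ _) (fun j => j + 1 - g)
    (fun x hx y hy hxy => by
      have := (h y (Finset.mem_filter.1 hy).1).2 x (Finset.mem_filter.1 hx).1 hxy
      have := (h x (Finset.mem_filter.1 hx).1).1
      omega)
    fun j hj => ⟨by omega, fun k hk => hdown _ _
      (by have := (h j (Finset.mem_filter.1 hj).1).1; omega)
      (by have := (Finset.mem_filter.1 hj).2; omega)⟩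
  have eC := hone C (Finset.filter_subset _ _) fun x hx y hy hxy => by
    have := (Finset.mem_filter.1 hx).2; have := (Finset.mem_filter.1 hy).2; omega
  have eD := hone D (Finset.filter_subset _ _) fun x hx y hy hxy => by
    have := (Finset.mem_filter.1 hx).2; have := (Finset.mem_filter.1 hy).2; omega
  have : 2 / (g : ℝ) * ∑ j ∈ range (N + g), f j =
      1 / g * ∑ j ∈ range (N + g), f j + 1 / g * ∑ j ∈ range (N + g), f j := by ring
  linarith

theorem sum_binW_rsqrt_le (h0 : 0 < θ) (h1 : θ ≤ 1) (j N : ℕ) :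
    ∑ i ∈ range N, binW θ j i * Real.sqrt (1 / ((i : ℝ) + 1)) ≤
      Real.sqrt (1 / (θ * (j + 1))) := by
  have hw : ∀ i, 0 ≤ binW θ j i := binW_nonneg h0.le h1 j
  have hsub : ∑ i ∈ range N, binW θ j i * Real.sqrt (1 / ((i : ℝ) + 1)) ≤
      ∑ i ∈ range (j + 1), binW θ j i * Real.sqrt (1 / ((i : ℝ) + 1)) := by
    rw [← Finset.sum_filter_add_sum_filter_not (range N) (· < j + 1)]
    rw [Finset.sum_eq_zero (s := (range N).filter fun i => ¬ i < j + 1) fun i hi => by
      rw [binW_of_lt (by have := (Finset.mem_filter.1 hi).2; omega), zero_mul], add_zero]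
    exact Finset.sum_le_sum_of_subset_of_nonneg (fun i hi => mem_range.2 (Finset.mem_filter.1 hi).2)
      fun i _ _ => mul_nonneg (hw i) (Real.sqrt_nonneg _)
  refine hsub.trans (Real.le_sqrt_of_sq_le (le_trans ?_ (sum_binW_inv_le h0 h1 j)))
  refine (Finset.sum_sq_le_sum_mul_sum_of_sq_le_mul
    (r := fun i => binW θ j i * Real.sqrt (1 / ((i : ℝ) + 1))) (f := binW θ j)
    (g := fun i => binW θ j i * (1 / ((i : ℝ) + 1))) (range (j + 1))
    (fun i _ => hw i) (fun i _ => mul_nonneg (hw i) (by positivity)) (fun i _ => ?_)).trans ?_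
  · rw [mul_pow, Real.sq_sqrt (by positivity)]; exact le_of_eq (by ring)
  · rw [sum_binW, one_mul]

/-- The positions of the marks. -/
noncomputable def marks (d : α → ℝ) (r : List α) : Finset ℕ :=
  (range r.length).filter fun j => markAt d r j ≠ 0

/-- Spaced marks are rarely met by two independent thinnings at one index. -/
theorem sum_hit_sq_le (h0 : 0 < θ) (h1 : θ < 1) {d : α → ℝ} (hd : ∀ t, d t = 0 ∨ d t = 1)
    {g : ℕ} (hg : 0 < g) {r : List α} (hr : Spaced g (marks d r)) (N : ℕ) :
    ∑ i ∈ range N, hit θ d r i ^ 2 ≤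
      4 * Real.sqrt (1 / (2 * min θ (1 - θ) * θ)) * Real.sqrt (((marks d r).card : ℝ) / g) +
        2 * ((marks d r).card : ℝ) / g := by
  set S := marks d r with hS
  set c := 1 / (2 * min θ (1 - θ)) with hc
  have hm : 0 < min θ (1 - θ) := lt_min h0 (by linarith)
  have hc0 : 0 ≤ c := by positivity
  have hmark : ∀ j, markAt d r j = 0 ∨ markAt d r j = 1 := by
    intro j
    simp only [markAt, List.getD_eq_getElem?_getD, List.getElem?_map]
    rcases r[j]? with _ | t <;> simp [hd]
  have hh : ∀ i, hit θ d r i = ∑ j ∈ S, θ * binW θ j i := by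
    intro i
    rw [hit_eq, hS, marks, Finset.sum_filter]
    refine Finset.sum_congr rfl fun j _ => ?_
    rcases hmark j with e | e <;> simp [e]
  have hw : ∀ j i, 0 ≤ binW θ j i := binW_nonneg h0.le h1.le
  have hnn : ∀ i, 0 ≤ hit θ d r i := fun i => by
    rw [hh]; exact Finset.sum_nonneg fun j _ => mul_nonneg h0.le (hw j i)
  have hle : ∀ i, hit θ d r i ≤ 2 * Real.sqrt (c * (1 / ((i : ℝ) + 1))) + 2 / g := by
    intro i
    have h := sum_spaced_unimodal_le hg hr (N := r.length)
      (fun j hj => mem_range.1 (Finset.mem_filter.1 hj).1) (f := fun j => binW θ j i)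
      (fun j => binW_le_successes h0 h1 j i) (fun j => hw j i) ⌊(i : ℝ) / θ⌋₊
      (fun a c hac => (binW_unimodal h0 h1.le i hac).1)
      (fun a c hac => (binW_unimodal h0 h1.le i hac).2)
    rw [hh, ← Finset.mul_sum]
    have hcol := sum_binW_col_le h0.le h1.le (r.length + g) i
    rw [← Finset.mul_sum] at hcol
    have hb : Real.sqrt (1 / (2 * min θ (1 - θ) * ((i : ℝ) + 1))) =
        Real.sqrt (c * (1 / ((i : ℝ) + 1))) := by
      rw [hc]; congr 1; field_simp
    rw [hb] at h
    have hg' : (0 : ℝ) ≤ 2 / g := by positivity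
    nlinarith [mul_le_mul_of_nonneg_left h h0.le, mul_le_mul_of_nonneg_left hcol hg',
      Real.sqrt_nonneg (c * (1 / ((i : ℝ) + 1)))]
  have hrow : ∀ j, θ * ∑ i ∈ range N, binW θ j i ≤ 1 := by
    intro j
    refine (mul_le_of_le_one_left (Finset.sum_nonneg fun i _ => hw j i) h1.le).trans ?_
    calc ∑ i ∈ range N, binW θ j i ≤ ∑ i ∈ range (max N (j + 1)), binW θ j i :=
          Finset.sum_le_sum_of_subset_of_nonneg (range_subset_range.2 (le_max_left _ _))
            fun i _ _ => hw j i
      _ = ∑ i ∈ range (j + 1), binW θ j i :=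
          (Finset.sum_subset (range_subset_range.2 (le_max_right _ _)) fun i _ hi =>
            binW_of_lt (by simp only [mem_range] at hi; omega)).symm
      _ = 1 := sum_binW θ j
  have hsum : ∑ i ∈ range N, hit θ d r i ≤ (S.card : ℝ) := by
    simp only [hh]
    rw [Finset.sum_comm]
    refine (Finset.sum_le_card_nsmul S _ 1 fun j _ => ?_).trans_eq (by simp)
    rw [← Finset.mul_sum]
    exact hrow j
  have hcross : ∑ i ∈ range N, hit θ d r i * Real.sqrt (c * (1 / ((i : ℝ) + 1))) ≤
      2 * Real.sqrt (c / θ) * Real.sqrt ((S.card : ℝ) / g) := by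
    simp only [hh, Finset.sum_mul, Real.sqrt_mul hc0]
    rw [Finset.sum_comm]
    calc ∑ j ∈ S, ∑ i ∈ range N, θ * binW θ j i * (Real.sqrt c * Real.sqrt (1 / ((i : ℝ) + 1)))
        = ∑ j ∈ S, θ * Real.sqrt c *
            ∑ i ∈ range N, binW θ j i * Real.sqrt (1 / ((i : ℝ) + 1)) := by
          simp only [Finset.mul_sum]
          exact Finset.sum_congr rfl fun j _ => Finset.sum_congr rfl fun i _ => by ring
      _ ≤ ∑ j ∈ S, Real.sqrt c * Real.sqrt (1 / (θ * (j + 1))) := by
          refine Finset.sum_le_sum fun j _ => mul_le_mul ?_ (sum_binW_rsqrt_le h0 h1.le j N)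
            (Finset.sum_nonneg fun i _ => mul_nonneg (hw j i) (Real.sqrt_nonneg _))
            (Real.sqrt_nonneg _)
          exact mul_le_of_le_one_left (Real.sqrt_nonneg _) h1.le
      _ = Real.sqrt (c / θ) * ∑ j ∈ S, Real.sqrt (1 / ((j : ℝ) + 1)) := by
          rw [Finset.mul_sum]
          refine Finset.sum_congr rfl fun j _ => ?_
          rw [← Real.sqrt_mul hc0, ← Real.sqrt_mul (by positivity)]
          congr 1
          field_simp
      _ ≤ Real.sqrt (c / θ) * (2 * Real.sqrt ((S.card : ℝ) / g)) :=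
          mul_le_mul_of_nonneg_left (sum_spaced_rsqrt_le hg hr) (Real.sqrt_nonneg _)
      _ = _ := by ring
  have hct : c / θ = 1 / (2 * min θ (1 - θ) * θ) := by rw [hc, div_div]
  rw [← hct]
  calc ∑ i ∈ range N, hit θ d r i ^ 2
      ≤ ∑ i ∈ range N, (2 * (hit θ d r i * Real.sqrt (c * (1 / ((i : ℝ) + 1)))) +
          2 / g * hit θ d r i) :=
        Finset.sum_le_sum fun i _ => by
          nlinarith [mul_le_mul_of_nonneg_left (hle i) (hnn i)]
    _ = 2 * ∑ i ∈ range N, hit θ d r i * Real.sqrt (c * (1 / ((i : ℝ) + 1))) +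
          2 / g * ∑ i ∈ range N, hit θ d r i := by
        rw [Finset.sum_add_distrib, Finset.mul_sum, Finset.mul_sum]
    _ ≤ 2 * (2 * Real.sqrt (c / θ) * Real.sqrt ((S.card : ℝ) / g)) + 2 / g * S.card := by
        gcongr
    _ = _ := by ring

end Vale.Agent.P321.Super
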