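import Vale.Agent.P321.Super.ThresholdCore

/-!
# P321: a block difference inside many blocks, at the first level

The pieces of the expansion of the neighbouring blocks are added up: the block difference between
runs of blocks has norm `l ^ -123 d` relative to every word of blocks.
-/

namespace Vale.Agent.P321.Super

open Finset

namespace Lev

variable {v : Lev} {η : ℝ}

theorem Bd.sum (hv : ∀ b, IsProb (v.wd b)) (hη : 0 ≤ η) {m : ℕ} {ι : Type*} (s : Finset ι)
    (F : ι → Msr) {a C : ℝ} (h : ∀ i ∈ s, v.Bd η m (F i) a C) :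
    v.Bd η m (∑ i ∈ s, F i) (#s * a) (#s * C) := by
  classical
  induction s using Finset.induction_on with
  | empty => exact ⟨by simp, fun b _ => by simpa using Ap.zero _⟩
  | insert i s hi ih =>
    rw [sum_insert hi, card_insert_of_notMem hi, Nat.cast_succ, add_one_mul, add_one_mul,
      add_comm _ a, add_comm _ C]
    exact (h i (mem_insert_self i s)).add hv (ih fun j hj => h j (mem_insert_of_mem hj))

/-- One stage of the expansion of the neighbouring blocks. -/
theorem Good.stage {c : ℝ} (hn : v.NearHyp η c) {mo M D : ℕ} {E G G' g g' : ℝ}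
    (hσ : Real.sqrt ((1 + c ^ 2) ^ D - 1) ≤ 1) (hE : (8 * D + 4 : ℝ) ≤ E)
    (hR : v.Good η mo M (v.Z ^ M * (v.U - v.Z) * v.Z ^ M - v.pu M * (v.U - v.Z) * v.pu M) G G')
    (hP : v.Good η mo M (v.pu M * (v.U - v.Z) * v.pu M) g g') :
    v.Good η mo (M + D) (v.Z ^ (M + D) * (v.U - v.Z) * v.Z ^ (M + D) -
        v.pu (M + D) * (v.U - v.Z) * v.pu (M + D))
      (4 * G + 8 * Real.sqrt ((1 + c ^ 2) ^ D - 1) * g) (9 * E * E * (G' + 2 * g')) := by
  have hv := hn.probWd
  obtain ⟨hZ, hpi, hκ⟩ := hn.fam_Z hσ hE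
  have hZ0 : v.blk v.e 0 = v.Z := (Z_eq v).symm
  have h1 := hR.sandwich hv hn.hη hn.hη1 hZ hZ
  have h2 := hP.sandwich hv hn.hη hn.hη1 hκ hZ
  have h3 := hP.sandwich hv hn.hη hn.hη1 hpi hκ
  have h := h1.add hv (h2.add hv h3)
  simp only [hZ0] at h
  have e : v.Z ^ (M + D) * (v.U - v.Z) * v.Z ^ (M + D) -
      v.pu (M + D) * (v.U - v.Z) * v.pu (M + D) =
      v.Z ^ D * (v.Z ^ M * (v.U - v.Z) * v.Z ^ M - v.pu M * (v.U - v.Z) * v.pu M) * v.Z ^ D +
        ((v.Z ^ D - v.pu D) * (v.pu M * (v.U - v.Z) * v.pu M) * v.Z ^ D +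
          v.pu D * (v.pu M * (v.U - v.Z) * v.pu M) * (v.Z ^ D - v.pu D)) := by
    conv_lhs =>
      rw [pow_add]
      arg 1; arg 1; arg 1; rw [← pow_add, add_comm, pow_add]
    rw [show v.pu (M + D) * (v.U - v.Z) * v.pu (M + D) =
      v.pu D * (v.pu M * (v.U - v.Z) * v.pu M) * v.pu D by
        conv_lhs => arg 1; arg 1; rw [add_comm, pu_add]
        rw [pu_add]; simp only [mul_assoc]]
    simp only [mul_assoc, mul_sub, sub_mul]
    abel
  rw [e]
  have hE0 : 0 ≤ E := le_trans (by positivity) hE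
  refine ⟨by have := hR.1; have := hP.1; positivity,
    by have := hR.2.1; have := hP.2.1; positivity, fun mL mR YL YR aL aR CL CR hL hR' => ?_⟩
  have := h.2.2 mL mR YL YR aL aR CL CR hL hR'
  refine this.mono hn.hη (le_of_eq (by ring)) (le_of_eq (by ring)) ?_
  refine le_trans (le_of_eq ?_) (this.1.trans (le_of_eq ?_)) <;> ring

theorem pu_expand_left (X P : Msr) : ∀ j : ℕ,
    X ^ j = ∑ i ∈ range j, X ^ (j - 1 - i) * P * (X - P) ^ i + (X - P) ^ j
  | 0 => by simp
  | j + 1 => by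
    rw [sum_range_succ, Nat.add_sub_cancel, Nat.sub_self, pow_zero, one_mul, pow_succ' (X - P),
      sub_mul, add_assoc, add_sub_cancel, pow_succ' X]
    conv_lhs => rw [pu_expand_left X P j]
    rw [mul_add, mul_sum]
    congr 1
    refine Finset.sum_congr rfl fun i hi => ?_
    rw [mem_range] at hi
    rw [← mul_assoc, ← mul_assoc, ← pow_succ', show j - 1 - i + 1 = j - i by omega]

theorem pu_expand_right (X P : Msr) : ∀ j : ℕ,
    X ^ j = ∑ i ∈ range j, (X - P) ^ i * P * X ^ (j - 1 - i) + (X - P) ^ j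
  | 0 => by simp
  | j + 1 => by
    rw [sum_range_succ, Nat.add_sub_cancel, Nat.sub_self, pow_zero, mul_one, pow_succ (X - P),
      mul_sub, add_assoc, add_sub_cancel, pow_succ X]
    conv_lhs => rw [pu_expand_right X P j]
    rw [add_mul, Finset.sum_mul]
    congr 1
    refine Finset.sum_congr rfl fun i hi => ?_
    rw [mem_range] at hi
    rw [mul_assoc _ (X ^ (j - 1 - i)), ← pow_succ, show j - 1 - i + 1 = j - i by omega]

/-- The window: the outer pieces supply the pure runs, the rest is negligible. -/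
theorem window {c : ℝ} (hn : v.NearHyp η c) {N : ℕ} {E G G' ν : ℝ}
    (hσ : ∀ m ≤ 7 * N, Real.sqrt ((1 + c ^ 2) ^ m - 1) ≤ 1 / 2) (hE : (56 * N + 4 : ℝ) ≤ E)
    (hD : ∀ y : Bool, Ap (v.ref y) (v.U - v.Z) ν (3 * η)) (hν : ν ≤ 1)
    (hW : v.Good η N N (v.Z ^ N * (v.U - v.Z) * v.Z ^ N) G G') :
    v.Bd η (8 * N + 1 + 8 * N) (v.Z ^ (8 * N) * (v.U - v.Z) * v.Z ^ (8 * N))
      (196 * G + 40 * (2 * Real.sqrt ((1 + c ^ 2) ^ N - 1)) ^ 7 * ν)
      (441 * (3 * E) ^ 14 * E * E * G' + 2000 * (3 * E) ^ 14 * E * E * E) := by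
  have hv := hn.probWd
  have hη := hn.hη
  have hη1 := hn.hη1
  have hN0 : (0 : ℝ) ≤ N := Nat.cast_nonneg N
  have hE4 : 4 ≤ E := by linarith
  have hG := hW.1
  have hG' := hW.2.1
  have hν0 : 0 ≤ ν := (hD false).nonneg.1
  set κn := 2 * Real.sqrt ((1 + c ^ 2) ^ N - 1) with hκn
  have hκ0 : 0 ≤ κn := by positivity
  have hκ1 : κn ≤ 1 := by have := hσ N (by omega); linarith
  have hfam : ∀ j ≤ 7, v.Fam η (j * N) (fun k => v.blk v.e k ^ (j * N)) 2 E := fun j hj => by
    have hj' : j * N ≤ 7 * N := Nat.mul_le_mul_right N hj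
    refine (hn.fam_Z ((hσ _ hj').trans (by norm_num)) ?_).1
    have : ((j * N : ℕ) : ℝ) ≤ 7 * N := by exact_mod_cast hj'
    linarith
  obtain ⟨hZN, hpiN, hκN⟩ := hn.fam_Z (E := E) (m := N) ((hσ N (by omega)).trans (by norm_num))
    (by linarith)
  have hZ0 : v.blk v.e 0 = v.Z := (Z_eq v).symm
  -- crude bound of the window centre
  have hΔ : v.Bd η 1 (v.U - v.Z) ν 4 := by
    refine ⟨by linarith, fun b hb => ?_⟩
    obtain ⟨y, rfl⟩ := List.length_eq_one_iff.1 hb
    simpa [wd, ref] using (hD y).mono le_rfl (by linarith : 3 * η ≤ 4 * η)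
  have hWc : v.Bd η (N + 1 + N) (v.Z ^ N * (v.U - v.Z) * v.Z ^ N) (4 * ν) (36 * E * E) := by
    have := ((hZN.bd 0 (by simp)).mul hv hη hη1 hΔ).mul hv hη hη1 (hZN.bd 0 (by simp))
    simp only [hZ0] at this
    exact this.mono hη (le_of_eq (by ring)) (le_of_eq (by ring)) (by nlinarith [this.1])
  -- powers of the near-pure part
  have hpowfam := hκN.pow hv hη hη1
  have hp1 : ∀ i ≤ 7, κn ^ i ≤ 1 ∧ (3 * E) ^ i ≤ (3 * E) ^ 7 := fun i hi =>
    ⟨pow_le_one₀ hκ0 hκ1, pow_le_pow_right₀ (by linarith) hi⟩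
  -- the main terms
  set L : ℕ → Msr := fun i => v.Z ^ (N * (7 - 1 - i)) * v.pu N * (v.Z ^ N - v.pu N) ^ i with hL
  set R : ℕ → Msr := fun i => (v.Z ^ N - v.pu N) ^ i * v.pu N * v.Z ^ (N * (7 - 1 - i)) with hR
  set W := v.Z ^ N * (v.U - v.Z) * v.Z ^ N with hWdef
  have hterm : ∀ x ∈ range 7 ×ˢ range 7, v.Bd η (7 * N + (N + 1 + N) + 7 * N)
      (L x.1 * W * R x.2) (4 * G) (9 * ((3 * E) ^ 14 * E * E * G')) := by
    intro x hx
    simp only [mem_product, mem_range] at hx
    obtain ⟨i, i'⟩ := x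
    simp only at hx ⊢
    have hg := hW.2.2 (i * N) (i' * N) _ _ _ _ _ _ (hpowfam i) (hpowfam i')
    simp only [hZ0] at hg
    have hL' := (hfam (6 - i) (by omega)).bd 0 (by simp)
    have hR' := (hfam (6 - i') (by omega)).bd 0 (by simp)
    simp only [hZ0] at hL' hR'
    have h := (hL'.mul hv hη hη1 hg).mul hv hη hη1 hR'
    refine (h.congr ?_ ?_).mono hη ?_ ?_ ?_
    · have e1 : (6 - i) * N + i * N = 6 * N := by rw [← add_mul]; congr 1; omega
      have e2 : (6 - i') * N + i' * N = 6 * N := by rw [← add_mul]; congr 1; omega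
      omega
    · simp only [hL, hR, mul_comm N, mul_assoc]
    · have e1 := (hp1 i (by omega)).1
      have e2 := (hp1 i' (by omega)).1
      calc 2 * (κn ^ i * κn ^ i' * G) * 2 ≤ 2 * (1 * 1 * G) * 2 := by gcongr
        _ = 4 * G := by ring
    · have e1 := (hp1 i (by omega)).2
      have e2 := (hp1 i' (by omega)).2
      calc 3 * (3 * E * ((3 * E) ^ i * (3 * E) ^ i' * G')) * E
          ≤ 3 * (3 * E * ((3 * E) ^ 7 * (3 * E) ^ 7 * G')) * E := by gcongr
        _ = _ := by ring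
    · have e1 := (hp1 i (by omega)).1
      have e2 := (hp1 i' (by omega)).1
      have hb := (hW.2.2 (0 * N) (0 * N) _ _ _ _ _ _ (hpowfam 0) (hpowfam 0)).1
      simp only [pow_zero, one_mul] at hb
      calc 4 * G ≤ 4 * G' := by linarith
        _ ≤ _ := by
            have : (1 : ℝ) ≤ (3 * E) ^ 14 * E * E :=
              one_le_mul_of_one_le_of_one_le (one_le_mul_of_one_le_of_one_le
                (one_le_pow₀ (by linarith)) (by linarith)) (by linarith)
            nlinarith [mul_le_mul_of_nonneg_right this hG']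
  have hmain := Bd.sum hv hη (range 7 ×ˢ range 7) (fun x => L x.1 * W * R x.2) hterm
  -- the negligible terms
  have hk7 := (hpowfam 7).bd 0 (by simp)
  have h7 := (hfam 7 le_rfl).bd 0 (by simp)
  simp only [hZ0] at hk7 h7
  have h7' : v.Bd η (7 * N) (v.Z ^ (7 * N) - (v.Z ^ N - v.pu N) ^ 7) 3 (E + (3 * E) ^ 7) := by
    refine ⟨?_, fun b hb => ?_⟩
    · have : (1 : ℝ) ≤ (3 * E) ^ 7 := one_le_pow₀ (by linarith)
      linarith
    · exact ((h7.2 b hb).sub (hv b) (hk7.2 b hb)).mono (by linarith [(hp1 7 le_rfl).1])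
        (le_of_eq (by ring))
  have hc1 := (hk7.mul hv hη hη1 hWc).mul hv hη hη1 h7
  have hc2 := (h7'.mul hv hη hη1 hWc).mul hv hη hη1 hk7
  have h := (hc1.add hv hc2).add hv hmain
  refine (h.congr (by omega) ?_).mono hη ?_ ?_ ?_
  · have eN : v.Z ^ (7 * N) = (v.Z ^ N) ^ 7 := by rw [← pow_mul, mul_comm]
    have eL : v.Z ^ (7 * N) - (v.Z ^ N - v.pu N) ^ 7 = ∑ i ∈ range 7, L i := by
      rw [eN]
      conv_lhs => arg 1; rw [pu_expand_left (v.Z ^ N) (v.pu N) 7]
      rw [add_sub_cancel_right]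
      simp only [hL, ← pow_mul]
    have eR : v.Z ^ (7 * N) = ∑ i ∈ range 7, R i + (v.Z ^ N - v.pu N) ^ 7 := by
      rw [eN]
      conv_lhs => rw [pu_expand_right (v.Z ^ N) (v.pu N) 7]
      simp only [hR, ← pow_mul]
    have e8 : v.Z ^ (8 * N) = v.Z ^ (7 * N) * v.Z ^ N := by rw [← pow_add]; congr 1; ring
    have e8' : v.Z ^ (8 * N) = v.Z ^ N * v.Z ^ (7 * N) := by rw [← pow_add]; congr 1; ring
    have esum : ∑ x ∈ range 7 ×ˢ range 7, L x.1 * W * R x.2 =
        (v.Z ^ (7 * N) - (v.Z ^ N - v.pu N) ^ 7) * W *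
          (v.Z ^ (7 * N) - (v.Z ^ N - v.pu N) ^ 7) := by
      rw [Finset.sum_product]
      conv_rhs => arg 2; rw [eR, add_sub_cancel_right]
      rw [eL, Finset.sum_mul, Finset.sum_mul]
      exact Finset.sum_congr rfl fun i _ => by rw [mul_sum]
    rw [esum]
    conv_rhs => arg 1; arg 1; rw [e8]
    rw [e8', hWdef]
    simp only [mul_assoc, mul_sub, sub_mul]
    abel
  · have : (#(range 7 ×ˢ range 7) : ℝ) = 49 := by simp
    rw [this]
    nlinarith [mul_nonneg (pow_nonneg hκ0 7) hν0]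
  · have : (#(range 7 ×ˢ range 7) : ℝ) = 49 := by simp
    rw [this]
    have hbig : (1 : ℝ) ≤ (3 * E) ^ 7 := one_le_pow₀ (by linarith)
    have hEE : E ≤ (3 * E) ^ 7 := le_trans (by linarith)
      (le_self_pow₀ (show (1 : ℝ) ≤ 3 * E by linarith) (by norm_num))
    calc _ ≤ 3 * (3 * (3 * E) ^ 7 * (36 * E * E)) * E +
          3 * (3 * (2 * (3 * E) ^ 7) * (36 * E * E)) * (3 * E) ^ 7 +
          49 * (9 * ((3 * E) ^ 14 * E * E * G')) := by
          gcongr
          linarith
      _ ≤ _ := by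
          have hEEE : 0 ≤ E * E * E := by positivity
          have h1 : (3 * E) ^ 7 * (E * E * E) ≤ (3 * E) ^ 14 * (E * E * E) :=
            mul_le_mul_of_nonneg_right (pow_le_pow_right₀ (by linarith) (by norm_num)) hEEE
          have h2 : (3 * E) ^ 14 * (E * E) ≤ (3 * E) ^ 14 * (E * E * E) := by
            gcongr
            exact le_mul_of_one_le_right (by positivity) (by linarith)
          have h3 : (3 * E) ^ 14 = (3 * E) ^ 7 * (3 * E) ^ 7 := by rw [← pow_add]
          nlinarith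
  · refine le_trans (add_le_add ?_ ?_) (le_refl _)
    · have hb := (hW.2.2 (0 * N) (0 * N) _ _ _ _ _ _ (hpowfam 0) (hpowfam 0)).1
      simp only [pow_zero, one_mul] at hb
      have : (1 : ℝ) ≤ (3 * E) ^ 14 * E * E :=
        one_le_mul_of_one_le_of_one_le (one_le_mul_of_one_le_of_one_le
          (one_le_pow₀ (by linarith)) (by linarith)) (by linarith)
      nlinarith [mul_le_mul_of_nonneg_right this hG']
    · have : (1 : ℝ) ≤ (3 * E) ^ 14 * E * E * E :=
        one_le_mul_of_one_le_of_one_le (one_le_mul_of_one_le_of_one_le (one_le_mul_of_one_le_of_one_le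
          (one_le_pow₀ (by linarith)) (by linarith)) (by linarith)) (by linarith)
      have hk := pow_le_one₀ (n := 7) hκ0 hκ1
      calc 40 * κn ^ 7 * ν ≤ 40 * 1 * 1 := by gcongr
        _ ≤ _ := by linarith

end Lev

variable {p : ℝ}

theorem thresh_pow_sub_le {x : ℝ} (hx : 0 ≤ x) {m : ℕ} (h : (m : ℝ) * x ≤ 1 / 2) :
    (1 + x) ^ m - 1 ≤ 2 * m * x := by
  induction m with
  | zero => simp
  | succ m ih =>
    push_cast at h
    have hm : 0 ≤ (m : ℝ) * x := by positivity
    have := ih (by nlinarith)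
    rw [pow_succ]
    push_cast
    nlinarith [mul_le_mul_of_nonneg_right this (show 0 ≤ 1 + x by linarith),
      mul_le_mul_of_nonneg_right (show (m : ℝ) * x ≤ 1 / 2 by nlinarith) hx]

/-- The numerical bound of one smoothed stage. -/
theorem stage_norm {l d t : ℕ} (hl : 1 ≤ l) (hd : 1 ≤ d) :
    (((l ^ (60 * d + 6 * d * t - 1) / l ^ (60 * d) + 1 : ℕ) : ℝ)) /
      (((l ^ (24 * d - 1) : ℕ) : ℝ) * ((l ^ (60 * d + 6 * d * t - 1) : ℕ) : ℝ) ^ 3) ≤
      2 / (l : ℝ) ^ (204 * d + 12 * (d * t) - 4) := by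
  have hl1 : (1 : ℝ) ≤ l := by exact_mod_cast hl
  have h1 : l ^ (60 * d + 6 * d * t - 1) / l ^ (60 * d) + 1 ≤ 2 * l ^ (6 * (d * t)) := by
    have hq : l ^ (60 * d + 6 * d * t - 1) / l ^ (60 * d) ≤ l ^ (6 * (d * t)) := by
      refine Nat.div_le_of_le_mul ?_
      rw [← pow_add]
      exact Nat.pow_le_pow_right hl (by rw [mul_assoc]; omega)
    have : 1 ≤ l ^ (6 * (d * t)) := Nat.one_le_pow _ _ hl
    omega
  rw [div_le_div_iff₀ (by positivity) (by positivity)]
  calc _ ≤ ((2 * l ^ (6 * (d * t)) : ℕ) : ℝ) * (l : ℝ) ^ (204 * d + 12 * (d * t) - 4) := by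
        gcongr
    _ = 2 * (l : ℝ) ^ (6 * (d * t) + (204 * d + 12 * (d * t) - 4)) := by
        push_cast; rw [pow_add]; ring
    _ = 2 * (l : ℝ) ^ (24 * d - 1 + 3 * (60 * d + 6 * d * t - 1)) := by
        congr 2; rw [mul_assoc]; omega
    _ = _ := by push_cast; rw [pow_add, mul_comm 3, pow_mul]

/-- The constant of the threshold. -/
noncomputable def thC (p : ℝ) (q : ℕ) : ℝ := 900000 * smC p q + 20000000

/-- The norm and error bounds at the window, for one large scale. -/
theorem window_base (h0 : 0 < p) (h1 : p < 1) {d q : ℕ} (hd : 4 ≤ d) {l : ℕ} {η : ℝ}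
    (hl : 2 ^ 13 + 32 * q + 32 ≤ l)
    (hn : (base p (l ^ (60 * d)) (l ^ (60 * d))).NearHyp η (2 / (l : ℝ) ^ (30 * d - 2)))
    (hD : ∀ y : Bool, Ap ((base p (l ^ (60 * d)) (l ^ (60 * d))).ref y)
      ((base p (l ^ (60 * d)) (l ^ (60 * d))).U - (base p (l ^ (60 * d)) (l ^ (60 * d))).Z)
      (1 / (l : ℝ) ^ (90 * d - 3)) (3 * η))
    (hsm : ∀ I a m : ℕ, 1 ≤ I → 1 ≤ a → (I * a) ^ 2 * l ≤ m →
      ∀ (X : Msr) (B : ℝ), l1 X ≤ B → ∀ N N' x : ℕ, q * m ≤ N →
        q * m + a * (x + 3 * I * q) ≤ N' →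
        l1 (dif I q (fun y => s0 p ^ (N + a * y) * X * s0 p ^ (N' - a * y)) x) ≤ B / 2 * η)
    (hlive : ∀ k ≥ l, live p ^ k ≤ η) :
    (base p (l ^ (60 * d)) (l ^ (60 * d))).Bd η (8 * l ^ (48 * d) + 1 + 8 * l ^ (48 * d))
      ((base p (l ^ (60 * d)) (l ^ (60 * d))).Z ^ (8 * l ^ (48 * d)) *
        ((base p (l ^ (60 * d)) (l ^ (60 * d))).U - (base p (l ^ (60 * d)) (l ^ (60 * d))).Z) *
        (base p (l ^ (60 * d)) (l ^ (60 * d))).Z ^ (8 * l ^ (48 * d)))
      (thC p q / (l : ℝ) ^ (123 * d + 1)) ((30000000 * smE p q + 2000) * 3 ^ 14 * (100 * (l : ℝ) ^ (48 * d)) ^ 28) := by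
  set S := l ^ (60 * d) with hS
  set N := l ^ (48 * d) with hN
  set J := l ^ (24 * d - 1) with hJ
  set v := base p S S with hv
  set c := 2 / (l : ℝ) ^ (30 * d - 2) with hc
  set E := 100 * (l : ℝ) ^ (48 * d) with hE
  have hl1 : 1 ≤ l := by omega
  have hlR : (1 : ℝ) ≤ l := by exact_mod_cast hl1
  have hl0 : (0 : ℝ) < l := by linarith
  have hEN : E = 100 * (N : ℝ) := by rw [hE, hN, Nat.cast_pow]
  have hN1 : 1 ≤ N := Nat.one_le_pow _ _ hl1
  have hN1R : (1 : ℝ) ≤ N := by exact_mod_cast hN1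
  have hc2 : c ^ 2 = 4 / (l : ℝ) ^ (60 * d - 4) := by
    rw [hc, div_pow, ← pow_mul, show (30 * d - 2) * 2 = 60 * d - 4 by omega]; norm_num
  -- distance of a run from pure
  have hσ : ∀ (m e : ℕ), m ≤ 7 * l ^ e → e ≤ 48 * d →
      Real.sqrt ((1 + c ^ 2) ^ m - 1) ≤ 1 / 2 ∧
      (m ≤ l ^ e → Real.sqrt ((1 + c ^ 2) ^ m - 1) ≤ Real.sqrt (8 / (l : ℝ) ^ (60 * d - 4 - e))) := by
    intro m e hm he
    have hkey : ∀ C : ℕ, m ≤ C * l ^ e → C ≤ 7 →
        (m : ℝ) * c ^ 2 ≤ (C : ℝ) * 4 / (l : ℝ) ^ (60 * d - 4 - e) := by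
      intro C hC _
      rw [hc2, mul_div_assoc', div_le_div_iff₀ (by positivity) (by positivity)]
      calc (m : ℝ) * 4 * (l : ℝ) ^ (60 * d - 4 - e)
          ≤ ((C * l ^ e : ℕ) : ℝ) * 4 * (l : ℝ) ^ (60 * d - 4 - e) := by gcongr
        _ = C * 4 * ((l : ℝ) ^ e * (l : ℝ) ^ (60 * d - 4 - e)) := by push_cast; ring
        _ = _ := by rw [← pow_add]; congr 2; omega
    have hbig : (7 : ℝ) * 4 / (l : ℝ) ^ (60 * d - 4 - e) ≤ 1 / 8 := by
      rw [div_le_iff₀ (by positivity)]
      have : (l : ℝ) ≤ (l : ℝ) ^ (60 * d - 4 - e) := le_self_pow₀ hlR (by omega)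
      have : (2 : ℝ) ^ 13 ≤ l := by exact_mod_cast (show 2 ^ 13 ≤ l by omega)
      linarith
    have h7 := hkey 7 hm le_rfl
    push_cast at h7
    have hsub := thresh_pow_sub_le (sq_nonneg c) (m := m) (by linarith)
    refine ⟨?_, fun hm1 => Real.sqrt_le_sqrt (hsub.trans ?_)⟩
    · rw [Real.sqrt_le_iff]; constructor <;> linarith
    · have h1' := hkey 1 (by simpa using hm1) (by norm_num)
      push_cast at h1'
      rw [show (8 : ℝ) / (l : ℝ) ^ (60 * d - 4 - e) = 2 * (1 * 4 / (l : ℝ) ^ (60 * d - 4 - e)) by ring]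
      linarith
  have hσN : ∀ m ≤ 7 * N, Real.sqrt ((1 + c ^ 2) ^ m - 1) ≤ 1 / 2 := fun m hm =>
    (hσ m (48 * d) hm le_rfl).1
  have hfam : ∀ m ≤ N, v.Fam η m (fun _ => v.pu m) 2 E := fun m hm => by
    refine (hn.fam_Z ((hσN m (by omega)).trans (by norm_num)) ?_).2.1
    have : (m : ℝ) ≤ N := by exact_mod_cast hm
    rw [hEN]; linarith
  -- the smoothed pure cores
  set τ := smC p q * Real.sqrt (2 / (l : ℝ) ^ (204 * d - 4)) with hτ
  have hcore : ∀ t ≤ 4, ∀ M, M ≤ N → (t = 0 ∨ l ^ (12 * (d * t)) ≤ M) →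
      v.Good η N M (v.pu M * (v.U - v.Z) * v.pu M)
        (smC p q * Real.sqrt (2 / (l : ℝ) ^ (204 * d + 12 * (d * t) - 4))) (smE p q * E ^ 4) := by
    intro t ht M hM hMt
    set I := l ^ (60 * d + 6 * d * t - 1) with hI
    have hdt : d * t ≤ d * 4 := Nat.mul_le_mul_left d ht
    have hpow : ∀ {a b : ℕ}, a ≤ b → l ^ a ≤ l ^ b := fun h => Nat.pow_le_pow_right hl1 h
    have hI4 : 4 ≤ I := le_trans (by omega : 4 ≤ l) (Nat.le_self_pow (by omega) l)
    have hl2 : 32 * q + 32 ≤ l := by omega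
    have hS3 : 3 ≤ S := le_trans (by omega : 3 ≤ l) (Nat.le_self_pow (by omega) l)
    have h := good_core h0 h1 (mu := I ^ 2 * l) (mj := (J * S) ^ 2 * l) (I := I) (J := J) (r := q)
      (M := M) (mo := N) hn (hfam M hM) (hfam N le_rfl) hsm hS3 hI4 (Nat.one_le_pow _ _ hl1) hN1
      (by
        calc 6 * J * (q + 1) ≤ l * J := by rw [mul_comm 6 J, mul_assoc, mul_comm l]; gcongr; omega
          _ = l ^ (24 * d - 1 + 1) := by rw [hJ, ← pow_succ']
          _ ≤ S := hpow (by omega))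
      (by
        have hIl : I * l ≤ S * S := by
          rw [hI, hS, ← pow_succ, ← pow_add]
          exact hpow (by rw [mul_assoc]; omega)
        have hS16 : 16 * S ≤ S * S := by gcongr; exact le_trans (by omega) (Nat.le_self_pow (by omega) l)
        have : 12 * I * (q + 1) * 2 ≤ I * l := by
          calc 12 * I * (q + 1) * 2 = I * (24 * (q + 1)) := by ring
            _ ≤ I * l := Nat.mul_le_mul_left _ (by omega)
        omega)
      le_rfl
      (by
        have hIl : I ^ 2 * l * l = l ^ (120 * d + 12 * (d * t)) := by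
          rw [hI, ← pow_mul, ← pow_succ, ← pow_succ]
          congr 1; rw [mul_assoc]; omega
        have h4 : 4 * (q * (I ^ 2 * l)) ≤ I ^ 2 * l * l := by
          calc 4 * (q * (I ^ 2 * l)) = I ^ 2 * l * (4 * q) := by ring
            _ ≤ I ^ 2 * l * l := Nat.mul_le_mul_left _ (by omega)
        refine h4.trans (hIl.le.trans ?_)
        have hSS : S * S = l ^ (120 * d) := by rw [hS, ← pow_add]; congr 1; omega
        rw [hSS, pow_add, mul_comm]
        refine Nat.mul_le_mul_right _ ?_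
        rcases hMt with rfl | hMt
        · simp
        · omega)
      le_rfl
      (by
        have e1 : (J * S) ^ 2 * l * l = l ^ (168 * d) := by
          rw [hJ, hS, ← pow_add, ← pow_mul, ← pow_succ, ← pow_succ]; congr 1; omega
        have e2 : J * S ≤ (J * S) ^ 2 * l :=
          le_trans (Nat.le_self_pow (by norm_num) _) (Nat.le_mul_of_pos_right _ (by omega))
        calc q * ((J * S) ^ 2 * l) + 3 * J * q * S
            = q * ((J * S) ^ 2 * l) + 3 * q * (J * S) := by ring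
          _ ≤ q * ((J * S) ^ 2 * l) + 3 * q * ((J * S) ^ 2 * l) := by gcongr
          _ = 4 * q * ((J * S) ^ 2 * l) := by ring
          _ ≤ l * ((J * S) ^ 2 * l) := by gcongr; omega
          _ = _ := by
              rw [mul_comm l ((J * S) ^ 2 * l), e1, hN, hS, ← pow_add, ← pow_add]; congr 1; omega)
      (hlive _ (by
        have h2 : l ^ 2 ≤ I := hpow (by omega)
        have : 2 * l ≤ l ^ 2 := by rw [sq]; gcongr; omega
        omega))
    refine ⟨mul_nonneg (smC_nonneg p q) (Real.sqrt_nonneg _), h.2.1,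
      fun mL mR YL YR aL aR CL CR hL hR => ?_⟩
    have hb := h.2.2 mL mR YL YR aL aR CL CR hL hR
    have h0' := (hL.bd 0 (by simp)).a_nonneg
    have h0'' := (hR.bd 0 (by simp)).a_nonneg
    have hle : smC p q * Real.sqrt (((I / S + 1 : ℕ) : ℝ) / ((J : ℝ) * (I : ℝ) ^ 3)) ≤
        smC p q * Real.sqrt (2 / (l : ℝ) ^ (204 * d + 12 * (d * t) - 4)) :=
      mul_le_mul_of_nonneg_left (Real.sqrt_le_sqrt (stage_norm hl1 (by omega))) (smC_nonneg p q)
    refine hb.mono hn.hη (mul_le_mul_of_nonneg_left hle (mul_nonneg h0' h0'')) le_rfl ?_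
    refine mul_le_mul (mul_le_mul (hL.bd 0 (by simp)).1 (hR.bd 0 (by simp)).1 h0''
      (hL.bd 0 (by simp)).c_nonneg) ?_ (mul_nonneg (smC_nonneg p q) (Real.sqrt_nonneg _))
      (mul_nonneg (hL.bd 0 (by simp)).c_nonneg (hR.bd 0 (by simp)).c_nonneg)
    have hsq : Real.sqrt (2 / (l : ℝ) ^ (204 * d + 12 * (d * t) - 4)) ≤ 2 := by
      rw [Real.sqrt_le_iff]
      refine ⟨zero_le_two, le_trans (div_le_self zero_le_two (one_le_pow₀ hlR)) ?_⟩
      norm_num
    calc smC p q * Real.sqrt (2 / (l : ℝ) ^ (204 * d + 12 * (d * t) - 4))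
        ≤ smC p q * 2 := mul_le_mul_of_nonneg_left hsq (smC_nonneg p q)
      _ ≤ smE p q := by
          have : (0 : ℝ) ≤ 4 ^ q * ((16 + 12 * Real.sqrt (2 / (1 - p))) * 81) + 10 := by positivity
          rw [smE]; linarith
      _ ≤ smE p q * E ^ 4 := le_mul_of_one_le_right (smE_nonneg p q)
          (one_le_pow₀ (by rw [hEN]; linarith))
  -- the stages
  have hchain : ∀ t ≤ 4, ∃ M : ℕ, M ≤ N ∧ (t = 0 ∧ M = 0 ∨ M = l ^ (12 * (d * t))) ∧
      ∃ G G' : ℝ, G ≤ ((4 : ℝ) ^ t - 1) / 3 *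
          (8 * (Real.sqrt 8 * (smC p q * Real.sqrt (2 / (l : ℝ) ^ (252 * d - 8))))) ∧
        G' ≤ (9 * E * E) ^ t * (2 * t) * (smE p q * E ^ 4) ∧
        v.Good η N M (v.Z ^ M * (v.U - v.Z) * v.Z ^ M - v.pu M * (v.U - v.Z) * v.pu M) G G' := by
    intro t ht
    induction t with
    | zero =>
      refine ⟨0, Nat.zero_le _, Or.inl ⟨rfl, rfl⟩, 0, 0, ?_, by simp, ?_⟩
      · simp
      · simpa [Lev.pu] using Lev.Good.zero (v := v) hn.hη N 0
    | succ t ih =>
      obtain ⟨M, hMN, hMt, G, G', hG, hG', hgood⟩ := ih (by omega)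
      set M' := l ^ (12 * (d * (t + 1))) with hM'
      have hdt : d * (t + 1) ≤ d * 4 := Nat.mul_le_mul_left d ht
      have hMM' : M ≤ M' := by
        rcases hMt with ⟨-, rfl⟩ | rfl
        · exact Nat.zero_le _
        · exact Nat.pow_le_pow_right hl1 (by gcongr; omega)
      have hM'N : M' ≤ N := Nat.pow_le_pow_right hl1 (by omega)
      have hMcase : t = 0 ∨ l ^ (12 * (d * t)) ≤ M := hMt.elim (fun h => Or.inl h.1) fun h => Or.inr h.ge
      have hD' : M' - M ≤ M' := Nat.sub_le _ _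
      have hσD := hσ (M' - M) (12 * (d * (t + 1))) (by omega) (by omega)
      have hst := hgood.stage hn (D := M' - M) (E := E) (hσD.1.trans (by norm_num)) (by
        have : ((M' - M : ℕ) : ℝ) ≤ N := by exact_mod_cast hD'.trans hM'N
        rw [hEN]; linarith) (hcore t (by omega) M hMN hMcase)
      rw [Nat.add_sub_cancel' hMM'] at hst
      refine ⟨M', hM'N, Or.inr rfl, _, _, ?_, ?_, hst⟩
      · set B := Real.sqrt 8 * (smC p q * Real.sqrt (2 / (l : ℝ) ^ (252 * d - 8))) with hB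
        have hB0 : 0 ≤ B := by have := smC_nonneg p q; positivity
        have hnew : 8 * Real.sqrt ((1 + c ^ 2) ^ (M' - M) - 1) *
            (smC p q * Real.sqrt (2 / (l : ℝ) ^ (204 * d + 12 * (d * t) - 4))) ≤ 8 * B := by
          have hkey : Real.sqrt (8 / (l : ℝ) ^ (60 * d - 4 - 12 * (d * (t + 1)))) *
              Real.sqrt (2 / (l : ℝ) ^ (204 * d + 12 * (d * t) - 4)) =
              Real.sqrt 8 * Real.sqrt (2 / (l : ℝ) ^ (252 * d - 8)) := by
            rw [← Real.sqrt_mul (by positivity), ← Real.sqrt_mul (by norm_num), div_mul_div_comm,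
              ← pow_add, mul_div_assoc']
            congr 3
            rw [mul_add, mul_one] at hdt ⊢
            omega
          calc _ ≤ 8 * Real.sqrt (8 / (l : ℝ) ^ (60 * d - 4 - 12 * (d * (t + 1)))) *
                (smC p q * Real.sqrt (2 / (l : ℝ) ^ (204 * d + 12 * (d * t) - 4))) := by
                refine mul_le_mul_of_nonneg_right (mul_le_mul_of_nonneg_left (hσD.2 hD') (by norm_num)) ?_
                exact mul_nonneg (smC_nonneg p q) (Real.sqrt_nonneg _)
            _ = 8 * (smC p q * (Real.sqrt (8 / (l : ℝ) ^ (60 * d - 4 - 12 * (d * (t + 1)))) *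
                Real.sqrt (2 / (l : ℝ) ^ (204 * d + 12 * (d * t) - 4)))) := by ring
            _ = _ := by rw [hkey, hB]; ring
        rw [pow_succ (4 : ℝ)]
        linarith
      · have hE1 : 1 ≤ 9 * E * E := by
          have : 1 ≤ E := by rw [hEN]; linarith
          nlinarith
        have hU : 0 ≤ smE p q * E ^ 4 := mul_nonneg (smE_nonneg p q) (by positivity)
        calc 9 * E * E * (G' + 2 * (smE p q * E ^ 4))
            ≤ 9 * E * E * ((9 * E * E) ^ t * (2 * t) * (smE p q * E ^ 4) +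
                (9 * E * E) ^ t * 2 * (smE p q * E ^ 4)) := by
              gcongr
              exact le_mul_of_one_le_left zero_le_two (one_le_pow₀ hE1)
          _ = _ := by push_cast; rw [pow_succ']; ring
  obtain ⟨M, hMN, hMt, G, G', hG, hG', hgood⟩ := hchain 4 le_rfl
  have hMeq : M = N := by
    rcases hMt with ⟨h, -⟩ | h
    · omega
    · rw [h, hN]; congr 1; omega
  subst hMeq
  have hW := hgood.add hn.probWd (hcore 4 le_rfl N le_rfl (Or.inr (by rw [hN]; apply le_of_eq; congr 1; omega)))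
  rw [sub_add_cancel] at hW
  have hν : 1 / (l : ℝ) ^ (90 * d - 3) ≤ 1 := by
    rw [div_le_one (by positivity)]; exact one_le_pow₀ hlR
  have hwin := Lev.window hn (E := E) hσN (by rw [hEN]; linarith) hD hν hW
  have hC0 := smC_nonneg p q
  have hE1 : 1 ≤ E := by rw [hEN]; linarith
  have hthC : 0 ≤ thC p q := by unfold thC; positivity
  refine hwin.mono hn.hη ?_ ?_ ?_
  · -- norm
    have h8 : Real.sqrt 8 ≤ 3 := by rw [Real.sqrt_le_iff]; norm_num
    have hs2 : ∀ e, 246 * d + 2 ≤ e → Real.sqrt (2 / (l : ℝ) ^ e) ≤ 2 / (l : ℝ) ^ (123 * d + 1) := by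
      intro e he
      rw [Real.sqrt_le_iff]
      refine ⟨by positivity, ?_⟩
      rw [div_pow, ← pow_mul]
      calc 2 / (l : ℝ) ^ e ≤ 2 / (l : ℝ) ^ ((123 * d + 1) * 2) := by
            exact div_le_div_of_nonneg_left zero_le_two (by positivity)
              (pow_le_pow_right₀ hlR (by omega))
        _ ≤ _ := by gcongr; norm_num
    have hA : G + smC p q * Real.sqrt (2 / (l : ℝ) ^ (204 * d + 12 * (d * 4) - 4)) ≤
        4100 * smC p q * (1 / (l : ℝ) ^ (123 * d + 1)) := by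
      have a1 := hs2 (252 * d - 8) (by omega)
      have a2 := hs2 (204 * d + 12 * (d * 4) - 4) (by omega)
      rw [show ((4 : ℝ) ^ 4 - 1) / 3 = 85 by norm_num] at hG
      calc _ ≤ 85 * (8 * (3 * (smC p q * (2 / (l : ℝ) ^ (123 * d + 1))))) +
            smC p q * (2 / (l : ℝ) ^ (123 * d + 1)) := by
            refine add_le_add (hG.trans ?_) (mul_le_mul_of_nonneg_left a2 hC0)
            gcongr
        _ = 4082 * smC p q * (1 / (l : ℝ) ^ (123 * d + 1)) - 0 := by ring
        _ ≤ _ := by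
            have : 0 ≤ smC p q * (1 / (l : ℝ) ^ (123 * d + 1)) := by positivity
            linarith
    have hK : (2 * Real.sqrt ((1 + c ^ 2) ^ N - 1)) ^ 7 * (1 / (l : ℝ) ^ (90 * d - 3)) ≤
        6 ^ 7 * (1 / (l : ℝ) ^ (123 * d + 1)) := by
      have hk : 2 * Real.sqrt ((1 + c ^ 2) ^ N - 1) ≤ 6 / (l : ℝ) ^ (6 * d - 2) := by
        have := (hσ N (48 * d) (by rw [← hN]; omega) le_rfl).2 le_rfl
        refine (mul_le_mul_of_nonneg_left this zero_le_two).trans ?_
        rw [← le_div_iff₀' zero_lt_two, Real.sqrt_le_iff]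
        refine ⟨by positivity, ?_⟩
        rw [div_pow, div_pow, ← pow_mul, div_div,
          show 60 * d - 4 - 48 * d = (6 * d - 2) * 2 by omega]
        rw [div_le_div_iff₀ (by positivity) (by positivity)]
        have : (0 : ℝ) ≤ (l : ℝ) ^ ((6 * d - 2) * 2) := by positivity
        nlinarith
      calc _ ≤ (6 / (l : ℝ) ^ (6 * d - 2)) ^ 7 * (1 / (l : ℝ) ^ (90 * d - 3)) := by gcongr
        _ = 6 ^ 7 / (l : ℝ) ^ ((6 * d - 2) * 7 + (90 * d - 3)) := by
            rw [div_pow, ← pow_mul, div_mul_div_comm, mul_one, ← pow_add]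
        _ ≤ 6 ^ 7 / (l : ℝ) ^ (123 * d + 1) := by
            exact div_le_div_of_nonneg_left (by norm_num) (by positivity)
              (pow_le_pow_right₀ hlR (by omega))
        _ = _ := by ring
    calc _ ≤ 196 * (4100 * smC p q * (1 / (l : ℝ) ^ (123 * d + 1))) +
          40 * (6 ^ 7 * (1 / (l : ℝ) ^ (123 * d + 1))) := by
          refine add_le_add (mul_le_mul_of_nonneg_left hA (by norm_num)) ?_
          rw [mul_assoc]
          exact mul_le_mul_of_nonneg_left hK (by norm_num)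
      _ ≤ _ := by
          rw [thC, add_div]
          have hx : 0 ≤ 1 / (l : ℝ) ^ (123 * d + 1) := by positivity
          have hy : 0 ≤ smC p q * (1 / (l : ℝ) ^ (123 * d + 1)) := by positivity
          rw [div_eq_mul_one_div (900000 * smC p q), div_eq_mul_one_div (20000000 : ℝ)]
          linarith
  · -- error
    have hU0 : 0 ≤ smE p q := smE_nonneg p q
    have hGE : G' + smE p q * E ^ 4 ≤ 60000 * smE p q * E ^ 12 := by
      refine (add_le_add hG' le_rfl).trans ?_
      have : smE p q * E ^ 4 ≤ smE p q * E ^ 12 :=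
        mul_le_mul_of_nonneg_left (pow_le_pow_right₀ hE1 (by norm_num)) hU0
      have : (9 * E * E) ^ 4 * (2 * ((4 : ℕ) : ℝ)) * (smE p q * E ^ 4) = 52488 * (smE p q * E ^ 12) := by
        push_cast; ring
      nlinarith [mul_nonneg hU0 (pow_nonneg (show (0:ℝ) ≤ E by linarith) 12)]
    calc _ ≤ 441 * (3 * E) ^ 14 * E * E * (60000 * smE p q * E ^ 12) +
          2000 * (3 * E) ^ 14 * E * E * E := by gcongr
      _ = 26460000 * 3 ^ 14 * smE p q * E ^ 28 + 2000 * 3 ^ 14 * E ^ 17 := by ring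
      _ ≤ 26460000 * 3 ^ 14 * smE p q * E ^ 28 + 2000 * 3 ^ 14 * E ^ 28 := by
          exact add_le_add le_rfl (mul_le_mul_of_nonneg_left
            (pow_le_pow_right₀ hE1 (by norm_num)) (by positivity))
      _ ≤ _ := by
          have : 0 ≤ 3 ^ 14 * smE p q * E ^ 28 := by positivity
          linarith
  · have hden : (1 : ℝ) ≤ (l : ℝ) ^ (123 * d + 1) := one_le_pow₀ hlR
    have h2 : smC p q * 2 ≤ smE p q := by
      have : (0 : ℝ) ≤ 4 ^ q * ((16 + 12 * Real.sqrt (2 / (1 - p))) * 81) + 10 := by positivity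
      rw [smE]; linarith
    have hE28 : (10 : ℝ) ^ 5 ≤ E ^ 28 := by
      calc (10 : ℝ) ^ 5 ≤ 100 ^ 28 := by norm_num
        _ ≤ E ^ 28 := pow_le_pow_left₀ (by norm_num) (by rw [hEN]; linarith) _
    refine (div_le_self hthC hden).trans ?_
    rw [thC]
    have hU0 : 0 ≤ smE p q := smE_nonneg p q
    have hm := mul_le_mul_of_nonneg_left hE28
      (show 0 ≤ (30000000 * smE p q + 2000) * (3 : ℝ) ^ 14 by positivity)
    norm_num at hm ⊢
    linarith

/-- **Threshold.** A block difference between long runs of blocks of the first level. -/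
theorem base_threshold (h0 : 0 < p) (h1 : p < 1) (d : ℕ) (hd : 4 ≤ d) (r Γ : ℕ) :
    ∃ l₀ : ℕ, ∀ l ≥ l₀, let v := base p (l ^ (60 * d)) (l ^ (60 * d))
      ∀ (b : List Bool) (i : ℕ), i < b.length → b.count true ≤ 2 ^ r →
        8 * l ^ (48 * d) ≤ i → 8 * l ^ (48 * d) ≤ b.length - 1 - i →
        Ap (v.wd b) (v.Z ^ i * (v.U - v.Z) * v.Z ^ (b.length - 1 - i))
          (1 / (l : ℝ) ^ (123 * d)) (1 / (l : ℝ) ^ Γ) := by
  set Γ' := Γ + 49 * d * 28 + 1 with hΓ'
  obtain ⟨q, -, l₁, hl₁⟩ := exists_small h0 h1 Γ'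
  obtain ⟨l₂, hl₂⟩ := ap_block_pure h0 h1 d (by omega) (Γ' + 1)
  obtain ⟨κ₀, -, hinv⟩ := base_inv h0 h1
  obtain ⟨l₃, hl₃⟩ := hinv d (by omega) Γ'
  obtain ⟨l₄, hl₄⟩ := ev_live_small h0 h1 1 zero_le_one Γ'
  set R := 2 ^ r with hR
  obtain ⟨l₅, -, hl₅⟩ := ev_le (thC p q * ((2 : ℝ) ^ R) ^ 2)
  set CE := (30000000 * smE p q + 2000) * (3 : ℝ) ^ 14 with hCE
  obtain ⟨l₆, -, hl₆⟩ := ev_le (3 * (((2 : ℝ) ^ R + 8 ^ R) ^ 2 * (CE + thC p q)) + 100)
  refine ⟨max (max (max l₁ l₂) (max l₃ l₄)) (max (max l₅ l₆) (2 ^ 13 + 32 * q + 32)), fun l hl => ?_⟩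
  have hl1 : 1 ≤ l := by omega
  have hlR : (1 : ℝ) ≤ l := by exact_mod_cast hl1
  have hInv := hl₃ l (by omega)
  set S := l ^ (60 * d) with hS
  intro v b i hi hcount hiL hiR
  set η := 1 / (l : ℝ) ^ Γ' with hη
  have hη0 : 0 ≤ η := by positivity
  have hη1 : η ≤ 1 := by rw [hη, div_le_one (by positivity)]; exact one_le_pow₀ hlR
  have hS3 : 3 ≤ S := le_trans (by omega : 3 ≤ l) (Nat.le_self_pow (by omega) l)
  have hblk : ∀ y : Bool, ∀ x : ℕ, ctr S ≤ x → 2 * x ≤ 2 * ctr S + S * S + 2 →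
      Ap (v.ref y) (pos p (per S) x - s0 p ^ per S) (1 / (l : ℝ) ^ (30 * d - 2))
        (1 / (l : ℝ) ^ (Γ' + 1)) := by
    intro y x hx hx'
    have hper : per S = 2 * (S * S) + S := by rw [per]; ring
    have hctr : ctr S = S * S + S / 2 := rfl
    rw [ref_base p hS3 y]
    have hS2 : 3 * S ≤ S * S := Nat.mul_le_mul_right S hS3
    have := hl₂ l (by omega) (per S) x (ctr S + if y then 1 else 0)
    rw [← hS] at this
    exact this (by split_ifs <;> omega) (by split_ifs <;> omega) (by omega) (by omega)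
  have hhalf : 2 * (1 / (l : ℝ) ^ (Γ' + 1)) ≤ η := by
    rw [hη, ← mul_div_assoc, mul_one, div_le_div_iff₀ (by positivity) (by positivity), one_mul,
      pow_succ' (l : ℝ) Γ']
    exact mul_le_mul_of_nonneg_right (by exact_mod_cast (show 2 ≤ l by omega)) (by positivity)
  have hn : v.NearHyp η (2 / (l : ℝ) ^ (30 * d - 2)) := by
    refine ⟨hInv.probS, hInv.probE, fun y => ?_, hη0, hη1, fun y k hk => ?_, fun y => ?_⟩
    · rw [ref_base p hS3 y]; exact isProb_pos h0 h1 _ _
    · change 2 * k ≤ S at hk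
      have hk' : S * (2 * k) ≤ S * S := Nat.mul_le_mul_left S hk
      rw [mul_left_comm] at hk'
      have hy := hblk y (ctr S + if y then 1 else 0) (by omega) (by split_ifs <;> omega)
      rw [← ref_base p hS3 y] at hy
      have hx := hblk y (S * (S + k) + S / 2) (by simp only [ctr, mul_add]; omega)
        (by simp only [ctr, mul_add]; omega)
      have hP : IsProb (v.ref y) := by rw [ref_base p hS3 y]; exact isProb_pos h0 h1 _ _
      have h := hx.sub hP hy
      rw [sub_sub_sub_cancel_right, ← blk_pos p (show S / 2 < S by omega) (show k ≤ S by omega)] at h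
      exact h.mono (le_of_eq (by ring)) (by linarith)
    · have hP : IsProb (v.ref y) := by rw [ref_base p hS3 y]; exact isProb_pos h0 h1 _ _
      have hy := (hblk y (ctr S + if y then 1 else 0) (by omega) (by split_ifs <;> omega)).neg
      rw [neg_sub, ← ref_base p hS3 y, ← base_pure] at hy
      refine hy.mono ?_ (le_trans (le_mul_of_one_le_left (by positivity) one_le_two) hhalf)
      gcongr
      norm_num
  have hνle : 1 / (l : ℝ) ^ (90 * d - 3) * (1 + 0) ≤ 1 := by
    rw [add_zero, mul_one, div_le_one (by positivity)]; exact one_le_pow₀ hlR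
  have hD : ∀ y : Bool, Ap (v.ref y) (v.U - v.Z) (1 / (l : ℝ) ^ (90 * d - 3)) (3 * η) := by
    intro y
    have := hInv.ap_D (ρ := if y then v.o else v.e) (by cases y <;> simp [v])
    rw [add_zero, mul_one] at this
    cases y <;> exact this
  have hwin := window_base h0 h1 hd (by omega) hn hD (hl₁ l (by omega))
    (fun k hk => by simpa [hη] using hl₄ l (by omega) k hk)
  set n := 8 * l ^ (48 * d) with hndef
  obtain ⟨i', rfl⟩ : ∃ i', i = i' + n := ⟨i - n, by omega⟩
  obtain ⟨j', hj'⟩ : ∃ j', b.length - 1 - (i' + n) = n + j' := ⟨b.length - 1 - (i' + n) - n, by omega⟩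
  rw [hj']
  obtain ⟨b₁, bm, b₃, rfl, hb₁, hbm⟩ : ∃ b₁ bm b₃, b = b₁ ++ bm ++ b₃ ∧ b₁.length = i' ∧
      bm.length = n + 1 + n :=
    ⟨b.take i', (b.drop i').take (n + 1 + n), (b.drop i').drop (n + 1 + n), by
      rw [List.append_assoc, List.take_append_drop, List.take_append_drop], by simp; omega,
      by simp; omega⟩
  have hb₃ : b₃.length = j' := by
    simp only [List.length_append] at hj' hi
    omega
  have hc₁ : b₁.count true ≤ R ∧ b₃.count true ≤ R := by
    simp only [List.count_append] at hcount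
    omega
  have hPi := hInv.probWd
  have hA := hInv.ap_wd hνle (b := b₁) (b' := List.replicate i' false) (by simp [hb₁])
  have hC := hInv.ap_wd hνle (b := b₃) (b' := List.replicate j' false) (by simp [hb₃])
  have hcf : ∀ m, List.count true (List.replicate m false) = 0 := fun m => by
    rw [List.count_eq_zero]; simp
  rw [hcf, add_zero, Lev.wd_replicate] at hA hC
  have hA' : Ap (v.wd b₁) (v.Z ^ i') ((2 : ℝ) ^ R) ((8 : ℝ) ^ R * η) :=
    hA.mono (pow_le_pow_right₀ (by norm_num) hc₁.1)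
      (mul_le_mul_of_nonneg_right (pow_le_pow_right₀ (by norm_num) hc₁.1) hη0)
  have hC' : Ap (v.wd b₃) (v.Z ^ j') ((2 : ℝ) ^ R) ((8 : ℝ) ^ R * η) :=
    hC.mono (pow_le_pow_right₀ (by norm_num) hc₁.2)
      (mul_le_mul_of_nonneg_right (pow_le_pow_right₀ (by norm_num) hc₁.2) hη0)
  have h := (hA'.mul (hPi _) (hPi _) (hwin.2 bm hbm)).mul ((hPi _).mul (hPi _)) (hPi _) hC'
  rw [← Lev.wd_append, ← Lev.wd_append] at h
  have ew : v.Z ^ i' * (v.Z ^ n * (v.U - v.Z) * v.Z ^ n) * v.Z ^ j' =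
      v.Z ^ (i' + n) * (v.U - v.Z) * v.Z ^ (n + j') := by
    simp only [pow_add, mul_assoc]
  refine (h.congr ew).mono ?_ ?_
  · calc (2 : ℝ) ^ R * (thC p q / (l : ℝ) ^ (123 * d + 1)) * 2 ^ R
        = thC p q * ((2 : ℝ) ^ R) ^ 2 / ((l : ℝ) * (l : ℝ) ^ (123 * d)) := by ring
      _ ≤ (l : ℝ) / ((l : ℝ) * (l : ℝ) ^ (123 * d)) := by
          gcongr
          exact hl₅ l (by omega)
      _ = _ := by rw [div_mul_eq_div_div, div_self (by positivity)]
  · have hW0 : 0 ≤ thC p q := by have := smC_nonneg p q; unfold thC; positivity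
    have hCE0 : 0 ≤ CE := by have := smE_nonneg p q; rw [hCE]; positivity
    set E28 := (100 * (l : ℝ) ^ (48 * d)) ^ 28 with hE28
    have hE28' : 1 ≤ E28 := one_le_pow₀ (by nlinarith [one_le_pow₀ hlR (n := 48 * d)])
    have hA0 : thC p q / (l : ℝ) ^ (123 * d + 1) ≤ thC p q * E28 :=
      (div_le_self hW0 (one_le_pow₀ hlR)).trans (le_mul_of_one_le_right hW0 hE28')
    set a := (2 : ℝ) ^ R
    set e := (8 : ℝ) ^ R
    have ha : 0 ≤ a := by positivity
    have he : 0 ≤ e := by positivity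
    set W := thC p q * E28 + CE * E28 with hW
    have hWa : thC p q / (l : ℝ) ^ (123 * d + 1) ≤ W := le_add_of_le_of_nonneg hA0 (by positivity)
    have hWe : CE * E28 * η ≤ W * η := by
      gcongr
      exact le_add_of_nonneg_left (by positivity)
    have hWnn : 0 ≤ W := by positivity
    have hB : (a + e) ^ 2 * W * η * 3 ≤ (l : ℝ) * (100 ^ 28 * (l : ℝ) ^ (48 * d * 28)) * η := by
      have := hl₆ l (by omega)
      calc (a + e) ^ 2 * W * η * 3 = (3 * ((a + e) ^ 2 * (CE + thC p q))) * E28 * η := by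
            rw [hW]; ring
        _ ≤ (l : ℝ) * E28 * η := by gcongr; linarith
        _ = _ := by rw [hE28, mul_pow, ← pow_mul]
    refine le_trans ?_ (hB.trans ?_)
    · set A := thC p q / (l : ℝ) ^ (123 * d + 1)
      have hA0' : 0 ≤ A := by positivity
      calc _ ≤ (a * (W * η) + e * η * W + e * η * (W * η)) * a +
            (a * W) * (e * η) + (a * (W * η) + e * η * W + e * η * (W * η)) * (e * η) := by
            have h1 : a * (CE * E28 * η) + e * η * A + e * η * (CE * E28 * η) ≤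
                a * (W * η) + e * η * W + e * η * (W * η) := by gcongr
            rw [add_comm (a * A * (e * η))]
            gcongr
        _ ≤ (a * W + e * W + e * W) * η * a + a * W * (e * η) + (a * W + e * W + e * W) * η * e := by
            have q1 : e * η * (W * η) ≤ e * W * η := by
              calc e * η * (W * η) = e * W * η * η := by ring
                _ ≤ e * W * η := mul_le_of_le_one_right (by positivity) hη1
            have q2 : a * (W * η) + e * η * W + e * η * (W * η) ≤ (a * W + e * W + e * W) * η := by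
              linarith
            have q3 : (a * W + e * W + e * W) * η * (e * η) ≤ (a * W + e * W + e * W) * η * e :=
              mul_le_mul_of_nonneg_left (mul_le_of_le_one_right he hη1) (by positivity)
            refine add_le_add (add_le_add ?_ le_rfl) ?_
            · gcongr
            · exact (mul_le_mul_of_nonneg_right q2 (by positivity)).trans q3
        _ ≤ _ := by
            nlinarith [mul_nonneg (mul_nonneg ha he) (mul_nonneg hWnn hη0),
              mul_nonneg (mul_nonneg ha ha) (mul_nonneg hWnn hη0),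
              mul_nonneg (mul_nonneg he he) (mul_nonneg hWnn hη0)]
    · have hl100 : (100 : ℝ) ≤ l := by exact_mod_cast (show 100 ≤ l by omega)
      rw [hη, mul_one_div, div_le_div_iff₀ (by positivity) (by positivity), one_mul]
      calc (l : ℝ) * (100 ^ 28 * (l : ℝ) ^ (48 * d * 28)) * (l : ℝ) ^ Γ
          ≤ (l : ℝ) * ((l : ℝ) ^ (d * 28) * (l : ℝ) ^ (48 * d * 28)) * (l : ℝ) ^ Γ := by
            gcongr
            exact (pow_le_pow_left₀ (by norm_num) hl100 28).trans
              (pow_le_pow_right₀ hlR (by omega))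
        _ = (l : ℝ) ^ Γ' := by
            rw [hΓ', ← pow_add, ← pow_succ', ← pow_add]
            congr 1
            ring

end Vale.Agent.P321.Super
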