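import Vale.Agent.P321.Super.BaseInv
import Vale.Agent.P321.Super.Blocks

/-!
# P321: smoothing a block difference inside many blocks

The block difference is smeared over units inside pure runs next to it; the whole middle is then
smeared over slots between two pure outer runs. Bounds are relative to every word in the two blocks
of the right length.
-/

namespace Vale.Agent.P321.Super

open Finset

namespace Lev

variable {v : Lev} {η : ℝ}

/-- The reference law of one block. -/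
noncomputable def ref (v : Lev) (y : Bool) : Msr := if y then v.U else v.Z

theorem wd_eq_ref (v : Lev) (b : List Bool) : v.wd b = (b.map v.ref).prod := rfl

/-- `μ` has norm `a` relative to every word of `m` blocks, with error `C η`. -/
def Bd (v : Lev) (η : ℝ) (m : ℕ) (μ : Msr) (a C : ℝ) : Prop :=
  a ≤ C ∧ ∀ b : List Bool, b.length = m → Ap (v.wd b) μ a (C * η)

/-- A family of contents that moves with the slots. -/
structure Fam (v : Lev) (η : ℝ) (m : ℕ) (G : ℕ → Msr) (a C : ℝ) : Prop where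
  shift : ∀ k, 2 * k ≤ v.A → SemiconjBy (v.s ^ k) (G 0) (G k)
  bd : ∀ k, 2 * k ≤ v.A → v.Bd η m (G k) a C

theorem Bd.a_nonneg {m : ℕ} {μ : Msr} {a C : ℝ} (h : v.Bd η m μ a C) : 0 ≤ a :=
  (h.2 (List.replicate m false) (by simp)).nonneg.1

theorem Bd.c_nonneg {m : ℕ} {μ : Msr} {a C : ℝ} (h : v.Bd η m μ a C) : 0 ≤ C :=
  h.a_nonneg.trans h.1

theorem Bd.mono {m : ℕ} {μ : Msr} {a C a' C' : ℝ} (h : v.Bd η m μ a C) (hη : 0 ≤ η) (ha : a ≤ a')
    (hC : C ≤ C') (h' : a' ≤ C') : v.Bd η m μ a' C' :=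
  ⟨h', fun b hb => (h.2 b hb).mono ha (by gcongr)⟩

theorem Bd.congr {m m' : ℕ} {μ μ' : Msr} {a C : ℝ} (h : v.Bd η m μ a C) (e : m = m')
    (e' : μ = μ') : v.Bd η m' μ' a C := e ▸ e' ▸ h

theorem Bd.add (hv : ∀ b, IsProb (v.wd b)) {m : ℕ} {μ ν : Msr} {a C a' C' : ℝ}
    (h : v.Bd η m μ a C) (h' : v.Bd η m ν a' C') : v.Bd η m (μ + ν) (a + a') (C + C') :=
  ⟨add_le_add h.1 h'.1, fun b hb => ((h.2 b hb).add (hv b) (h'.2 b hb)).mono le_rfl (by rw [add_mul])⟩

theorem Bd.mul (hv : ∀ b, IsProb (v.wd b)) (hη : 0 ≤ η) (hη1 : η ≤ 1) {m m' : ℕ} {μ ν : Msr}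
    {a C a' C' : ℝ} (h : v.Bd η m μ a C) (h' : v.Bd η m' ν a' C') :
    v.Bd η (m + m') (μ * ν) (a * a') (3 * C * C') := by
  have ha := h.a_nonneg
  have ha' := h'.a_nonneg
  have hC := h.c_nonneg
  have hC' := h'.c_nonneg
  refine ⟨by nlinarith [mul_le_mul h.1 h'.1 ha' hC, mul_nonneg hC hC'], fun b hb => ?_⟩
  have e : v.wd b = v.wd (b.take m) * v.wd (b.drop m) := by rw [← wd_append, List.take_append_drop]
  rw [e]
  refine ((h.2 _ (by simp [hb])).mul (hv _) (hv _) (h'.2 _ (by simp [hb]))).mono le_rfl ?_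
  nlinarith [mul_le_mul_of_nonneg_right h.1 (mul_nonneg hC' hη),
    mul_le_mul_of_nonneg_right h'.1 (mul_nonneg hC hη),
    mul_le_mul_of_nonneg_left hη1 (mul_nonneg (mul_nonneg hC hC') hη)]

theorem Bd.one (hη : 0 ≤ η) : v.Bd η 0 1 1 1 :=
  ⟨le_rfl, fun b hb => by
    rw [List.length_eq_zero_iff] at hb
    subst hb
    simpa [wd] using (Ap.self isProb_one).mono le_rfl hη⟩

theorem Bd.l1_le (hv : ∀ b, IsProb (v.wd b)) (hη : η ≤ 1) {m : ℕ} {μ : Msr} {a C : ℝ}
    (h : v.Bd η m μ a C) : l1 μ ≤ 2 * C := by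
  have := (h.2 _ (List.length_replicate (n := m) (a := false))).l1_le (hv _)
  nlinarith [h.1, mul_le_mul_of_nonneg_left hη h.c_nonneg]

theorem Fam.mul (hv : ∀ b, IsProb (v.wd b)) (hη : 0 ≤ η) (hη1 : η ≤ 1) {m m' : ℕ} {F G : ℕ → Msr}
    {a C a' C' : ℝ} (h : v.Fam η m F a C) (h' : v.Fam η m' G a' C') :
    v.Fam η (m + m') (fun k => F k * G k) (a * a') (3 * C * C') :=
  ⟨fun k hk => (h.shift k hk).mul_right (h'.shift k hk),
    fun k hk => (h.bd k hk).mul hv hη hη1 (h'.bd k hk)⟩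

theorem Fam.pow (hv : ∀ b, IsProb (v.wd b)) (hη : 0 ≤ η) (hη1 : η ≤ 1) {m : ℕ} {F : ℕ → Msr}
    {a C : ℝ} (h : v.Fam η m F a C) :
    ∀ j : ℕ, v.Fam η (j * m) (fun k => F k ^ j) (a ^ j) ((3 * C) ^ j)
  | 0 => ⟨fun k _ => by simp, fun k _ => by simpa using Bd.one hη⟩
  | j + 1 => by
    have := (h.pow hv hη hη1 j).mul hv hη hη1 h
    simp only [← pow_succ] at this
    rw [Nat.succ_mul]
    exact ⟨this.shift, fun k hk => (this.bd k hk).mono hη (le_of_eq (pow_succ a j).symm)
      (le_of_eq (by rw [pow_succ]; ring)) (by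
        have := (this.bd k hk).1
        rw [pow_succ, pow_succ]
        calc a ^ j * a = a ^ (j + 1) := (pow_succ a j).symm
          _ ≤ _ := by simpa [pow_succ] using this
          _ = _ := by ring)⟩

/-- A pure run as long as `m` blocks. -/
noncomputable def pu (v : Lev) (m : ℕ) : Msr := (v.s ^ (2 * v.A + 1)) ^ m

theorem pu_add (v : Lev) (m m' : ℕ) : v.pu (m + m') = v.pu m * v.pu m' := pow_add _ _ _

theorem pu_shift (v : Lev) (m k : ℕ) : SemiconjBy (v.s ^ k) (v.pu m) (v.pu m) :=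
  ((Commute.refl v.s).pow_pow k (2 * v.A + 1)).pow_right m

/-- Products of factors near every block law. -/
theorem ap_pow_near {X : Msr} (hv : ∀ y, IsProb (v.ref y)) (hX : IsProb X) {c : ℝ}
    (h : ∀ y, Ap (v.ref y) (X - v.ref y) c η) {m : ℕ}
    (hm : Real.sqrt ((1 + c ^ 2) ^ m - 1) ≤ 1) {b : List Bool} (hb : b.length = m) :
    Ap (v.wd b) (X ^ m - v.wd b) (Real.sqrt ((1 + c ^ 2) ^ m - 1)) (4 * m * η) := by
  have hη : 0 ≤ η := (h false).nonneg.2
  have := prod_near (c := c) (η := η) (b.map fun y => (v.ref y, X)) fun x hx => by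
    obtain ⟨y, -, rfl⟩ := List.mem_map.1 hx
    exact ⟨hv y, hX, h y⟩
  simp only [List.map_map, Function.comp_def, List.length_map, hb, List.map_const',
    List.prod_replicate] at this
  refine (this.congr rfl).mono le_rfl ?_
  nlinarith [mul_le_mul_of_nonneg_left hm (mul_nonneg (Nat.cast_nonneg (α := ℝ) m) hη)]

/-- What is used about single blocks: shifted ground blocks and pure runs are near both blocks. -/
structure NearHyp (v : Lev) (η c : ℝ) : Prop where
  prob : IsProb v.s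
  probE : IsProb v.e
  probR : ∀ y, IsProb (v.ref y)
  hη : 0 ≤ η
  hη1 : η ≤ 1
  near : ∀ (y : Bool) (k : ℕ), 2 * k ≤ v.A → Ap (v.ref y) (v.blk v.e k - v.ref y) c η
  pure : ∀ y : Bool, Ap (v.ref y) (v.s ^ (2 * v.A + 1) - v.ref y) c η

theorem NearHyp.probWd {c : ℝ} (h : v.NearHyp η c) (b : List Bool) : IsProb (v.wd b) :=
  IsProb.list_prod fun R hR => by
    obtain ⟨y, -, rfl⟩ := List.mem_map.1 hR
    exact h.probR y

theorem NearHyp.fam_Z {c : ℝ} (h : v.NearHyp η c) {m : ℕ} {E : ℝ}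
    (hm : Real.sqrt ((1 + c ^ 2) ^ m - 1) ≤ 1) (hE : (8 * m + 4 : ℝ) ≤ E) :
    v.Fam η m (fun k => v.blk v.e k ^ m) 2 E ∧
    v.Fam η m (fun _ => v.pu m) 2 E ∧
    v.Fam η m (fun k => v.blk v.e k ^ m - v.pu m) (2 * Real.sqrt ((1 + c ^ 2) ^ m - 1)) E := by
  set σ := Real.sqrt ((1 + c ^ 2) ^ m - 1)
  have hσ : 0 ≤ σ := Real.sqrt_nonneg _
  have hη := h.hη
  have hm0 : (0 : ℝ) ≤ m := Nat.cast_nonneg m
  have hsh : ∀ k, 2 * k ≤ v.A → SemiconjBy (v.s ^ k) (v.blk v.e 0 ^ m) (v.blk v.e k ^ m) :=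
    fun k hk => by
      have := v.semiconjBy_blk v.e (i := 0) (k := k) (by omega)
      rw [zero_add] at this
      exact this.pow_right m
  have hX : ∀ k, IsProb (v.blk v.e k) := fun k =>
    ((h.prob.pow _).mul h.probE).mul (h.prob.pow _)
  refine ⟨⟨hsh, fun k hk => ⟨by linarith, fun b hb => ?_⟩⟩,
    ⟨fun k _ => v.pu_shift m k, fun k _ => ⟨by linarith, fun b hb => ?_⟩⟩,
    ⟨fun k hk => (hsh k hk).sub_right (v.pu_shift m k), fun k hk => ⟨by linarith, fun b hb => ?_⟩⟩⟩
  · have := (ap_pow_near h.probR (hX k) (fun y => h.near y k hk) hm hb).add (h.probWd b)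
      (Ap.self (h.probWd b))
    rw [sub_add_cancel] at this
    exact this.mono (by linarith) (by nlinarith)
  · have := (ap_pow_near h.probR (h.prob.pow _) h.pure hm hb).add (h.probWd b)
      (Ap.self (h.probWd b))
    rw [sub_add_cancel] at this
    exact this.mono (by linarith) (by nlinarith)
  · have := (ap_pow_near h.probR (hX k) (fun y => h.near y k hk) hm hb).sub (h.probWd b)
      (ap_pow_near h.probR (h.prob.pow _) h.pure hm hb)
    rw [sub_sub_sub_cancel_right] at this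
    exact this.mono (by linarith) (by nlinarith)

/-- `W`, between moving contents and outer pure runs of `mo` blocks, has norm `G`. -/
def Good (v : Lev) (η : ℝ) (mo M : ℕ) (W : Msr) (G G' : ℝ) : Prop :=
  0 ≤ G ∧ 0 ≤ G' ∧ ∀ (mL mR : ℕ) (YL YR : ℕ → Msr) (aL aR CL CR : ℝ),
    v.Fam η mL YL aL CL → v.Fam η mR YR aR CR →
    v.Bd η (mo + mL + (2 * M + 1) + mR + mo) (v.pu mo * YL 0 * W * YR 0 * v.pu mo)
      (aL * aR * G) (CL * CR * G')

theorem Good.zero (hη : 0 ≤ η) (mo M : ℕ) : v.Good η mo M 0 0 0 :=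
  ⟨le_rfl, le_rfl, fun mL mR YL YR aL aR CL CR _ _ =>
    ⟨by simp, fun b _ => by simpa using Ap.zero _⟩⟩

theorem Good.add (hv : ∀ b, IsProb (v.wd b)) {mo M : ℕ} {W W' : Msr} {G G' H H' : ℝ}
    (h : v.Good η mo M W G G') (h' : v.Good η mo M W' H H') :
    v.Good η mo M (W + W') (G + H) (G' + H') :=
  ⟨add_nonneg h.1 h'.1, add_nonneg h.2.1 h'.2.1, fun mL mR YL YR aL aR CL CR hL hR => by
    have := (h.2.2 mL mR YL YR aL aR CL CR hL hR).add hv (h'.2.2 mL mR YL YR aL aR CL CR hL hR)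
    simp only [← mul_add, ← add_mul] at this
    exact this⟩

/-- Moving factors may be absorbed. -/
theorem Good.sandwich (hv : ∀ b, IsProb (v.wd b)) (hη : 0 ≤ η) (hη1 : η ≤ 1) {mo M D : ℕ}
    {W : Msr} {G G' : ℝ} (h : v.Good η mo M W G G') {P Q : ℕ → Msr} {a a' C C' : ℝ}
    (hP : v.Fam η D P a C) (hQ : v.Fam η D Q a' C') :
    v.Good η mo (M + D) (P 0 * W * Q 0) (a * a' * G) (9 * C * C' * G') := by
  have hP0 := hP.bd 0 (by simp)
  have hQ0 := hQ.bd 0 (by simp)
  refine ⟨mul_nonneg (mul_nonneg hP0.a_nonneg hQ0.a_nonneg) h.1,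
    by have := hP0.c_nonneg; have := hQ0.c_nonneg; have := h.2.1; positivity,
    fun mL mR YL YR aL aR CL CR hL hR => ?_⟩
  have := h.2.2 (mL + D) (D + mR) (fun k => YL k * P k) (fun k => Q k * YR k) _ _ _ _
    (hL.mul hv hη hη1 hP) (hQ.mul hv hη hη1 hR)
  refine (this.congr (by omega) (by simp only [mul_assoc])).mono hη (le_of_eq (by ring))
    (le_of_eq (by ring)) ?_
  have h1 := this.1
  linarith [show aL * aR * (a * a' * G) = aL * a * (a' * aR) * G by ring,
    show CL * CR * (9 * C * C' * G') = 3 * CL * C * (3 * C' * CR) * G' by ring]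

end Lev

variable {p : ℝ}

/-- A block with a defect, as a run of units. -/
theorem ref_base (p : ℝ) {S : ℕ} (hS : 3 ≤ S) (y : Bool) :
    (base p S S).ref y = pos p (per S) (ctr S + if y then 1 else 0) := by
  cases y
  · simpa [Lev.ref] using base_Z p (S := S) (by omega)
  · simpa [Lev.ref] using base_U p hS

/-- The gradient of a block, moved by `k` slots and `z` units, between pure runs. -/
noncomputable def grad (p : ℝ) (S M k z : ℕ) : Msr :=
  (base p S S).pu M * (pos p (per S) (ctr S + S * k + z + 1) - pos p (per S) (ctr S + S * k + z)) *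
    (base p S S).pu M

theorem base_pu (p : ℝ) (S M : ℕ) : (base p S S).pu M = s0 p ^ (per S * M) := by
  rw [Lev.pu, base_pure, ← pow_mul]

theorem grad_margins (p : ℝ) {S M k z : ℕ} (h : ctr S + S * k + z + 1 < per S) :
    grad p S M k z = s0 p ^ (per S * M + ctr S + S * k + 1 * z) * (s0 p * dd p - dd p * s0 p) *
      s0 p ^ (per S * M + (per S - 2 - ctr S - S * k) - 1 * z) := by
  rw [grad, base_pu, one_mul]
  set x := ctr S + S * k + z with hx
  set n := per S * M
  set L := per S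
  have e : pos p L (x + 1) - pos p L x =
      s0 p ^ x * (s0 p * dd p - dd p * s0 p) * s0 p ^ (L - 2 - x) := by
    simp only [pos, mul_sub, sub_mul, mul_assoc]
    rw [← mul_assoc (s0 p ^ x) (s0 p), ← pow_succ, ← pow_succ']
    congr 4 <;> omega
  rw [e, ← mul_assoc, ← mul_assoc, ← pow_add, mul_assoc _ (s0 p ^ (L - 2 - x)), ← pow_add]
  congr 3 <;> omega

theorem grad_shift (p : ℝ) {S M k z : ℕ} (h : ctr S + S * k + z + 1 < per S) :
    SemiconjBy ((base p S S).s ^ k) (grad p S M 0 z) (grad p S M k z) := by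
  have hc : SemiconjBy ((base p S S).s ^ k) ((base p S S).pu M) ((base p S S).pu M) :=
    Lev.pu_shift _ _ _
  refine (hc.mul_right (SemiconjBy.sub_right ?_ ?_)).mul_right hc
  · rw [SemiconjBy, base_s, ← pow_mul, mul_zero, add_zero, pos_shift p (by omega)]
    congr 2; ring
  · rw [SemiconjBy, base_s, ← pow_mul, mul_zero, add_zero, pos_shift p (by omega)]
    congr 2; ring

theorem smear_smul_grad (p : ℝ) (S M k I t : ℕ) :
    smear I (grad p S M k) t = ∑ u ∈ range I ×ˢ (univ : Finset Bool),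
      ((if u.2 then 1 else -1) / (I : ℝ) ^ 2) • ((base p S S).pu M *
        (pos p (per S) (ctr S + S * k + t + I + u.1 + if u.2 then I else 0) - s0 p ^ per S) *
        (base p S S).pu M) := by
  have h := congrArg (fun X => (base p S S).pu M * X * (base p S S).pu M)
    (smear_grad p I (per S) (ctr S + S * k) t)
  simp only [Finset.mul_sum, Finset.sum_mul, mul_smul_comm, smul_mul_assoc, smear] at h
  rw [← h]
  rfl

/-- Collisions of units among the shifted gradient positions. -/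
theorem grad_collide {S I J : ℕ} (hS : 1 ≤ S) (hI : 1 ≤ I) (c : ℕ)
    (k : (ℕ × ℕ) × (ℕ × Bool)) :
    #(((range J ×ˢ range J) ×ˢ (range I ×ˢ (univ : Finset Bool))).filter fun k' =>
      (c + S * (k.1.1 + k.1.2) + k.2.1 + if k.2.2 then I else 0) =
        (c + S * (k'.1.1 + k'.1.2) + k'.2.1 + if k'.2.2 then I else 0)) ≤
      2 * J * (I / S + 1) := by
  refine le_trans (Finset.card_le_card_of_injOn
    (t := (range J ×ˢ (univ : Finset Bool)) ×ˢ range (I / S + 1))
    (fun k' => ((k'.1.1, k'.2.2), k'.2.1 / S)) ?_ ?_) ?_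
  · intro a ha
    simp only [Finset.mem_coe, mem_filter, mem_product, mem_range, mem_univ, and_true] at ha ⊢
    exact ⟨ha.1.1.1, Nat.lt_succ_of_le (Nat.div_le_div_right ha.1.2.le)⟩
  · intro a ha b hb hab
    simp only [Finset.coe_filter, Set.mem_ofPred_eq, mem_product, mem_range, mem_univ,
      and_true] at ha hb
    simp only [Prod.mk.injEq] at hab
    obtain ⟨⟨a11, a12⟩, a21, a22⟩ := a
    obtain ⟨⟨b11, b12⟩, b21, b22⟩ := b
    simp only at hab ha hb
    obtain ⟨⟨rfl, rfl⟩, hdiv⟩ := hab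
    have h := ha.2.symm.trans hb.2
    have h' : S * a12 + a21 = S * b12 + b21 := by
      simp only [mul_add] at h
      omega
    have hm : a21 % S = b21 % S := by
      have := congrArg (· % S) h'
      simpa using this
    have hu : a21 = b21 := by rw [← Nat.div_add_mod a21 S, ← Nat.div_add_mod b21 S, hdiv, hm]
    subst hu
    have : a12 = b12 := Nat.eq_of_mul_eq_mul_left hS (by omega)
    subst this
    rfl
  · simp only [card_product, card_range, card_univ, Fintype.card_bool]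
    rw [mul_comm J 2]

/-- The constant of the smoothing bound. -/
noncomputable def smC (p : ℝ) (r : ℕ) : ℝ :=
  4 ^ r * (Real.sqrt (2 / (1 - p)) * (16 * Real.sqrt (p / (1 - p) * 4)))

/-- The error constant of the smoothing bound. -/
noncomputable def smE (p : ℝ) (r : ℕ) : ℝ :=
  4 ^ r * ((16 + 12 * Real.sqrt (2 / (1 - p))) * 81) + 10 + 2 * smC p r

theorem smC_nonneg (p : ℝ) (r : ℕ) : 0 ≤ smC p r := by unfold smC; positivity

theorem smE_nonneg (p : ℝ) (r : ℕ) : 0 ≤ smE p r := by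
  have := smC_nonneg p r
  unfold smE; positivity

theorem err_arith {I : ℕ} (hI : 1 ≤ I) {aL aR CA CB K t η : ℝ} (hK : 0 ≤ K) (haL : 0 ≤ aL) (haR : 0 ≤ aR)
    (hA : 4 * aL ≤ CA) (hB : 4 * aR ≤ CB) (hη : 0 ≤ η) (hη1 : η ≤ 1) (ht0 : 0 ≤ t) (ht : t ≤ η) :
    2 / (I : ℝ) * (2 * ((4 * aL * t + CA * η * K + CA * η * t) * (4 * aR + CB * η) +
      K * (4 * aL) * (CB * η))) ≤ (8 * (2 + K) + 4 * K) * (CA * CB) * η := by
  have h2 : 2 / (I : ℝ) ≤ 2 := div_le_self zero_le_two (by exact_mod_cast hI)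
  have hA0 : 0 ≤ CA := by linarith
  have hB0 : 0 ≤ CB := by linarith
  have q1 : 4 * aL * t ≤ CA * η := mul_le_mul hA ht ht0 hA0
  have q2 : CA * η * t ≤ CA * η := mul_le_of_le_one_right (mul_nonneg hA0 hη) (ht.trans hη1)
  have q3 : CB * η ≤ CB := mul_le_of_le_one_right hB0 hη1
  have e1 : 4 * aL * t + CA * η * K + CA * η * t ≤ CA * η * (2 + K) := by
    rw [mul_add (CA * η)]; linarith
  have e2 : 4 * aR + CB * η ≤ 2 * CB := by linarith
  calc _ ≤ 2 * (2 * (CA * η * (2 + K) * (2 * CB) + K * CA * (CB * η))) := by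
        refine mul_le_mul h2 ?_ (by positivity) zero_le_two
        refine mul_le_mul_of_nonneg_left (add_le_add ?_ ?_) zero_le_two
        · exact mul_le_mul e1 e2 (by positivity) (by positivity)
        · refine mul_le_mul_of_nonneg_right (mul_le_mul_of_nonneg_left ?_ hK) (by positivity)
          linarith
    _ = _ := by ring

/-- The indices of the doubly smeared middle. -/
def idx (I J : ℕ) : Finset ((ℕ × ℕ) × (ℕ × Bool)) :=
  (range J ×ˢ range J) ×ˢ (range I ×ˢ (univ : Finset Bool))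

/-- The coefficients of the doubly smeared middle. -/
noncomputable def coef (I J : ℕ) (k : (ℕ × ℕ) × (ℕ × Bool)) : ℝ :=
  ((J : ℝ) ^ 2)⁻¹ * ((if k.2.2 then 1 else -1) / (I : ℝ) ^ 2)

theorem abs_coef (I J : ℕ) (k : (ℕ × ℕ) × (ℕ × Bool)) :
    |coef I J k| = ((J : ℝ) ^ 2)⁻¹ * (1 / (I : ℝ) ^ 2) := by
  have e : |if k.2.2 then (1 : ℝ) else -1| = 1 := by split_ifs <;> simp
  rw [coef, abs_mul, abs_div, e, abs_inv, abs_pow, abs_pow, Nat.abs_cast, Nat.abs_cast]

theorem sum_abs_coef {I J : ℕ} (hI : 1 ≤ I) (hJ : 1 ≤ J) :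
    ∑ k ∈ idx I J, |coef I J k| = 2 / (I : ℝ) := by
  have hI0 : (0 : ℝ) < I := by exact_mod_cast hI
  have hJ0 : (0 : ℝ) < J := by exact_mod_cast hJ
  simp only [abs_coef, idx, sum_const, card_product, card_range, card_univ, Fintype.card_bool,
    nsmul_eq_mul]
  push_cast
  field_simp

theorem smeared_eq (p : ℝ) (S M I J c t : ℕ) (P : Msr) (YL YR : ℕ → Msr) :
    (((J : ℝ) ^ 2)⁻¹ • ∑ a ∈ range J, ∑ a' ∈ range J,
        P * YL (c + a + a') * smear I (grad p S M (c + a + a')) t * YR (c + a + a') * P) =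
      ∑ k ∈ idx I J, coef I J k •
        (P * YL (c + k.1.1 + k.1.2) * (base p S S).pu M *
          (pos p (per S) (ctr S + S * c + t + I + S * (k.1.1 + k.1.2) + k.2.1 +
            if k.2.2 then I else 0) - s0 p ^ per S) *
          ((base p S S).pu M * YR (c + k.1.1 + k.1.2) * P)) := by
  rw [idx, Finset.sum_product, Finset.sum_product (s := range J), Finset.smul_sum]
  refine Finset.sum_congr rfl fun a _ => ?_
  rw [Finset.smul_sum]
  refine Finset.sum_congr rfl fun a' _ => ?_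
  rw [smear_smul_grad, Finset.mul_sum, Finset.sum_mul, Finset.sum_mul, Finset.smul_sum]
  refine Finset.sum_congr rfl fun u _ => ?_
  rw [coef, mul_smul_comm, smul_mul_assoc, smul_mul_assoc, smul_smul,
    show ctr S + S * c + t + I + S * (a + a') + u.1 =
      ctr S + S * (c + a + a') + t + I + u.1 by ring]
  simp only [mul_assoc]

theorem ap_middle (h0 : 0 < p) (h1 : p < 1) {S M mo mL mR I J c t : ℕ} {η c' E : ℝ}
    (hn : (base p S S).NearHyp η c')
    (hpuM : (base p S S).Fam η M (fun _ => (base p S S).pu M) 2 E)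
    (hpuo : (base p S S).Fam η mo (fun _ => (base p S S).pu mo) 2 E)
    {YL YR : ℕ → Msr} {aL aR CL CR : ℝ} (hL : (base p S S).Fam η mL YL aL CL)
    (hR : (base p S S).Fam η mR YR aR CR) (hI : 4 ≤ I) (hJ : 1 ≤ J) (hS : 3 ≤ S)
    (hc : 2 * (c + 2 * J) ≤ S) (ht : 2 * (t + 3 * I) + 4 * S ≤ S * S)
    (hlive : live p ^ (I / 2) ≤ η) (b₁ b₃ : List Bool) (y : Bool)
    (hb₁ : b₁.length = mo + mL + M) (hb₃ : b₃.length = M + mR + mo) :
    Ap ((base p S S).wd (b₁ ++ y :: b₃))
      (((J : ℝ) ^ 2)⁻¹ • ∑ a ∈ range J, ∑ a' ∈ range J,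
        (base p S S).pu mo * YL (c + a + a') * smear I (grad p S M (c + a + a')) t *
          YR (c + a + a') * (base p S S).pu mo)
      (aL * aR * (Real.sqrt (2 / (1 - p)) * (16 * Real.sqrt (p / (1 - p) * 4)) *
        Real.sqrt (((I / S + 1 : ℕ) : ℝ) / ((J : ℝ) * (I : ℝ) ^ 3))))
      (CL * CR * ((16 + 12 * Real.sqrt (2 / (1 - p))) * 81 * E ^ 4) * η) := by
  have hη := hn.hη
  have hη1 := hn.hη1
  have hv := hn.probWd
  have hI0 : (0 : ℝ) < I := by exact_mod_cast (show 0 < I by omega)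
  have hJ0 : (0 : ℝ) < J := by exact_mod_cast hJ
  have hE2 : (2 : ℝ) ≤ E := (hpuM.bd 0 (by simp)).1
  have haL := (hL.bd 0 (by simp)).a_nonneg
  have haR := (hR.bd 0 (by simp)).a_nonneg
  have hCL := (hL.bd 0 (by simp)).c_nonneg
  have hCR := (hR.bd 0 (by simp)).c_nonneg
  have hper : per S = 2 * (S * S) + S := by rw [per]; ring
  have hctr : ctr S = S * S + S / 2 := rfl
  have hk2 : ∀ k ∈ idx I J, 2 * (c + k.1.1 + k.1.2) ≤ (base p S S).A ∧
      2 * (S * (c + k.1.1 + k.1.2)) ≤ S * S := by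
    intro k hk
    simp only [idx, mem_product, mem_range] at hk
    have h : 2 * (c + k.1.1 + k.1.2) ≤ S := by omega
    exact ⟨h, by rw [mul_left_comm]; exact Nat.mul_le_mul_left S h⟩
  have hA : ∀ k ∈ idx I J, Ap ((base p S S).wd b₁)
      ((base p S S).pu mo * YL (c + k.1.1 + k.1.2) * (base p S S).pu M)
      (4 * aL) (9 * E * CL * E * η) := fun k hk =>
    (((((hpuo.bd 0 (by simp)).mul hv hη hη1 (hL.bd _ (hk2 k hk).1)).mul hv hη hη1
      (hpuM.bd 0 (by simp)))).2 b₁ hb₁).mono (le_of_eq (by ring)) (le_of_eq (by ring))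
  have hC : ∀ k ∈ idx I J, Ap ((base p S S).wd b₃)
      ((base p S S).pu M * YR (c + k.1.1 + k.1.2) * (base p S S).pu mo)
      (4 * aR) (9 * E * CR * E * η) := fun k hk =>
    (((((hpuM.bd 0 (by simp)).mul hv hη hη1 (hR.bd _ (hk2 k hk).1)).mul hv hη hη1
      (hpuo.bd 0 (by simp)))).2 b₃ hb₃).mono (le_of_eq (by ring)) (le_of_eq (by ring))
  have hμ : ∀ k ∈ idx I J, ∑ k' ∈ idx I J with
      (ctr S + S * c + t + I + S * (k.1.1 + k.1.2) + k.2.1 + if k.2.2 then I else 0) =
        (ctr S + S * c + t + I + S * (k'.1.1 + k'.1.2) + k'.2.1 + if k'.2.2 then I else 0),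
      |coef I J k'| ≤ 2 * ((I / S + 1 : ℕ) : ℝ) / ((J : ℝ) * (I : ℝ) ^ 2) := by
    intro k _
    simp only [abs_coef]
    rw [sum_const, nsmul_eq_mul]
    refine (mul_le_mul_of_nonneg_right (Nat.cast_le.2 (grad_collide (by omega) (by omega) _ k))
      (by positivity)).trans (le_of_eq ?_)
    push_cast
    field_simp
  have hpos : ∀ k ∈ idx I J, ctr S + (if y then 1 else 0) + (I / 2 - 1) + 1 ≤
      (ctr S + S * c + t + I + S * (k.1.1 + k.1.2) + k.2.1 + if k.2.2 then I else 0) ∧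
      (ctr S + S * c + t + I + S * (k.1.1 + k.1.2) + k.2.1 + if k.2.2 then I else 0) < per S := by
    intro k hk
    have h2 := (hk2 k hk).2
    simp only [idx, mem_product, mem_range] at hk
    simp only [mul_add] at h2 ⊢
    split_ifs <;> omega
  have h := ap_tri_pos h0 h1 (hv b₁) (hv b₃) (per S) (ctr S + if y then 1 else 0) (I / 2 - 1)
    (idx I J) (coef I J) _ (by split_ifs <;> omega) hpos _ _ (by positivity) (by positivity)
    hA hC hμ
  rw [sum_abs_coef (by omega) hJ] at h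
  rw [smeared_eq]
  rw [show (base p S S).wd (b₁ ++ y :: b₃) =
      (base p S S).wd b₁ * pos p (per S) (ctr S + if y then 1 else 0) * (base p S S).wd b₃ by
    rw [← ref_base p hS y, mul_assoc, Lev.wd_append]
    simp [Lev.wd, Lev.ref]]
  refine h.mono (le_of_eq ?_) ?_
  · rw [show p / (1 - p) * (2 * ((I / S + 1 : ℕ) : ℝ) / ((J : ℝ) * (I : ℝ) ^ 2)) * (2 / I) =
      p / (1 - p) * 4 * (((I / S + 1 : ℕ) : ℝ) / ((J : ℝ) * (I : ℝ) ^ 3)) by field_simp; ring,
      Real.sqrt_mul (by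
        have : 0 < 1 - p := by linarith
        positivity)]
    ring
  · rw [show I / 2 - 1 + 1 = I / 2 by omega]
    have hE1 : 1 ≤ E * E := by nlinarith
    have hA4 : 4 * aL ≤ 9 * E * CL * E := by
      have h1 := (hL.bd 0 (by simp)).1
      have h2 : CL ≤ E * E * CL := le_mul_of_one_le_left hCL hE1
      rw [show 9 * E * CL * E = 9 * (E * E * CL) by ring]; linarith
    have hB4 : 4 * aR ≤ 9 * E * CR * E := by
      have h1 := (hR.bd 0 (by simp)).1
      have h2 : CR ≤ E * E * CR := le_mul_of_one_le_left hCR hE1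
      rw [show 9 * E * CR * E = 9 * (E * E * CR) by ring]; linarith
    refine (err_arith (by omega) (Real.sqrt_nonneg _) haL haR hA4 hB4 hη hη1
      (pow_nonneg (live_pos h0 h1).le _) hlive).trans (le_of_eq ?_)
    ring

/-- **Smoothing.** The gradient of a block inside `M` pure blocks on each side, smeared over units,
and the middle smeared over slots between the outer runs. -/
theorem good_core (h0 : 0 < p) (h1 : p < 1) {S l M mo I J r mu mj : ℕ} {η c E : ℝ}
    (hn : (base p S S).NearHyp η c)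
    (hpuM : (base p S S).Fam η M (fun _ => (base p S S).pu M) 2 E)
    (hpuo : (base p S S).Fam η mo (fun _ => (base p S S).pu mo) 2 E)
    (hsm : ∀ I a m : ℕ, 1 ≤ I → 1 ≤ a → (I * a) ^ 2 * l ≤ m →
      ∀ (X : Msr) (B : ℝ), l1 X ≤ B → ∀ N N' x : ℕ, r * m ≤ N →
        r * m + a * (x + 3 * I * r) ≤ N' →
        l1 (dif I r (fun y => s0 p ^ (N + a * y) * X * s0 p ^ (N' - a * y)) x) ≤ B / 2 * η)
    (hS : 3 ≤ S) (hI : 4 ≤ I) (hJ : 1 ≤ J) (hmo : 1 ≤ mo) (hJS : 6 * J * (r + 1) ≤ S)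
    (hpos : 12 * I * (r + 1) + 8 * S ≤ S * S)
    (hmu : I ^ 2 * l ≤ mu) (hru : 4 * (r * mu) ≤ (4 * M + 1) * (S * S))
    (hmj : (J * S) ^ 2 * l ≤ mj) (hrj : r * mj + 3 * J * r * S ≤ mo * (S * S))
    (hlive : live p ^ (I / 2) ≤ η) :
    (base p S S).Good η mo M
      ((base p S S).pu M * ((base p S S).U - (base p S S).Z) * (base p S S).pu M)
      (smC p r * Real.sqrt (((I / S + 1 : ℕ) : ℝ) / ((J : ℝ) * (I : ℝ) ^ 3))) (smE p r * E ^ 4) := by
  classical
  set v := base p S S with hvdef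
  set K := Real.sqrt (2 / (1 - p)) with hK
  have hK0 : 0 ≤ K := Real.sqrt_nonneg _
  have hη := hn.hη
  have hη1 := hn.hη1
  have hv := hn.probWd
  have hs := isProb_s0 h0 h1
  have hE2 : (2 : ℝ) ≤ E := (hpuM.bd 0 (by simp)).1
  have hE4 : 1 ≤ E ^ 4 := one_le_pow₀ (by linarith)
  set ratio := ((I / S + 1 : ℕ) : ℝ) / ((J : ℝ) * (I : ℝ) ^ 3) with hratio
  have hI0 : (0 : ℝ) < I := by exact_mod_cast (show 0 < I by omega)
  have hJ0 : (0 : ℝ) < J := by exact_mod_cast hJ
  have hsq2 : Real.sqrt ratio ≤ 2 := by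
    rw [Real.sqrt_le_iff]
    refine ⟨zero_le_two, ?_⟩
    rw [hratio, div_le_iff₀ (by positivity)]
    have h1' : ((I / S + 1 : ℕ) : ℝ) ≤ (I : ℝ) + 1 := by
      exact_mod_cast Nat.succ_le_succ (Nat.div_le_self I S)
    have hI1 : (1 : ℝ) ≤ I := by exact_mod_cast (show 1 ≤ I by omega)
    have hJ1 : (1 : ℝ) ≤ J := by exact_mod_cast hJ
    have hI3 : (I : ℝ) ≤ (I : ℝ) ^ 3 := le_self_pow₀ hI1 (by norm_num)
    have : (I : ℝ) ^ 3 ≤ J * (I : ℝ) ^ 3 := le_mul_of_one_le_left (by positivity) hJ1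
    nlinarith
  refine ⟨mul_nonneg (smC_nonneg p r) (Real.sqrt_nonneg _),
    mul_nonneg (smE_nonneg p r) (by positivity), fun mL mR YL YR aL aR CL CR hL hR => ?_⟩
  have haL := (hL.bd 0 (by simp)).a_nonneg
  have haR := (hR.bd 0 (by simp)).a_nonneg
  have hCL := (hL.bd 0 (by simp)).c_nonneg
  have hCR := (hR.bd 0 (by simp)).c_nonneg
  have haC : aL * aR ≤ CL * CR := mul_le_mul (hL.bd 0 (by simp)).1 (hR.bd 0 (by simp)).1 haR hCL
  refine ⟨?_, fun b hb => ?_⟩
  · refine mul_le_mul haC ?_ (mul_nonneg (smC_nonneg p r) (Real.sqrt_nonneg _)) (by positivity)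
    calc smC p r * Real.sqrt ratio ≤ smC p r * 2 := mul_le_mul_of_nonneg_left hsq2 (smC_nonneg p r)
      _ ≤ smE p r := by
          have : 0 ≤ 4 ^ r * ((16 + 12 * K) * 81) + 10 := by positivity
          rw [smE]; linarith
      _ ≤ smE p r * E ^ 4 := le_mul_of_one_le_right (smE_nonneg p r) hE4
  -- geometry
  set L := per S with hLdef
  have hLval : L = 2 * (S * S) + S := by rw [hLdef, per]; ring
  have hctr : ctr S = S * S + S / 2 := rfl
  have hSk : ∀ k, 2 * k ≤ S → 2 * (S * k) ≤ S * S := fun k hk => by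
    rw [mul_left_comm]; exact Nat.mul_le_mul_left S hk
  have hpos' : 12 * (I * r) + 12 * I + 8 * S ≤ S * S := by
    rw [show 12 * I * (r + 1) = 12 * (I * r) + 12 * I by ring] at hpos; exact hpos
  have hJS' : 6 * (J * r) + 6 * J ≤ S := by
    rw [show 6 * J * (r + 1) = 6 * (J * r) + 6 * J by ring] at hJS; exact hJS
  -- the smearing over units
  obtain ⟨ι, _, w, τ, hτ, hw, hmain⟩ := exists_main (show 1 ≤ I by omega) r
  have hτ' : ∀ j, τ j ≤ 3 * (I * r) := fun j => by rw [← mul_assoc]; exact hτ j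
  set Q : ℕ → Msr := fun k => ∑ j, w j • smear I (grad p S M k) (0 + τ j) with hQ
  have hQshift : ∀ k, 2 * k ≤ S → SemiconjBy (v.s ^ k) (Q 0) (Q k) := by
    intro k hk
    have hk' := hSk k hk
    rw [SemiconjBy, hQ]
    simp only [Finset.mul_sum, Finset.sum_mul, mul_smul_comm, smul_mul_assoc, smear]
    refine Finset.sum_congr rfl fun j _ => ?_
    congr 2
    refine Finset.sum_congr rfl fun u hu => Finset.sum_congr rfl fun z hz => ?_
    simp only [mem_range] at hu hz
    have := hτ' j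
    exact grad_shift p (by omega)
  have hQ0 : v.pu M * (v.U - v.Z) * v.pu M = dif I r (grad p S M 0) 0 + Q 0 := by
    rw [← hmain (grad p S M 0) 0]
    rw [grad, hvdef, base_U p hS, base_Z p (by omega)]
    simp
  have hX2 : l1 (s0 p * dd p - dd p * s0 p) ≤ 2 := l1_sub_prob_le (hs.mul (isProb_dd h0 h1))
    ((isProb_dd h0 h1).mul hs)
  have hdifu : l1 (dif I r (grad p S M 0) 0) ≤ η := by
    obtain ⟨κ, _, u, σ, hσ, -, hrep⟩ := exists_dif_rep (show 1 ≤ I by omega) r
    rw [hrep, Finset.sum_congr rfl fun j _ => by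
      rw [zero_add, grad_margins p (show ctr S + S * 0 + σ j + 1 < per S by
        have hσj := hσ j
        rw [mul_assoc] at hσj
        omega)]]
    have e4 : per S * M = 2 * (M * (S * S)) + S * M := by rw [per]; ring
    rw [show (4 * M + 1) * (S * S) = 4 * (M * (S * S)) + S * S by ring] at hru
    have h := hsm I 1 mu (by omega) le_rfl (by simpa using hmu) _ 2 hX2
      (per S * M + ctr S + S * 0) (per S * M + (per S - 2 - ctr S - S * 0)) 0 (by omega)
      (by rw [mul_assoc 3]; omega)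
    rw [div_self (two_ne_zero' ℝ), one_mul] at h
    simpa only [hrep, zero_add] using h
  have hgrad0 : l1 (v.pu M * (v.U - v.Z) * v.pu M) ≤ 2 := by
    have hp : IsProb (v.pu M) := (hn.prob.pow _).pow _
    exact ((l1_mul_prob_right hp _).trans (l1_mul_prob_left hp _)).trans
      (l1_sub_prob_le (hn.probR true) (hn.probR false))
  have hQl : l1 (Q 0) ≤ 3 := by
    have : Q 0 = v.pu M * (v.U - v.Z) * v.pu M - dif I r (grad p S M 0) 0 := by
      rw [hQ0, add_sub_cancel_left]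
    rw [this]
    refine (l1_sub_le _ _).trans ?_
    linarith
  have hpo : IsProb (v.pu mo) := (hn.prob.pow _).pow _
  have hYL : l1 (YL 0) ≤ 2 * CL := (hL.bd 0 (by simp)).l1_le hv hη1
  have hYR : l1 (YR 0) ≤ 2 * CR := (hR.bd 0 (by simp)).l1_le hv hη1
  -- the smearing over slots
  set H : ℕ → Msr := fun k => v.pu mo * (YL k * Q k * YR k) * v.pu mo with hH
  obtain ⟨κ', _, w', τ', hτ2, hw', hmain'⟩ := exists_main hJ r
  have hτ2' : ∀ j, τ' j ≤ 3 * (J * r) := fun j => by rw [← mul_assoc]; exact hτ2 j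
  have hdifH : l1 (dif J r H 0) ≤ 6 * CL * CR * η := by
    obtain ⟨κ, _, u, σ, hσ, -, hrep⟩ := exists_dif_rep hJ r
    have hHm : ∀ k, 2 * k ≤ S → H k = s0 p ^ (per S * mo + S * k) * (YL 0 * Q 0 * YR 0) *
        s0 p ^ (per S * mo - S * k) := by
      intro k hk
      have hk' := hSk k hk
      have hsemi := ((hL.shift k hk).mul_right (hQshift k hk)).mul_right (hR.shift k hk)
      have hle : S * k ≤ per S * mo := by
        calc S * k ≤ per S := by rw [hLdef] at hLval; omega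
          _ ≤ per S * mo := Nat.le_mul_of_pos_right _ hmo
      simp only [hH, hvdef, base_pu]
      rw [pow_add, mul_assoc (s0 p ^ (per S * mo)) (s0 p ^ (S * k))]
      rw [show s0 p ^ (S * k) = v.s ^ k by rw [hvdef, base_s, pow_mul], hsemi.eq]
      simp only [hvdef, base_s, ← pow_mul, mul_assoc, ← pow_add, Nat.add_sub_cancel' hle]
    rw [hrep, Finset.sum_congr rfl fun j _ => by
      rw [zero_add, hHm (σ j) (by have hσj := hσ j; rw [mul_assoc] at hσj; omega)]]
    have hl : l1 (YL 0 * Q 0 * YR 0) ≤ 12 * CL * CR := by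
      refine (l1_mul_le _ _).trans ?_
      calc _ ≤ 2 * CL * 3 * (2 * CR) := by
            refine mul_le_mul ((l1_mul_le _ _).trans ?_) hYR (l1_nonneg _) (by positivity)
            exact mul_le_mul hYL hQl (l1_nonneg _) (by positivity)
        _ = _ := by ring
    have hper : per S * mo = 2 * (mo * (S * S)) + S * mo := by rw [per]; ring
    rw [show 3 * J * r * S = S * (3 * J * r) by ring] at hrj
    have h := hsm J S mj hJ (by omega) hmj _ _ hl (per S * mo) (per S * mo) 0 (by omega)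
      (by rw [zero_add]; omega)
    simp only [hrep, zero_add] at h
    exact h.trans_eq (by ring)
  -- decomposition
  have hterm : v.pu mo * YL 0 * (v.pu M * (v.U - v.Z) * v.pu M) * YR 0 * v.pu mo =
      (v.pu mo * YL 0 * dif I r (grad p S M 0) 0 * YR 0 * v.pu mo + dif J r H 0) +
        ∑ j', w' j' • smear J H (0 + τ' j') := by
    rw [hQ0, add_assoc, ← hmain' H 0]
    simp only [hH, mul_add, add_mul, mul_assoc]
  rw [hterm]
  have hsmallAp : Ap (v.wd b)
      (v.pu mo * YL 0 * dif I r (grad p S M 0) 0 * YR 0 * v.pu mo + dif J r H 0)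
      0 (10 * CL * CR * η) := by
    refine Ap.of_l1 _ ((l1_add_le _ _).trans ?_)
    have : l1 (v.pu mo * YL 0 * dif I r (grad p S M 0) 0 * YR 0 * v.pu mo) ≤ 4 * CL * CR * η := by
      refine (l1_mul_prob_right hpo _).trans ((l1_mul_le _ _).trans ?_)
      calc _ ≤ 2 * CL * η * (2 * CR) := by
            refine mul_le_mul ((l1_mul_le _ _).trans ?_) hYR (l1_nonneg _) (by positivity)
            exact mul_le_mul ((l1_mul_prob_left hpo _).trans hYL) hdifu (l1_nonneg _) (by positivity)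
        _ = _ := by ring
    linarith
  -- the word around the middle block
  obtain ⟨b₁, y, b₃, rfl, hb₁⟩ : ∃ b₁ y b₃, b = b₁ ++ y :: b₃ ∧ b₁.length = mo + mL + M :=
    ⟨b.take (mo + mL + M), b[mo + mL + M]'(by omega), b.drop (mo + mL + M + 1), by
      rw [← List.drop_eq_getElem_cons, List.take_append_drop], by simp; omega⟩
  have hb₃ : b₃.length = M + mR + mo := by
    simp only [List.length_append, List.length_cons] at hb; omega
  -- the main part
  have hmainAp : ∀ j' j, Ap (v.wd (b₁ ++ y :: b₃))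
      (((J : ℝ) ^ 2)⁻¹ • ∑ a ∈ range J, ∑ a' ∈ range J,
        v.pu mo * YL (0 + τ' j' + J + a + a') *
          smear I (grad p S M (0 + τ' j' + J + a + a')) (0 + τ j) *
          YR (0 + τ' j' + J + a + a') * v.pu mo)
      (aL * aR * (K * (16 * Real.sqrt (p / (1 - p) * 4)) * Real.sqrt ratio))
      (CL * CR * ((16 + 12 * K) * 81 * E ^ 4) * η) := by
    intro j' j
    have hj := hτ' j
    have hj' := hτ2' j'
    exact ap_middle h0 h1 hn hpuM hpuo hL hR hI hJ hS (by omega) (by omega) hlive b₁ b₃ y hb₁ hb₃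
  -- summation
  have hsmearH : ∀ j', smear J H (0 + τ' j') = ∑ j, w j • (((J : ℝ) ^ 2)⁻¹ • ∑ a ∈ range J,
      ∑ a' ∈ range J, v.pu mo * YL (0 + τ' j' + J + a + a') *
        smear I (grad p S M (0 + τ' j' + J + a + a')) (0 + τ j) *
        YR (0 + τ' j' + J + a + a') * v.pu mo) := by
    intro j'
    rw [smear]
    simp only [Finset.smul_sum, smul_smul]
    rw [Finset.sum_comm (γ := ι)]
    refine Finset.sum_congr rfl fun a _ => ?_
    rw [Finset.sum_comm (γ := ι)]
    refine Finset.sum_congr rfl fun a' _ => ?_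
    simp only [hH, hQ, Finset.mul_sum, Finset.sum_mul, Finset.smul_sum, mul_smul_comm,
      smul_mul_assoc, smul_smul, mul_assoc]
    exact Finset.sum_congr rfl fun j _ => by rw [mul_comm]
  have hB0 : 0 ≤ aL * aR * (K * (16 * Real.sqrt (p / (1 - p) * 4)) * Real.sqrt ratio) := by
    positivity
  have hE0 : 0 ≤ CL * CR * ((16 + 12 * K) * 81 * E ^ 4) * η := by positivity
  have hsum := Ap.comb (hv _) w' _ (by positivity) (by positivity) hw' fun j' =>
    (Ap.comb (hv (b₁ ++ y :: b₃)) w _ hB0 hE0 hw fun j => hmainAp j' j).congr (hsmearH j').symm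
  refine (hsmallAp.add (hv _) hsum).mono (le_of_eq ?_) ?_
  · rw [smC, show (4 : ℝ) ^ r = 2 ^ r * 2 ^ r by rw [← mul_pow]; norm_num, ← hK]
    ring
  · rw [smE, ← hK, show (4 : ℝ) ^ r = 2 ^ r * 2 ^ r by rw [← mul_pow]; norm_num]
    have h2C : 0 ≤ 2 * smC p r * E ^ 4 := by have := smC_nonneg p r; positivity
    have q : 10 * CL * CR * η ≤ CL * CR * ((10 + 2 * smC p r) * E ^ 4) * η := by
      have : 10 ≤ (10 + 2 * smC p r) * E ^ 4 := by nlinarith
      calc 10 * CL * CR * η = CL * CR * 10 * η := by ring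
        _ ≤ _ := by gcongr
    refine (add_le_add q le_rfl).trans (le_of_eq ?_)
    ring

end Vale.Agent.P321.Super
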