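import Vale.Agent.P321.Super.Threshold
import Vale.Agent.P321.Super.Levels

/-!
# P321: the comparison at the first level, in the form used by the induction
-/

namespace Vale.Agent.P321.Super

variable {p : ℝ}

/-- The comparison at the first level holds. -/
theorem thresh_stmt (h0 : 0 < p) (h1 : p < 1) : ThreshStmt p := base_threshold h0 h1

end Vale.Agent.P321.Super
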