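import Vale.Agent.P321.Super.Thin

/-!
# P321: two independent thinnings rarely share marked indices

`ee θ x r r'` is the mean of `∏ (1 + x)` over the aligned entries of two independent thinnings, on
the event that they have equal length. Its excess over the bare event is small when the marks are
far apart and every mark of interest is followed by a long tail.
-/

namespace Vale.Agent.P321.Super

open Finset

variable {α : Type*} {θ : ℝ}

/-- The product of `1 + x` over aligned entries, zero for lists of different lengths. -/
def coll (x : α → α → ℝ) : List α → List α → ℝ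
  | [], [] => 1
  | t :: τ, s :: σ => (1 + x t s) * coll x τ σ
  | _, _ => 0

/-- The mean of `coll x` over two independent thinnings. -/
noncomputable def ee (θ : ℝ) (x : α → α → ℝ) (r r' : List α) : ℝ :=
  thin θ r fun τ => thin θ r' (coll x τ)

theorem coll_zero (τ σ : List α) :
    coll (fun _ _ => 0) τ σ = if τ.length = σ.length then 1 else 0 := by
  induction τ generalizing σ with
  | nil => cases σ <;> simp [coll]
  | cons t τ ih => cases σ <;> simp [coll, ih]

theorem coll_expand (x : α → α → ℝ) (τ σ : List α) {N : ℕ} (hN : τ.length ≤ N) :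
    coll x τ σ = coll (fun _ _ => 0) τ σ + ∑ i ∈ range N,
      nth i (fun t τ' => nth i (fun s σ' => x t s * coll x τ' σ') σ) τ := by
  induction τ generalizing σ N with
  | nil => cases σ <;> simp [coll, nth]
  | cons t τ ih =>
    obtain ⟨M, rfl⟩ : ∃ M, N = M + 1 := ⟨N - 1, by simp at hN; omega⟩
    cases σ with
    | nil =>
      have hz : ∀ i (τ : List α), nth i (fun _ _ => (0 : ℝ)) τ = 0 := by
        intro i τ
        induction τ generalizing i with
        | nil => simp [nth]
        | cons t τ ih => cases i <;> simp [nth, ih]
      simp [coll, nth, hz]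
    | cons s σ =>
      rw [Finset.sum_range_succ']
      simp only [coll, nth]
      rw [add_zero, one_mul, ← add_assoc, ← ih σ (N := M) (by simpa using hN)]
      ring

theorem thin_length_eq (r : List α) (n : ℕ) :
    thin θ r (fun τ => if τ.length = n then (1 : ℝ) else 0) = binW θ r.length n := by
  induction r generalizing n with
  | nil => cases n <;> simp [thin, binW]
  | cons t r ih =>
    cases n with
    | zero =>
      simp only [thin, List.length_cons, Nat.succ_ne_zero, if_false, thin_const, ih, binW_succ_zero,
        smul_eq_mul, mul_zero, add_zero]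
    | succ n => simp [thin, ih, binW_succ_succ]; ring

theorem ee_zero_le (h0 : 0 < θ) (h1 : θ < 1) (r r' : List α) {K : ℝ} (hK : 0 < K)
    (hr : K ≤ r.length + 1) :
    ee θ (fun _ _ => 0) r r' ≤ Real.sqrt (1 / (2 * min θ (1 - θ) * K)) := by
  have hm : 0 < min θ (1 - θ) := lt_min h0 (by linarith)
  rw [ee, thin_swap]
  refine (thin_mono h0.le h1.le r' fun σ => ?_).trans_eq (thin_const _ _)
  simp only [coll_zero]
  rw [thin_length_eq]
  refine (binW_le h0 h1 _ _).trans (Real.sqrt_le_sqrt ?_)
  gcongr

theorem spaced_suffix {d : α → ℝ} {g : ℕ} {ts r : List α} {t : α}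
    (hts : Spaced g (marks d ts)) (hs : (t :: r) <:+ ts) (ht : d t ≠ 0) :
    Spaced g (marks d r) ∧ (marks d r).card ≤ (marks d ts).card := by
  obtain ⟨pre, rfl⟩ := hs
  have hshift : ∀ j, markAt d (pre ++ t :: r) (pre.length + 1 + j) = markAt d r j := by
    intro j
    simp only [markAt, List.map_append, List.map_cons, List.getD_eq_getElem?_getD]
    rw [List.getElem?_append_right (by simp; omega)]
    simp [show pre.length + 1 + j - pre.length = j + 1 by omega]
  have hmem : ∀ j ∈ marks d r, pre.length + 1 + j ∈ marks d (pre ++ t :: r) := by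
    intro j hj
    simp only [marks, Finset.mem_filter, mem_range, hshift, List.length_append,
      List.length_cons] at hj ⊢
    exact ⟨by omega, hj.2⟩
  have hbase : pre.length ∈ marks d (pre ++ t :: r) := by
    simp [marks, markAt, List.getD_eq_getElem?_getD, ht]
  refine ⟨fun j hj => ⟨?_, fun j' hj' hlt => ?_⟩, ?_⟩
  · have := (hts _ (hmem j hj)).2 _ hbase (by omega)
    omega
  · have := (hts _ (hmem j hj)).2 _ (hmem j' hj') (by omega)
    omega
  · exact Finset.card_le_card_of_injOn (fun j => pre.length + 1 + j) hmem
      fun a _ b _ h => by simpa using h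

theorem nth_zero_fun (i : ℕ) (τ : List α) : nth i (fun _ _ => (0 : ℝ)) τ = 0 := by
  induction τ generalizing i with
  | nil => simp [nth]
  | cons t τ ih => cases i <;> simp [nth, ih]

theorem thin_nth_mul (r : List α) (i : ℕ) (c : ℝ) (G : α → List α → ℝ) :
    thin θ r (nth i fun t τ => c * G t τ) = c * thin θ r (nth i G) := by
  rw [show (nth i fun t τ => c * G t τ) = fun τ => c • nth i G τ from
    funext fun τ => nth_smul i c G τ, thin_smul, smul_eq_mul]

theorem hit_nonneg (h0 : 0 ≤ θ) (h1 : θ ≤ 1) {d : α → ℝ} (hd : ∀ t, 0 ≤ d t) (r : List α)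
    (i : ℕ) : 0 ≤ hit θ d r i :=
  (thin_const (θ := θ) r (0 : ℝ)).ge.trans (thin_mono h0 h1 r fun τ =>
    (nth_zero_fun i τ).ge.trans (nth_mono i (fun t _ => hd t) τ))

/-- The starting points of the recursion: the whole list, and the tails after marks. -/
def Start (u : α → ℝ) (ts r : List α) : Prop := r = ts ∨ ∃ t, (t :: r) <:+ ts ∧ u t ≠ 0

theorem Start.suffix {u : α → ℝ} {ts r : List α} (h : Start u ts r) : r <:+ ts := by
  rcases h with rfl | ⟨t, ht, -⟩
  · exact List.suffix_rfl
  · exact (List.suffix_cons t r).trans ht

/-- The first shared mark, followed by the same bound for the tails. -/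
theorem ee_le (h0 : 0 ≤ θ) (h1 : θ ≤ 1) {a : ℝ} (ha : 0 ≤ a) {u d : α → ℝ}
    (hu : ∀ t, 0 ≤ u t) (hud : ∀ t, u t ≤ d t) {ts : List α} {M B : ℝ}
    (hM : ∀ r, Start d ts r → ∑ i ∈ range ts.length, hit θ d r i ^ 2 ≤ M)
    (hB : ∀ r r', Start u ts r → ee θ (fun _ _ => 0) r r' ≤ B) (haM : a * M ≤ 1 / 2) :
    ee θ (fun t s => a * (u t * d s)) ts ts - ee θ (fun _ _ => 0) ts ts ≤ 2 * a * M * B := by
  set x : α → α → ℝ := fun t s => a * (u t * d s) with hx
  have hd : ∀ t, 0 ≤ d t := fun t => (hu t).trans (hud t)
  have hee0 : ∀ r r', 0 ≤ ee θ (fun _ _ => 0) r (r' : List α) := fun r r' => by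
    refine (thin_const (θ := θ) r (0 : ℝ)).ge.trans (thin_mono h0 h1 r fun τ => ?_)
    refine (thin_const (θ := θ) r' (0 : ℝ)).ge.trans (thin_mono h0 h1 r' fun σ => ?_)
    rw [coll_zero]; split_ifs <;> norm_num
  have hB0 : 0 ≤ B := (hee0 ts ts).trans (hB ts ts (Or.inl rfl))
  have key : ∀ n, ∀ r r', r.length ≤ n → Start u ts r → Start d ts r' →
      ee θ x r r' - ee θ (fun _ _ => 0) r r' ≤ 2 * a * M * B ∧ ee θ x r r' ≤ 2 * B := by
    intro n
    induction n using Nat.strong_induction_on with
    | _ n ih =>
      intro r r' hn hr hr'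
      have hN : r.length ≤ ts.length := hr.suffix.length_le
      have hsd : Start d ts r := by
        rcases hr with h | ⟨t, ht, hut⟩
        · exact Or.inl h
        · exact Or.inr ⟨t, ht, ((lt_of_le_of_ne (hu t) (Ne.symm hut)).trans_le (hud t)).ne'⟩
      have hterm : ∀ i, thin θ r (nth i fun t τ' => thin θ r'
            (nth i fun s σ' => x t s * coll x τ' σ')) ≤
          a * (2 * B) * (hit θ d r i * hit θ d r' i) := by
        intro i
        have hinner : ∀ t post, (t :: post) <:+ r →
            thin θ post (fun τ' => thin θ r' (nth i fun s σ' => x t s * coll x τ' σ')) ≤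
              a * (2 * B) * hit θ d r' i * d t := by
          intro t post hs
          rcases eq_or_ne (u t) 0 with hut | hut
          · refine le_of_eq_of_le ?_ (mul_nonneg (mul_nonneg (by positivity)
              (hit_nonneg h0 h1 hd r' i)) (hd t))
            simp [hx, hut, thin_const, show nth i (fun (_ : α) (_ : List α) => (0 : ℝ)) = fun _ => 0 from
              funext (nth_zero_fun i)]
          · have hpost : Start u ts post := Or.inr ⟨t, hs.trans hr.suffix, hut⟩
            have hlen : post.length < n :=
              lt_of_lt_of_le (Nat.lt_succ_self _) ((hs.length_le).trans hn)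
            rw [thin_swap]
            simp only [thin_nth_comm]
            refine (thin_nth_le h0 h1 r' i (H := fun s => a * (2 * B) * u t * d s)
              fun s post' hs' => ?_).trans ?_
            · rcases eq_or_ne (d s) 0 with hds | hds
              · simp [hx, hds, thin_const]
              · have hb := (ih post.length hlen post post' le_rfl hpost
                  (Or.inr ⟨s, hs'.trans hr'.suffix, hds⟩)).2
                simp only [← smul_eq_mul (x t s), thin_smul]
                rw [smul_eq_mul, thin_swap]
                refine (mul_le_mul_of_nonneg_left hb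
                  (mul_nonneg ha (mul_nonneg (hu t) (hd s)))).trans_eq ?_
                ring
            · rw [thin_nth_mul, mul_right_comm _ (u t)]
              exact mul_le_mul_of_nonneg_left (hud t) (mul_nonneg (by positivity)
                (hit_nonneg h0 h1 hd r' i))
        refine (thin_nth_le h0 h1 r i hinner).trans_eq ?_
        rw [thin_nth_mul]
        show a * (2 * B) * hit θ d r' i * hit θ d r i = _
        ring
      have hexp : ee θ x r r' = ee θ (fun _ _ => 0) r r' + ∑ i ∈ range ts.length,
          thin θ r (nth i fun t τ' => thin θ r' (nth i fun s σ' => x t s * coll x τ' σ')) := by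
        rw [ee, ee, ← thin_sum, ← thin_add]
        refine thin_congr fun τ hτ => ?_
        simp only [← thin_nth_comm]
        rw [← thin_sum, ← thin_add]
        exact thin_congr fun σ _ => coll_expand x τ σ (hτ.trans hN)
      have hdiff : ee θ x r r' - ee θ (fun _ _ => 0) r r' ≤ 2 * a * M * B := by
        rw [hexp, add_sub_cancel_left]
        refine (Finset.sum_le_sum fun i _ => hterm i).trans ?_
        rw [← Finset.mul_sum]
        have hh : ∑ i ∈ range ts.length, hit θ d r i * hit θ d r' i ≤ M := by
          have := hM r hsd
          have := hM r' hr'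
          calc ∑ i ∈ range ts.length, hit θ d r i * hit θ d r' i
              ≤ ∑ i ∈ range ts.length, ((hit θ d r i ^ 2 + hit θ d r' i ^ 2) / 2) :=
                Finset.sum_le_sum fun i _ => by
                  nlinarith [sq_nonneg (hit θ d r i - hit θ d r' i)]
            _ ≤ M := by rw [← Finset.sum_div, Finset.sum_add_distrib]; linarith
        refine (mul_le_mul_of_nonneg_left hh (by positivity)).trans_eq ?_
        ring
      refine ⟨hdiff, ?_⟩
      nlinarith [hB r r' hr, mul_le_mul_of_nonneg_right haM hB0]
  exact (key ts.length ts ts le_rfl (Or.inl rfl) (Or.inl rfl)).1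

end Vale.Agent.P321.Super
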