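import Vale.Agent.P321.Super.Basic

/-!
# P321: weighted quadratic norms relative to a reference law

`Ap R μ a ε` says that `μ` is, up to total variation `ε`, a density times `R` whose quadratic norm
under `R` is at most `a`.
-/

namespace Vale.Agent.P321.Super

open Finset
open MonoidAlgebra (single)

/-- The measure with density `f` relative to `R`. -/
noncomputable def dens (R : Msr) (f : W → ℝ) : Msr :=
  ∑ t ∈ R.coeff.support, single t (R.coeff t * f t)

/-- The inner product of two densities. -/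
noncomputable def ip (R : Msr) (f g : W → ℝ) : ℝ :=
  ∑ t ∈ R.coeff.support, R.coeff t * (f t * g t)

theorem coeff_dens (R : Msr) (f : W → ℝ) (t : W) : (dens R f).coeff t = R.coeff t * f t := by
  classical
  simp [dens, Finsupp.single_apply]
  intro h
  simp [h]

theorem dens_one (R : Msr) : dens R (fun _ => 1) = R := by
  ext t
  simp [coeff_dens]

theorem dens_add (R : Msr) (f g : W → ℝ) : dens R (f + g) = dens R f + dens R g := by
  ext t
  simp [coeff_dens, mul_add]

theorem dens_smul (R : Msr) (c : ℝ) (f : W → ℝ) : dens R (c • f) = c • dens R f := by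
  ext t
  simp [coeff_dens]
  ring

theorem dens_zero (R : Msr) : dens R 0 = 0 := by
  ext t
  simp [coeff_dens]

theorem mass_dens (R : Msr) (f : W → ℝ) : mass (dens R f) = ip R f fun _ => 1 := by
  simp [dens, ip, map_sum, mass_single]

theorem l1_dens (R : Msr) (hR : IsProb R) (f : W → ℝ) :
    l1 (dens R f) = ∑ t ∈ R.coeff.support, R.coeff t * |f t| := by
  rw [l1_eq_sum (s := R.coeff.support) fun t ht => by
    simp only [Finsupp.mem_support_iff, coeff_dens] at ht ⊢
    exact left_ne_zero_of_mul ht]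
  simp [coeff_dens, abs_mul, abs_of_nonneg (hR.nonneg _)]

theorem ip_one {R : Msr} (hR : IsProb R) : ip R (fun _ => 1) (fun _ => 1) = 1 := by
  rw [← mass_dens, dens_one, hR.mass_one]

theorem ip_comm (R : Msr) (f g : W → ℝ) : ip R f g = ip R g f := by simp [ip, mul_comm (f _)]

theorem ip_add_left (R : Msr) (f g h : W → ℝ) : ip R (f + g) h = ip R f h + ip R g h := by
  simp [ip, add_mul, mul_add, sum_add_distrib]

theorem ip_smul_left (R : Msr) (c : ℝ) (f g : W → ℝ) : ip R (c • f) g = c * ip R f g := by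
  simp only [ip, mul_sum, Pi.smul_apply, smul_eq_mul]
  exact Finset.sum_congr rfl fun t _ => by ring

theorem ip_self_nonneg {R : Msr} (hR : IsProb R) (f : W → ℝ) : 0 ≤ ip R f f :=
  Finset.sum_nonneg fun t _ => mul_nonneg (hR.nonneg t) (mul_self_nonneg _)

theorem abs_ip_le {R : Msr} (hR : IsProb R) (f g : W → ℝ) :
    |ip R f g| ≤ Real.sqrt (ip R f f) * Real.sqrt (ip R g g) := by
  have h := Finset.sum_mul_sq_le_sq_mul_sq R.coeff.support
    (fun t => Real.sqrt (R.coeff t) * f t) fun t => Real.sqrt (R.coeff t) * g t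
  have e : ∀ u v : W → ℝ, ip R u v =
      ∑ t ∈ R.coeff.support, (Real.sqrt (R.coeff t) * u t) * (Real.sqrt (R.coeff t) * v t) :=
    fun u v => Finset.sum_congr rfl fun t _ => by
      rw [mul_mul_mul_comm, Real.mul_self_sqrt (hR.nonneg t)]
  rw [← Real.sqrt_mul (ip_self_nonneg hR f), ← Real.sqrt_sq_eq_abs]
  refine Real.sqrt_le_sqrt ?_
  rw [e f g, e f f, e g g]
  simpa only [sq] using h

theorem l1_dens_le {R : Msr} (hR : IsProb R) (f : W → ℝ) :
    l1 (dens R f) ≤ Real.sqrt (ip R f f) := by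
  have h := abs_ip_le hR (fun t => |f t|) fun _ => 1
  have h1 := ip_one hR
  have h2 : ip R (fun t => |f t|) (fun t => |f t|) = ip R f f := by simp [ip, abs_mul_abs_self]
  rw [h1, h2, Real.sqrt_one, mul_one] at h
  rw [l1_dens R hR]
  refine le_trans (le_abs_self _) ?_
  simpa [ip] using h

/-- Pushing a finite weighted space forward does not increase the quadratic norm. -/
theorem exists_dens_push {ι : Type*} (X : Finset ι) (φ : ι → W) (ρ F : ι → ℝ) (hρ : ∀ x, 0 ≤ ρ x)
    {R : Msr} (hR : R = ∑ x ∈ X, single (φ x) (ρ x)) :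
    ∃ h : W → ℝ, (∑ x ∈ X, single (φ x) (ρ x * F x)) = dens R h ∧
      ip R h h ≤ ∑ x ∈ X, ρ x * (F x * F x) := by
  classical
  have hc : ∀ (G : ι → ℝ) (t : W), (∑ x ∈ X, single (φ x) (G x) : Msr).coeff t =
      ∑ x ∈ X.filter (fun x => φ x = t), G x := fun G t => by
    rw [Finset.sum_filter]
    simp [Finsupp.single_apply]
  have hRt : ∀ t, R.coeff t = ∑ x ∈ X.filter (fun x => φ x = t), ρ x := fun t => by rw [hR, hc]
  set a : W → ℝ := fun t => ∑ x ∈ X.filter (fun x => φ x = t), ρ x * F x with ha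
  set b : W → ℝ := fun t => ∑ x ∈ X.filter (fun x => φ x = t), ρ x * (F x * F x) with hb
  have hcs : ∀ t, a t ^ 2 ≤ R.coeff t * b t := fun t => by
    rw [hRt]
    refine Finset.sum_sq_le_sum_mul_sum_of_sq_le_mul _ (fun x _ => hρ x)
      (fun x _ => mul_nonneg (hρ x) (mul_self_nonneg _)) fun x _ => ?_
    exact le_of_eq (by ring)
  refine ⟨fun t => a t / R.coeff t, ?_, ?_⟩
  · ext t
    rw [coeff_dens, hc]
    by_cases h0 : R.coeff t = 0
    · have : a t = 0 := by
        have := hcs t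
        rw [h0, zero_mul] at this
        exact pow_eq_zero_iff (n := 2) (by norm_num) |>.1 (le_antisymm this (sq_nonneg _))
      rw [h0, zero_mul]
      exact this
    · rw [mul_div_cancel₀ _ h0]
  · calc ip R (fun t => a t / R.coeff t) (fun t => a t / R.coeff t)
        ≤ ∑ t ∈ R.coeff.support, b t := by
          refine Finset.sum_le_sum fun t ht => ?_
          have h0 : R.coeff t ≠ 0 := Finsupp.mem_support_iff.1 ht
          have hp : 0 < R.coeff t := lt_of_le_of_ne
            (by rw [hRt]; exact Finset.sum_nonneg fun x _ => hρ x) (Ne.symm h0)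
          rw [show R.coeff t * (a t / R.coeff t * (a t / R.coeff t)) = a t ^ 2 / R.coeff t by
            field_simp, div_le_iff₀ hp, mul_comm]
          exact hcs t
      _ ≤ ∑ t ∈ R.coeff.support ∪ X.image φ, b t :=
          Finset.sum_le_sum_of_subset_of_nonneg subset_union_left fun t _ _ =>
            Finset.sum_nonneg fun x _ => mul_nonneg (hρ x) (mul_self_nonneg _)
      _ = ∑ x ∈ X, ρ x * (F x * F x) :=
          Finset.sum_fiberwise_of_maps_to
            (fun x hx => mem_union_right _ (mem_image_of_mem φ hx)) _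

theorem exists_dens_mul {R S : Msr} (hR : IsProb R) (hS : IsProb S) (f g : W → ℝ) :
    ∃ h : W → ℝ, dens R f * dens S g = dens (R * S) h ∧
      ip (R * S) h h ≤ ip R f f * ip S g g := by
  obtain ⟨h, e, hh⟩ := exists_dens_push (R.coeff.support ×ˢ S.coeff.support)
    (fun x => x.1 * x.2) (fun x => R.coeff x.1 * S.coeff x.2) (fun x => f x.1 * g x.2)
    (fun x => mul_nonneg (hR.nonneg _) (hS.nonneg _)) (R := R * S) (by
      conv_lhs => rw [expand R, expand S]
      rw [Finset.sum_mul_sum, Finset.sum_product]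
      simp)
  refine ⟨h, ?_, hh.trans_eq ?_⟩
  · rw [← e, dens, dens, Finset.sum_mul_sum, Finset.sum_product]
    exact Finset.sum_congr rfl fun s _ => Finset.sum_congr rfl fun t _ => by
      rw [MonoidAlgebra.single_mul_single]; congr 1; ring
  · rw [ip, ip, Finset.sum_mul_sum, Finset.sum_product]
    exact Finset.sum_congr rfl fun s _ => Finset.sum_congr rfl fun t _ => by ring

/-- `μ` has quadratic norm at most `a` relative to `R`, up to total variation `ε`. -/
def Ap (R μ : Msr) (a ε : ℝ) : Prop :=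
  ∃ f : W → ℝ, Real.sqrt (ip R f f) ≤ a ∧ l1 (μ - dens R f) ≤ ε

theorem Ap.nonneg {R μ : Msr} {a ε : ℝ} (h : Ap R μ a ε) : 0 ≤ a ∧ 0 ≤ ε := by
  obtain ⟨f, h1, h2⟩ := h
  exact ⟨(Real.sqrt_nonneg _).trans h1, (l1_nonneg _).trans h2⟩

theorem Ap.mono {R μ : Msr} {a a' ε ε' : ℝ} (h : Ap R μ a ε) (ha : a ≤ a') (hε : ε ≤ ε') :
    Ap R μ a' ε' := by
  obtain ⟨f, h1, h2⟩ := h
  exact ⟨f, h1.trans ha, h2.trans hε⟩

theorem Ap.self {R : Msr} (hR : IsProb R) : Ap R R 1 0 := by
  refine ⟨fun _ => 1, ?_, by simp [dens_one]⟩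
  rw [ip_one hR, Real.sqrt_one]

theorem Ap.zero (R : Msr) : Ap R 0 0 0 := ⟨0, by simp [ip], by simp [dens_zero]⟩

theorem Ap.of_l1 (R : Msr) {μ : Msr} {ε : ℝ} (h : l1 μ ≤ ε) : Ap R μ 0 ε :=
  ⟨0, by simp [ip], by simpa [dens_zero] using h⟩

theorem Ap.l1_le {R μ : Msr} (hR : IsProb R) {a ε : ℝ} (h : Ap R μ a ε) : l1 μ ≤ a + ε := by
  obtain ⟨f, h1, h2⟩ := h
  calc l1 μ = l1 (dens R f + (μ - dens R f)) := by rw [add_sub_cancel]
    _ ≤ _ := (l1_add_le _ _).trans (add_le_add ((l1_dens_le hR f).trans h1) h2)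

theorem sqrt_ip_add_le {R : Msr} (hR : IsProb R) (f g : W → ℝ) :
    Real.sqrt (ip R (f + g) (f + g)) ≤ Real.sqrt (ip R f f) + Real.sqrt (ip R g g) := by
  rw [Real.sqrt_le_iff]
  refine ⟨add_nonneg (Real.sqrt_nonneg _) (Real.sqrt_nonneg _), ?_⟩
  have e : ip R (f + g) (f + g) = ip R f f + 2 * ip R f g + ip R g g := by
    simp only [ip, Pi.add_apply, mul_sum, ← sum_add_distrib]
    exact Finset.sum_congr rfl fun t _ => by ring
  nlinarith [abs_ip_le hR f g, le_abs_self (ip R f g), Real.sq_sqrt (ip_self_nonneg hR f),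
    Real.sq_sqrt (ip_self_nonneg hR g)]

theorem Ap.add {R μ ν : Msr} (hR : IsProb R) {a b ε δ : ℝ} (h : Ap R μ a ε) (h' : Ap R ν b δ) :
    Ap R (μ + ν) (a + b) (ε + δ) := by
  obtain ⟨f, h1, h2⟩ := h
  obtain ⟨g, g1, g2⟩ := h'
  refine ⟨f + g, (sqrt_ip_add_le hR f g).trans (add_le_add h1 g1), ?_⟩
  rw [dens_add, add_sub_add_comm]
  exact (l1_add_le _ _).trans (add_le_add h2 g2)

theorem Ap.smul {R μ : Msr} {a ε : ℝ} (c : ℝ) (h : Ap R μ a ε) :
    Ap R (c • μ) (|c| * a) (|c| * ε) := by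
  obtain ⟨f, h1, h2⟩ := h
  refine ⟨c • f, ?_, ?_⟩
  · have : ip R (c • f) (c • f) = c ^ 2 * ip R f f := by
      simp only [ip, Pi.smul_apply, smul_eq_mul, mul_sum]
      exact Finset.sum_congr rfl fun t _ => by ring
    rw [this, Real.sqrt_mul (sq_nonneg c), Real.sqrt_sq_eq_abs]
    exact mul_le_mul_of_nonneg_left h1 (abs_nonneg c)
  · rw [dens_smul, ← smul_sub, l1_smul]
    exact mul_le_mul_of_nonneg_left h2 (abs_nonneg c)

theorem Ap.neg {R μ : Msr} {a ε : ℝ} (h : Ap R μ a ε) : Ap R (-μ) a ε := by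
  simpa using h.smul (-1)

theorem Ap.sub {R μ ν : Msr} (hR : IsProb R) {a b ε δ : ℝ} (h : Ap R μ a ε) (h' : Ap R ν b δ) :
    Ap R (μ - ν) (a + b) (ε + δ) := by
  simpa [sub_eq_add_neg] using h.add hR h'.neg

theorem Ap.sum {R : Msr} (hR : IsProb R) {ι : Type*} (s : Finset ι) (F : ι → Msr)
    (a ε : ι → ℝ) (h : ∀ i ∈ s, Ap R (F i) (a i) (ε i)) :
    Ap R (∑ i ∈ s, F i) (∑ i ∈ s, a i) (∑ i ∈ s, ε i) := by
  classical
  induction s using Finset.induction_on with
  | empty => simpa using Ap.zero R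
  | insert i s hi ih =>
    rw [sum_insert hi, sum_insert hi, sum_insert hi]
    exact (h i (mem_insert_self i s)).add hR (ih fun j hj => h j (mem_insert_of_mem hj))

theorem Ap.mul {R S μ ν : Msr} (hR : IsProb R) (hS : IsProb S) {a b ε δ : ℝ} (h : Ap R μ a ε)
    (h' : Ap S ν b δ) : Ap (R * S) (μ * ν) (a * b) (a * δ + ε * b + ε * δ) := by
  obtain ⟨f, h1, h2⟩ := h
  obtain ⟨g, g1, g2⟩ := h'
  obtain ⟨k, e, hk⟩ := exists_dens_mul hR hS f g
  have ha : 0 ≤ a := (Real.sqrt_nonneg _).trans h1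
  refine ⟨k, ?_, ?_⟩
  · calc Real.sqrt (ip (R * S) k k) ≤ Real.sqrt (ip R f f * ip S g g) := Real.sqrt_le_sqrt hk
      _ = Real.sqrt (ip R f f) * Real.sqrt (ip S g g) := Real.sqrt_mul (ip_self_nonneg hR f) _
      _ ≤ a * b := mul_le_mul h1 g1 (Real.sqrt_nonneg _) ha
  · rw [← e, show μ * ν - dens R f * dens S g = dens R f * (ν - dens S g) +
      (μ - dens R f) * dens S g + (μ - dens R f) * (ν - dens S g) by noncomm_ring]
    have := l1_nonneg (μ - dens R f)
    refine (l1_add_le _ _).trans (add_le_add ((l1_add_le _ _).trans (add_le_add ?_ ?_)) ?_) <;>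
      refine (l1_mul_le _ _).trans ?_
    · exact mul_le_mul ((l1_dens_le hR f).trans h1) g2 (l1_nonneg _) ha
    · exact mul_le_mul h2 ((l1_dens_le hS g).trans g1) (l1_nonneg _) (this.trans h2)
    · exact mul_le_mul h2 g2 (l1_nonneg _) (this.trans h2)

/-- A measure of mass zero may be given a density of mean zero. -/
theorem Ap.center {R μ : Msr} (hR : IsProb R) {a ε : ℝ} (h : Ap R μ a ε) (h0 : mass μ = 0) :
    ∃ f : W → ℝ, ip R f (fun _ => 1) = 0 ∧ Real.sqrt (ip R f f) ≤ a ∧
      l1 (μ - dens R f) ≤ 2 * ε := by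
  obtain ⟨f, h1, h2⟩ := h
  have hone := ip_one hR
  set m := ip R f fun _ => 1 with hm
  refine ⟨f + (-m) • fun _ => 1, ?_, ?_, ?_⟩
  · rw [ip_add_left, ip_smul_left, hone, ← hm]
    ring
  · refine le_trans (Real.sqrt_le_sqrt ?_) h1
    have e : ip R (f + (-m) • fun _ => 1) (f + (-m) • fun _ => 1) =
        ip R f f + 2 * (-m) * ip R f (fun _ => 1) + m * m * ip R (fun _ => 1) (fun _ => 1) := by
      simp only [ip, mul_sum, ← sum_add_distrib]
      exact Finset.sum_congr rfl fun t _ => by simp; ring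
    rw [e, hone, ← hm]
    nlinarith [mul_self_nonneg m]
  · have hd : dens R (f + (-m) • fun _ => 1) = dens R f + (-m) • R := by
      rw [dens_add, dens_smul, dens_one]
    have hm' : |m| ≤ ε := by
      have := abs_mass_le (μ - dens R f)
      rw [map_sub, h0, zero_sub, abs_neg, mass_dens] at this
      exact this.trans h2
    rw [hd, ← sub_sub]
    refine (l1_sub_le _ _).trans ?_
    rw [l1_smul, hR.l1_eq, mul_one, abs_neg]
    linarith

end Vale.Agent.P321.Super
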