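import Vale.Agent.P321.Super.Lift

/-!
# P321: few spread defects in a pure stretch are hidden

A stretch of units `01` with lone letters `1` at gaps of at least `L / 4` and at most `ε L²` units
has almost the law of the pure stretch. Each unit becomes one token with a common keeping
probability, the defects are split at the middle, and each half is read away from its end.
-/

namespace Vale.Agent.P321.Super

open Finset
open MonoidAlgebra (single)

theorem coll_mul {α : Type*} (x x' : α → α → ℝ) (τ σ : List α) :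
    coll x τ σ * coll x' τ σ = coll (fun t s => (1 + x t s) * (1 + x' t s) - 1) τ σ := by
  induction τ generalizing σ with
  | nil => cases σ <;> simp [coll]
  | cons t τ ih =>
    cases σ with
    | nil => simp [coll]
    | cons s σ => simp only [coll, ← ih σ]; ring

theorem coll_snoc {α : Type*} (x : α → α → ℝ) (τ σ : List α) (t s : α) :
    coll x (τ ++ [t]) (σ ++ [s]) = coll x τ σ * (1 + x t s) := by
  induction τ generalizing σ with
  | nil => rcases σ with _ | ⟨s', _ | ⟨s'', σ⟩⟩ <;> simp [coll]
  | cons t' τ ih =>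
    cases σ with
    | nil => rcases τ with _ | ⟨t'', τ⟩ <;> simp [coll]
    | cons s' σ => simp only [List.cons_append, coll, ih]; ring

theorem coll_eq_zero {α : Type*} (x : α → α → ℝ) (τ σ : List α) (h : τ.length ≠ σ.length) :
    coll x τ σ = 0 := by
  induction τ generalizing σ with
  | nil => cases σ <;> simp_all [coll]
  | cons t τ ih => cases σ <;> simp_all [coll]

theorem coll_reverse {α : Type*} (x : α → α → ℝ) (τ σ : List α) :
    coll x τ.reverse σ.reverse = coll x τ σ := by
  induction τ generalizing σ with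
  | nil => cases σ <;> simp [coll, coll_eq_zero]
  | cons t τ ih =>
    cases σ with
    | nil => rw [coll_eq_zero, coll_eq_zero] <;> simp
    | cons s σ => rw [List.reverse_cons, List.reverse_cons, coll_snoc, ih, coll]; ring

theorem ee_reverse {α : Type*} (θ : ℝ) (x : α → α → ℝ) (r r' : List α) :
    ee θ x r.reverse r'.reverse = ee θ x r r' := by
  simp only [ee, thin_reverse, coll_reverse]

/-- Gaps of plain units with one marked unit between them. -/
def blocks : List ℕ → List Bool
  | [] => []
  | [x] => List.replicate x false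
  | x :: y :: l => List.replicate x false ++ true :: blocks (y :: l)

theorem blocks_length (l : List ℕ) : (blocks l).length = l.sum + l.length - 1 := by
  induction l using blocks.induct with
  | case1 => rfl
  | case2 x => simp [blocks]
  | case3 x y l ih => simp [blocks, ih]; omega

theorem blocks_prod {M : Type*} [Monoid M] (a b : M) {l : List ℕ} (hl : l ≠ []) :
    ((blocks l).map fun c => if c then b else a).prod =
      a ^ l.headI * (l.tail.map fun x => b * a ^ x).prod := by
  induction l using blocks.induct with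
  | case1 => exact absurd rfl hl
  | case2 x => simp [blocks]
  | case3 x y l ih => simp [blocks, ih, mul_assoc]

theorem blocks_good {g : ℕ} {l : List ℕ} (hg : ∀ x ∈ l, g ≤ x) {j : ℕ}
    (hj : (blocks l).getD j false = true) :
    g ≤ j ∧ j + 1 + g ≤ (blocks l).length ∧
      ∀ j' < j, (blocks l).getD j' false = true → j' + g ≤ j := by
  induction l using blocks.induct generalizing j with
  | case1 => simp [blocks] at hj
  | case2 x =>
    simp only [blocks, List.getD_eq_getElem?_getD, List.getElem?_replicate] at hj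
    split_ifs at hj <;> simp at hj
  | case3 x y l ih =>
    have hx : g ≤ x := hg x (by simp)
    have hy : g ≤ y := hg y (by simp)
    have hi := @ih fun z hz => hg z (List.mem_cons_of_mem x hz)
    have hget : ∀ i, (blocks (x :: y :: l)).getD i false = true →
        i = x ∨ ∃ k, i = x + 1 + k ∧ (blocks (y :: l)).getD k false = true := by
      intro i h
      simp only [blocks, List.getD_eq_getElem?_getD] at h ⊢
      rcases lt_trichotomy i x with hlt | rfl | hgt
      · simp [List.getElem?_append, hlt] at h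
      · exact Or.inl rfl
      · refine Or.inr ⟨i - (x + 1), by omega, ?_⟩
        rw [List.getElem?_append_right (by simp; omega), List.length_replicate,
          show i - x = i - (x + 1) + 1 by omega, List.getElem?_cons_succ] at h
        exact h
    have hlen : (blocks (x :: y :: l)).length = x + 1 + (blocks (y :: l)).length := by
      simp [blocks]; omega
    have hyl : y ≤ (blocks (y :: l)).length := by rw [blocks_length]; simp; omega
    rw [hlen]
    rcases hget j hj with rfl | ⟨k, rfl, hk⟩
    · refine ⟨hx, by omega, fun j' hj' h => ?_⟩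
      rcases hget j' h with rfl | ⟨k, rfl, -⟩ <;> omega
    · obtain ⟨h1, h2, h3⟩ := hi hk
      refine ⟨by omega, by omega, fun j' hj' h => ?_⟩
      rcases hget j' h with rfl | ⟨k', rfl, hk'⟩
      · omega
      · have := h3 k' (by omega) hk'
        omega

/-- One for the types of defects. -/
def isDef : Option Bool → ℝ
  | none => 0
  | some _ => 1

/-- One for the defects of one half. -/
def isHalf (h : Bool) : Option Bool → ℝ
  | none => 0
  | some b => if b = h then 1 else 0

/-- The units with their halves: `true` is the first half. -/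
def tagged (bs : List Bool) : List (Option Bool) :=
  bs.mapIdx fun j b => if b then some (decide (2 * j ≤ bs.length)) else none

theorem markAt_tagged (bs : List Bool) (j : ℕ) :
    markAt isDef (tagged bs) j = if bs.getD j false then 1 else 0 := by
  simp only [markAt, tagged, List.getD_eq_getElem?_getD, List.getElem?_map, List.getElem?_mapIdx]
  rcases bs[j]? with _ | _ | _ <;> simp [isDef]

theorem tagged_suffix {bs : List Bool} {t : Option Bool} {r : List (Option Bool)}
    (h : (t :: r) <:+ tagged bs) (ht : isHalf true t ≠ 0) : bs.length ≤ 2 * (r.length + 1) := by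
  obtain ⟨pre, hp⟩ := h
  have hl : pre.length + (r.length + 1) = bs.length := by
    simpa [tagged] using congrArg List.length hp
  have he : (tagged bs)[pre.length]? = some t := by rw [← hp]; simp
  simp only [tagged, List.getElem?_mapIdx] at he
  rcases hb : bs[pre.length]? with _ | b <;> simp only [hb, Option.map, reduceCtorEq] at he
  rcases b with _ | _ <;> simp only [Option.some.injEq, Bool.false_eq_true, if_false, if_true] at he
  · simp [← he, isHalf] at ht
  · subst he
    simp only [isHalf, ne_eq, ite_eq_right_iff, one_ne_zero, imp_false, not_not,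
      decide_eq_true_eq] at ht
    omega

theorem tagged_reverse_suffix {bs : List Bool} {t : Option Bool} {r : List (Option Bool)}
    (h : (t :: r) <:+ (tagged bs).reverse) (ht : isHalf false t ≠ 0) :
    bs.length ≤ 2 * (r.length + 1) := by
  obtain ⟨pre, hp⟩ := h
  have he : (tagged bs)[r.length]? = some t := by
    have hp' := congrArg List.reverse hp
    rw [List.reverse_reverse, List.reverse_append, List.reverse_cons] at hp'
    rw [← hp']
    simp
  simp only [tagged, List.getElem?_mapIdx] at he
  rcases hb : bs[r.length]? with _ | b <;> simp only [hb, Option.map, reduceCtorEq] at he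
  rcases b with _ | _ <;> simp only [Option.some.injEq, Bool.false_eq_true, if_false, if_true] at he
  · simp [← he, isHalf] at ht
  · subst he
    simp only [isHalf, ne_eq, ite_eq_right_iff, one_ne_zero, imp_false, not_not,
      decide_eq_false_iff_not] at ht
    omega

/-- The twin excess of spread defects. -/
theorem tagged_twin_le {θ : ℝ} (h0 : 0 < θ) (h1 : θ < 1) {a : ℝ} (ha : 0 ≤ a) {g : ℕ} (hg : 0 < g)
    {bs : List Bool} (hne : bs ≠ []) (hgood : ∀ j, bs.getD j false = true → g ≤ j ∧
      j + 1 + g ≤ bs.length ∧ ∀ j' < j, bs.getD j' false = true → j' + g ≤ j) {η : ℝ}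
    (hη : 4 * Real.sqrt (1 / (2 * min θ (1 - θ) * θ)) * Real.sqrt ((bs.length : ℝ) / g ^ 2) +
      2 * ((bs.length : ℝ) / g ^ 2) ≤ η) (haη : (2 * a + a ^ 2) * η ≤ 1 / 2) :
    ee θ (fun t s => a * (isDef t * isDef s)) (tagged bs) (tagged bs) -
        ee θ (fun _ _ => 0) (tagged bs) (tagged bs) ≤
      2 * (2 * a + a ^ 2) * η * Real.sqrt (1 / (min θ (1 - θ) * bs.length)) := by
  set ts := tagged bs with hts
  set U := bs.length with hU
  have hlen : ts.length = U := by simp [hts, tagged, hU]
  have hUpos : (0 : ℝ) < U := by exact_mod_cast List.length_pos_of_ne_nil hne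
  set a' := 2 * a + a ^ 2 with ha'
  have ha'0 : 0 ≤ a' := by positivity
  have hmem : ∀ j, j ∈ marks isDef ts ↔ bs.getD j false = true := by
    intro j
    simp only [marks, Finset.mem_filter, mem_range, hts, markAt_tagged]
    refine ⟨fun h => by simpa using h.2, fun h => ⟨?_, by
      rw [List.getD_eq_getElem?_getD] at h; simp [h]⟩⟩
    have := (hgood j h).2.1
    simp [tagged]; omega
  have hrev : ∀ j, j ∈ marks isDef ts.reverse → j < U ∧ bs.getD (U - 1 - j) false = true := by
    intro j hj
    simp only [marks, Finset.mem_filter, mem_range, List.length_reverse, hlen] at hj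
    refine ⟨hj.1, (hmem _).1 ?_⟩
    simp only [marks, Finset.mem_filter, mem_range, hlen]
    refine ⟨by omega, ?_⟩
    have := hj.2
    simp only [markAt, List.getD_eq_getElem?_getD, List.getElem?_map] at this ⊢
    rwa [List.getElem?_reverse (by omega), hlen] at this
  have hsp : Spaced g (marks isDef ts) := fun j hj => by
    obtain ⟨a1, -, a3⟩ := hgood j ((hmem j).1 hj)
    exact ⟨by omega, fun j' hj' hlt => a3 j' hlt ((hmem j').1 hj')⟩
  have hsp' : Spaced g (marks isDef ts.reverse) := fun j hj => by
    obtain ⟨hjU, hb⟩ := hrev j hj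
    refine ⟨by have := (hgood _ hb).2.1; omega, fun j' hj' hlt => ?_⟩
    obtain ⟨hjU', hb'⟩ := hrev j' hj'
    have := (hgood _ hb').2.2 (U - 1 - j) (by omega) hb
    omega
  have hcase : ∀ (h : Bool) (T : List (Option Bool)), T.length = U → Spaced g (marks isDef T) →
      (∀ t r, (t :: r) <:+ T → isHalf h t ≠ 0 → U ≤ 2 * (r.length + 1)) →
      ee θ (fun t s => a' * (isHalf h t * isDef s)) T T - ee θ (fun _ _ => 0) T T ≤
        2 * a' * η * Real.sqrt (1 / (min θ (1 - θ) * U)) := by
    intro h T hT hspT hhalf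
    have hd01 : ∀ t, isDef t = 0 ∨ isDef t = 1 := fun t => by cases t <;> simp [isDef]
    refine ee_le h0.le h1.le ha'0 (fun t => ?_) (fun t => ?_) (fun r hr => ?_) (fun r r' hr => ?_) haη
    · rcases t with _ | b <;> simp [isHalf]; split_ifs <;> norm_num
    · rcases t with _ | b <;> simp [isHalf, isDef]; split_ifs <;> norm_num
    · have hcard : (marks isDef T).card * g ≤ U :=
        card_mul_le hspT fun j hj => by
          simpa [hT] using (Finset.mem_filter.1 hj).1
      obtain ⟨hs, hc⟩ : Spaced g (marks isDef r) ∧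
          (marks isDef r).card ≤ (marks isDef T).card := by
        rcases hr with rfl | ⟨t, ht, hdt⟩
        · exact ⟨hspT, le_rfl⟩
        · exact spaced_suffix hspT ht hdt
      have hg' : (0 : ℝ) < g := by exact_mod_cast hg
      have hle : ((marks isDef r).card : ℝ) / g ≤ (U : ℝ) / g ^ 2 := by
        rw [div_le_div_iff₀ hg' (by positivity)]
        have : ((marks isDef r).card : ℝ) * g ≤ U := by
          exact_mod_cast (Nat.mul_le_mul_right g hc).trans hcard
        nlinarith
      refine (sum_hit_sq_le h0 h1 hd01 hg hs _).trans (le_trans ?_ hη)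
      rw [mul_div_assoc (2 : ℝ)]
      gcongr
    · have hK : (U : ℝ) / 2 ≤ r.length + 1 := by
        rcases hr with rfl | ⟨t, ht, hut⟩
        · rw [hT]; linarith
        · have : (U : ℝ) ≤ 2 * ((r.length : ℝ) + 1) := by exact_mod_cast hhalf t r ht hut
          linarith
      refine (ee_zero_le h0 h1 r r' (by positivity) hK).trans_eq ?_
      congr 1
      field_simp
  have hA := hcase true ts hlen hsp fun t r h ht => tagged_suffix h ht
  have hB := hcase false ts.reverse (by simp [hlen]) hsp' fun t r h ht => tagged_reverse_suffix h ht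
  rw [ee_reverse, ee_reverse] at hB
  have hpt : ∀ τ σ : List (Option Bool), coll (fun t s => a * (isDef t * isDef s)) τ σ -
      coll (fun _ _ => 0) τ σ ≤
      (1 / 2 : ℝ) * ((coll (fun t s => a' * (isHalf true t * isDef s)) τ σ -
        coll (fun _ _ => 0) τ σ) + (coll (fun t s => a' * (isHalf false t * isDef s)) τ σ -
        coll (fun _ _ => 0) τ σ)) := by
    intro τ σ
    set X := coll (fun t s => a * (isHalf true t * isDef s)) τ σ with hX
    set Y := coll (fun t s => a * (isHalf false t * isDef s)) τ σ with hY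
    have e1 : coll (fun t s => a * (isDef t * isDef s)) τ σ = X * Y := by
      rw [hX, hY, coll_mul]
      congr 1
      funext t s
      rcases t with _ | _ | _ <;> simp [isHalf, isDef]
    have e2 : ∀ h, coll (fun t s => a' * (isHalf h t * isDef s)) τ σ =
        coll (fun t s => a * (isHalf h t * isDef s)) τ σ *
          coll (fun t s => a * (isHalf h t * isDef s)) τ σ := by
      intro h
      rw [coll_mul]
      congr 1
      funext t s
      rcases t with _ | _ | _ <;> rcases s with _ | _ <;> cases h <;> simp [isHalf, isDef, ha'] <;>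
        ring
    rw [e1, e2, e2, ← hX, ← hY]
    nlinarith [sq_nonneg (X - Y)]
  have hsum : ee θ (fun t s => a * (isDef t * isDef s)) ts ts - ee θ (fun _ _ => 0) ts ts ≤
      (1 / 2 : ℝ) * ((ee θ (fun t s => a' * (isHalf true t * isDef s)) ts ts -
        ee θ (fun _ _ => 0) ts ts) + (ee θ (fun t s => a' * (isHalf false t * isDef s)) ts ts -
        ee θ (fun _ _ => 0) ts ts)) := by
    simp only [ee, ← thin_sub, ← thin_add, ← smul_eq_mul (1 / 2 : ℝ), ← thin_smul]
    exact thin_mono h0.le h1.le ts fun τ => thin_mono h0.le h1.le ts fun σ => by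
      simpa [smul_eq_mul] using hpt τ σ
  linarith

/-- The words of the letters of a unit. -/
def unitWord : Fin 4 → W :=
  ![1, FreeMonoid.of false, FreeMonoid.of true, FreeMonoid.of false * FreeMonoid.of true]

theorem tail_le {δ β U : ℝ} (hδ : 0 < δ) (h1 : 1 ≤ β) (h2 : 4 / δ ≤ β) (hU : 0 < U) :
    2 * (U / (β * Real.sqrt U) ^ 2) ≤ δ / 2 := by
  rw [mul_pow, Real.sq_sqrt hU.le, show U / (β ^ 2 * U) = 1 / β ^ 2 by field_simp, mul_one_div,
    div_le_iff₀ (by positivity)]
  rw [div_le_iff₀ hδ] at h2
  nlinarith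

theorem tagged_map {M : Type*} (bs : List Bool) {f : Option Bool → M} {x y : M} (hx : f none = x)
    (hy : ∀ b, f (some b) = y) : (tagged bs).map f = bs.map fun c => if c then y else x := by
  refine List.ext_getElem? fun j => ?_
  simp only [tagged, List.getElem?_map, List.getElem?_mapIdx]
  rcases bs[j]? with _ | _ | _ <;> simp [hx, hy]

theorem pure_map {M : Type*} (bs : List Bool) (f : Option Bool → M) :
    ((tagged bs).map fun _ => none).map f = List.replicate bs.length (f none) := by
  simp [tagged]

theorem unitLaw_pure {p q θ : ℝ} (hθ : θ ≠ 0) (hq : q = 1 - p) :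
    (1 - θ) • (1 : Msr) + θ • ∑ c, (![1 - (1 - q ^ 2) / θ, p * q / θ, p * q / θ, p ^ 2 / θ] c) •
      single (unitWord c) (1 : ℝ) = letter p false * letter p true := by
  simp only [letter, add_mul, mul_add, MonoidAlgebra.single_mul_single, one_mul, mul_one,
    MonoidAlgebra.one_def, Fin.sum_univ_four, unitWord, Matrix.cons_val, smul_add,
    MonoidAlgebra.smul_single', mul_sub, mul_div_cancel₀ _ hθ, ← hq]
  rw [show q * p = p * q from mul_comm q p, ← add_assoc, ← add_assoc, ← add_assoc,
    ← MonoidAlgebra.single_add, show (1 - θ + (θ - (1 - q ^ 2))) = q * q by ring,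
    show p * p = p ^ 2 by ring]
  abel

theorem unitLaw_defect {p θ : ℝ} (hθ : θ ≠ 0) :
    (1 - θ) • (1 : Msr) + θ • ∑ c, (![1 - p / θ, 0, p / θ, 0] c) •
      single (unitWord c) (1 : ℝ) = letter p true := by
  simp only [letter, MonoidAlgebra.one_def, Fin.sum_univ_four, unitWord, Matrix.cons_val,
    smul_add, MonoidAlgebra.smul_single', mul_one, mul_sub, mul_div_cancel₀ _ hθ,
    MonoidAlgebra.single_zero, add_zero]
  rw [← add_assoc, ← MonoidAlgebra.single_add, show (1 - θ + (θ - p)) = 1 - p by ring]

/-- The lifted second moment bounds the distance. -/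
theorem exists_lifted_bound {p : ℝ} (h0 : 0 < p) (h1 : p < 1) :
    ∃ θ a : ℝ, 0 < θ ∧ θ < 1 ∧ 0 ≤ a ∧ ∀ (g : List ℕ), g ≠ [] → ∀ R : ℝ, 0 < R →
      l1 ((letter p false * letter p true) ^ g.headI *
          (g.tail.map fun x => letter p true * (letter p false * letter p true) ^ x).prod -
        (letter p false * letter p true) ^ (blocks g).length) ≤
      Real.sqrt ((2 * R + 1) *
        (ee θ (fun t s => a * (isDef t * isDef s)) (tagged (blocks g)) (tagged (blocks g)) -
          ee θ (fun _ _ => 0) (tagged (blocks g)) (tagged (blocks g)))) +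
        2 * ((blocks g).length / R ^ 2) := by
  set q := 1 - p with hq
  have hq0 : 0 < q := by linarith
  set θ := 1 - q ^ 2 / 2 with hθ
  have hθ0 : 0 < θ := by nlinarith
  have hθ1 : θ < 1 := by nlinarith
  have hπ : 1 - q ^ 2 < θ := by nlinarith
  set ν₀ : Fin 4 → ℝ := ![1 - (1 - q ^ 2) / θ, p * q / θ, p * q / θ, p ^ 2 / θ] with hν₀
  set ν₁ : Fin 4 → ℝ := ![1 - p / θ, 0, p / θ, 0] with hν₁
  set ν : Option Bool → Fin 4 → ℝ := fun t => t.elim ν₀ fun _ => ν₁ with hν
  have hpos : ∀ c, 0 < ν₀ c := by
    intro c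
    have : (1 - q ^ 2) / θ < 1 := (div_lt_one hθ0).2 hπ
    fin_cases c <;> simp [hν₀] <;> first | linarith | positivity
  have hnn₁ : ∀ c, 0 ≤ ν₁ c := by
    intro c
    have : p / θ ≤ 1 := (div_le_one hθ0).2 (by nlinarith)
    fin_cases c <;> simp [hν₁] <;> first | linarith | positivity
  have hs₀ : ∑ c, ν₀ c = 1 := by
    simp [Fin.sum_univ_four, hν₀]; field_simp; rw [hq]; ring
  have hs₁ : ∑ c, ν₁ c = 1 := by simp [Fin.sum_univ_four, hν₁]
  have hν' : ∀ t c, 0 ≤ ν t c := fun t c => by
    rcases t with _ | _ <;> simp [hν, (hpos c).le, hnn₁ c]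
  have hνs : ∀ t, ∑ c, ν t c = 1 := fun t => by rcases t with _ | _ <;> simp [hν, hs₀, hs₁]
  set a := ∑ c, ν₁ c * ν₁ c / ν₀ c - 1 with ha
  have ha0 : 0 ≤ a := by
    have h := Finset.sum_sq_le_sum_mul_sum_of_sq_le_mul (r := ν₁) (f := ν₀)
      (g := fun c => ν₁ c * ν₁ c / ν₀ c) univ (fun c _ => (hpos c).le)
      (fun c _ => div_nonneg (mul_self_nonneg _) (hpos c).le) fun c _ => by
        rw [mul_div_cancel₀ _ (hpos c).ne', sq]
    rw [hs₁, hs₀, one_mul] at h
    linarith
  have hkern : kern ν ν₀ = fun t s => a * (isDef t * isDef s) := by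
    funext t s
    have hc : ∀ c, ν₀ c ≠ 0 := fun c => (hpos c).ne'
    rcases t with _ | _ <;> rcases s with _ | _ <;>
      simp [kern, hν, isDef, ha, hc, hs₀, hs₁, mul_div_assoc]
  refine ⟨θ, a, hθ0, hθ1, ha0, fun g hg R hR => ?_⟩
  set bs := blocks g with hbs
  set U := bs.length with hUdef
  have hunit : ∀ t : Option Bool, unitLaw θ ν unitWord t =
      if t.isSome then letter p true else letter p false * letter p true := by
    intro t
    rcases t with _ | b
    · exact unitLaw_pure hθ0.ne' hq
    · exact unitLaw_defect hθ0.ne'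
  have hprod : ((tagged bs).map (unitLaw θ ν unitWord)).prod =
      (letter p false * letter p true) ^ g.headI *
        (g.tail.map fun x => letter p true * (letter p false * letter p true) ^ x).prod := by
    rw [tagged_map bs (x := letter p false * letter p true) (y := letter p true) (hunit none)
      (fun b => hunit (some b)), hbs, blocks_prod _ _ hg]
  have hpure : (((tagged bs).map fun _ => none).map (unitLaw θ ν unitWord)).prod =
      (letter p false * letter p true) ^ U := by
    rw [pure_map, List.prod_replicate, hunit none]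
    rfl
  have hmain := l1_unit_sub_le hν' hνs hpos hs₀ (fun _ => none) (fun _ => rfl) unitWord hθ0.le
    hθ1.le (tagged bs) hR
  rw [hprod, hpure, hkern, show (tagged bs).length = U by simp [tagged, hUdef]] at hmain
  exact hmain

theorem eta_le {c ε z : ℝ} (hc : 0 ≤ c) (hε : 0 ≤ ε) (hε1 : ε ≤ 1) (hz : z ≤ 16 * ε) :
    4 * c * Real.sqrt z + 2 * z ≤ (16 * c + 32) * Real.sqrt ε := by
  have h1 : ε ≤ Real.sqrt ε := Real.le_sqrt_of_sq_le (by nlinarith)
  have h2 : Real.sqrt z ≤ 4 * Real.sqrt ε := by
    refine (Real.sqrt_le_sqrt hz).trans_eq ?_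
    rw [Real.sqrt_mul (by norm_num)]
    norm_num [show (16 : ℝ) = 4 ^ 2 by norm_num]
  nlinarith

theorem scale_le {β a η μ U δ : ℝ} (ha : 0 ≤ a) (hη : 0 ≤ η) (hμ : 0 < μ)
    (hU : 1 ≤ U) (hD : 0 ≤ 2 * (2 * β + 1) * a * Real.sqrt (1 / μ))
    (h : η ≤ δ ^ 2 / (2 * (2 * β + 1) * a * Real.sqrt (1 / μ) + 1)) :
    (2 * (β * Real.sqrt U) + 1) * (2 * a * η * Real.sqrt (1 / (μ * U))) ≤ δ ^ 2 := by
  have hU0 : 0 < U := by linarith
  have hsplit : Real.sqrt (1 / (μ * U)) * Real.sqrt U = Real.sqrt (1 / μ) := by
    rw [← Real.sqrt_mul (by positivity)]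
    congr 1
    field_simp
  have hsU : 1 ≤ Real.sqrt U := Real.one_le_sqrt.2 hU
  rw [le_div_iff₀ (by linarith)] at h
  calc (2 * (β * Real.sqrt U) + 1) * (2 * a * η * Real.sqrt (1 / (μ * U)))
      ≤ ((2 * β + 1) * Real.sqrt U) * (2 * a * η * Real.sqrt (1 / (μ * U))) := by
        gcongr
        nlinarith
    _ = 2 * (2 * β + 1) * a * η * (Real.sqrt (1 / (μ * U)) * Real.sqrt U) := by ring
    _ ≤ δ ^ 2 := by rw [hsplit]; nlinarith

/-- Spread lone letters in a pure stretch are hidden. -/
theorem window {p : ℝ} (h0 : 0 < p) (h1 : p < 1) {δ : ℝ} (hδ : 0 < δ) :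
    ∃ ε > 0, ∃ L0 : ℕ, ∀ L ≥ L0, ∀ g : List ℕ, g ≠ [] → (∀ x ∈ g, L ≤ 4 * x) →
      ((g.sum + g.length - 1 : ℕ) : ℝ) ≤ ε * (L : ℝ) ^ 2 →
      l1 ((letter p false * letter p true) ^ g.headI *
          (g.tail.map fun x => letter p true * (letter p false * letter p true) ^ x).prod -
        (letter p false * letter p true) ^ (g.sum + g.length - 1)) ≤ δ := by
  obtain ⟨θ, a, hθ0, hθ1, ha0, hl⟩ := exists_lifted_bound h0 h1
  set a' := 2 * a + a ^ 2 with ha'
  have ha'0 : 0 ≤ a' := by positivity
  set β := max 1 (4 / δ) with hβ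
  have hβ1 : 1 ≤ β := le_max_left _ _
  have hβ0 : 0 < β := by linarith
  set μ := min θ (1 - θ) with hμ
  have hμ0 : 0 < μ := lt_min hθ0 (by linarith)
  set C := 16 * Real.sqrt (1 / (2 * μ * θ)) + 32 with hC
  set D := 2 * (2 * β + 1) * a' * Real.sqrt (1 / μ) with hD
  have hC0 : 0 < C := by positivity
  have hD0 : 0 ≤ D := by positivity
  set η₀ := min (1 / (2 * (a' + 1))) ((δ / 2) ^ 2 / (D + 1)) with hη₀
  have hη0 : 0 < η₀ := by positivity
  set ε := min 1 ((η₀ / C) ^ 2) with hε
  refine ⟨ε, by positivity, 1, fun L hL g hg hgap hU => ?_⟩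
  set γ := (L + 3) / 4 with hγ
  have hγ0 : 0 < γ := by omega
  set bs := blocks g with hbs
  set U := bs.length with hUdef
  have hlenU : g.sum + g.length - 1 = U := by rw [hUdef, hbs, blocks_length]
  have hUL : L ≤ 4 * U := by
    obtain ⟨x, hx⟩ := List.exists_mem_of_ne_nil g hg
    have := hgap x hx
    have := List.le_sum_of_mem hx
    have := List.length_pos_of_ne_nil hg
    omega
  have hUpos : 0 < U := by omega
  rw [hlenU] at hU ⊢
  have hUg : (U : ℝ) / (γ : ℝ) ^ 2 ≤ 16 * ε := by
    rw [div_le_iff₀ (by positivity)]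
    have hLγ : (L : ℝ) ≤ 4 * γ := by exact_mod_cast (show L ≤ 4 * γ by omega)
    calc (U : ℝ) ≤ ε * (L : ℝ) ^ 2 := hU
      _ ≤ ε * (4 * (γ : ℝ)) ^ 2 := by gcongr
      _ = _ := by ring
  have hsε : C * Real.sqrt ε ≤ η₀ := by
    have : Real.sqrt ε ≤ η₀ / C := (Real.sqrt_le_sqrt (min_le_right _ _)).trans_eq
      (Real.sqrt_sq (by positivity))
    rwa [le_div_iff₀ hC0, mul_comm] at this
  have hη : 4 * Real.sqrt (1 / (2 * μ * θ)) * Real.sqrt ((U : ℝ) / γ ^ 2) +
      2 * ((U : ℝ) / γ ^ 2) ≤ η₀ :=
    (eta_le (Real.sqrt_nonneg _) (le_of_lt (by positivity : 0 < ε)) (min_le_left _ _) hUg).trans hsε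
  have haη : a' * η₀ ≤ 1 / 2 := by
    have h := mul_le_mul_of_nonneg_left (min_le_left (1 / (2 * (a' + 1))) ((δ / 2) ^ 2 / (D + 1))) ha'0
    refine h.trans ?_
    rw [mul_one_div, div_le_iff₀ (by linarith)]
    linarith
  have htw := tagged_twin_le hθ0 hθ1 ha0 hγ0 (bs := bs)
    (List.ne_nil_of_length_pos hUpos) (fun j hj => blocks_good (fun x hx => by
      have := hgap x hx; omega) hj) hη haη
  have hmain := hl g hg (β * Real.sqrt U) (by positivity)
  refine hmain.trans ?_
  have e2 : 2 * ((U : ℝ) / (β * Real.sqrt U) ^ 2) ≤ δ / 2 := tail_le hδ (le_max_left _ _)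
    (le_max_right _ _) (by exact_mod_cast hUpos)
  have e1 : Real.sqrt ((2 * (β * Real.sqrt U) + 1) *
      (ee θ (fun t s => a * (isDef t * isDef s)) (tagged bs) (tagged bs) -
        ee θ (fun _ _ => 0) (tagged bs) (tagged bs))) ≤ δ / 2 := by
    rw [Real.sqrt_le_left (by positivity)]
    refine (mul_le_mul_of_nonneg_left htw (by positivity)).trans ?_
    exact scale_le ha'0 hη0.le hμ0 (by exact_mod_cast hUpos) hD0 (min_le_right _ _)
  linarith

end Vale.Agent.P321.Super
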